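import Crest.Agent.R164.Haar
import Crest.Agent.R350.Transducer
import Crest.Agent.R350.Gauss

/-!
# R164 / MomH: auxiliary lemmas for `Mom` (Chebyshev, moments on the sphere, Gaussian integrals)
-/

set_option autoImplicit false

open MeasureTheory ProbabilityTheory Finset Matrix

namespace Crest.Agent.R164

lemma mom_cheb {Ω : Type} [MeasurableSpace Ω] (μ : Measure Ω) [IsFiniteMeasure μ] (f : Ω → ℝ)
    (hf : Integrable (fun x => f x ^ 2) μ) {δ B : ℝ} (hδ : 0 < δ) (h : ∫ x, f x ^ 2 ∂μ ≤ B) :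
    μ.real {x | δ < |f x|} ≤ B / δ ^ 2 := by
  have h1 := mul_meas_ge_le_integral_of_nonneg (μ := μ) (f := fun x => f x ^ 2)
    (ae_of_all _ fun x => sq_nonneg _) hf (δ ^ 2)
  have h2 : μ.real {x | δ < |f x|} ≤ μ.real {x | δ ^ 2 ≤ f x ^ 2} :=
    measureReal_mono fun x hx => by
      have hx' : δ < |f x| := hx
      show δ ^ 2 ≤ f x ^ 2
      rw [← sq_abs (f x)]
      exact pow_le_pow_left₀ hδ.le hx'.le 2
  rw [le_div_iff₀ (by positivity)]
  nlinarith [sq_nonneg δ, mul_le_mul_of_nonneg_left h2 (sq_nonneg δ)]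

lemma mom_union {Ω J : Type} [MeasurableSpace Ω] [Fintype J] (μ : Measure Ω) [IsFiniteMeasure μ]
    (s : J → Set Ω) {B : ℝ} (h : ∀ j, μ.real (s j) ≤ B) :
    μ.real {x | ∃ j, x ∈ s j} ≤ Fintype.card J * B := by
  have e : {x | ∃ j, x ∈ s j} = ⋃ j, s j := by ext x; simp
  rw [e]
  refine (measureReal_iUnion_fintype_le s).trans ?_
  calc ∑ j, μ.real (s j) ≤ ∑ _j : J, B := Finset.sum_le_sum fun j _ => h j
    _ = _ := by simp

variable {ι : Type} [Fintype ι] [DecidableEq ι]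

lemma mom_exists_orth (u u' : ι → ℝ) (h : ∑ a, u a ^ 2 = ∑ a, u' a ^ 2) :
    ∃ B : Orth ι, B.1 *ᵥ u = u' := by
  obtain ⟨U, hU, h1⟩ := R350.exists_orth_of_gram (X := Unit) (fun _ => u) (fun _ => u')
    fun _ _ => by simpa [sq] using h
  exact ⟨Orth.mk' U hU, h1 ()⟩

lemma mom_cont (v : ι → ℝ) (a : ι) : Continuous fun O : Orth ι => (O.1 *ᵥ v) a := by
  simp only [Matrix.mulVec, dotProduct]
  exact continuous_finsetSum _ fun r _ => (Orth.continuous_entry a r).mul continuous_const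

lemma mom_int {f : Orth ι → ℝ} (hf : Continuous f) : Integrable f (haar ι) :=
  hf.integrable_of_hasCompactSupport (HasCompactSupport.of_compactSpace _)

lemma mom_inv (v u u' : ι → ℝ) (h : ∑ a, u a ^ 2 = ∑ a, u' a ^ 2) (g : ℝ → ℝ) :
    ∫ O, g (u ⬝ᵥ (O.1 *ᵥ v)) ∂haar ι = ∫ O, g (u' ⬝ᵥ (O.1 *ᵥ v)) ∂haar ι := by
  obtain ⟨B, hB⟩ := mom_exists_orth u u' h
  rw [← integral_mul_left_eq_self (fun O : Orth ι => g (u' ⬝ᵥ (O.1 *ᵥ v))) B]
  refine integral_congr_ae (ae_of_all _ fun O => ?_)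
  have e : (B * O).1 *ᵥ v = B.1 *ᵥ (O.1 *ᵥ v) := by
    rw [Matrix.mulVec_mulVec]; rfl
  simp only [e]
  rw [← hB, B.dot_mulVec]

lemma mom_sq_single (a : ι) (c : ℝ) : ∑ i, (Pi.single a c : ι → ℝ) i ^ 2 = c ^ 2 := by
  rw [Finset.sum_eq_single a] <;> simp +contextual [Pi.single_apply]

lemma mom_sq_two {a b : ι} (h : a ≠ b) (c d : ℝ) :
    ∑ i, (Pi.single a c + Pi.single b d : ι → ℝ) i ^ 2 = c ^ 2 + d ^ 2 := by
  have e : ∀ i, (Pi.single a c + Pi.single b d : ι → ℝ) i ^ 2 =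
      (Pi.single a c : ι → ℝ) i ^ 2 + (Pi.single b d : ι → ℝ) i ^ 2 := fun i => by
    by_cases h1 : i = a
    · subst h1; simp [h]
    · simp [h1]
  simp only [e, Finset.sum_add_distrib, mom_sq_single]

lemma mom_eq_pow (v : ι → ℝ) (a b : ι) (k : ℕ) :
    ∫ O, (O.1 *ᵥ v) a ^ k ∂haar ι = ∫ O, (O.1 *ᵥ v) b ^ k ∂haar ι := by
  have h := mom_inv v (Pi.single a 1) (Pi.single b 1) (by simp only [mom_sq_single])
    (fun t => t ^ k)
  simpa only [single_dotProduct, one_mul] using h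

lemma mom_two (v : ι → ℝ) (hv : ∑ r, v r ^ 2 = 1) (a : ι) :
    ∫ O, (O.1 *ᵥ v) a ^ 2 ∂haar ι = 1 / Fintype.card ι := by
  have hN : (0 : ℝ) < Fintype.card ι := by
    have : Nonempty ι := ⟨a⟩
    exact_mod_cast Fintype.card_pos
  have h1 : ∑ b, ∫ O, (O.1 *ᵥ v) b ^ 2 ∂haar ι = 1 := by
    rw [← integral_finsetSum _ fun b _ => mom_int ((mom_cont v b).fun_pow 2)]
    simp [Orth.sum_sq_mulVec, hv]
  rw [Finset.sum_congr rfl fun b _ => mom_eq_pow v b a 2] at h1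
  simp only [Finset.sum_const, Finset.card_univ, nsmul_eq_mul] at h1
  rw [eq_div_iff hN.ne']
  linarith

lemma mom_22 (v : ι → ℝ) {a b : ι} (h : a ≠ b) :
    3 * ∫ O, (O.1 *ᵥ v) a ^ 2 * (O.1 *ᵥ v) b ^ 2 ∂haar ι = ∫ O, (O.1 *ᵥ v) a ^ 4 ∂haar ι := by
  have key : ∀ d : ℝ, d ^ 2 = 1 → ∫ O, ((O.1 *ᵥ v) a + d * (O.1 *ᵥ v) b) ^ 4 ∂haar ι =
      4 * ∫ O, (O.1 *ᵥ v) a ^ 4 ∂haar ι := fun d hd => by
    have h1 := mom_inv v (Pi.single a 1 + Pi.single b d) (Pi.single a (Real.sqrt 2))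
      (by rw [mom_sq_two h, mom_sq_single, hd, Real.sq_sqrt (by norm_num)]; norm_num)
      (fun t => t ^ 4)
    simp only [add_dotProduct, single_dotProduct, one_mul] at h1
    rw [h1, ← integral_const_mul]
    refine integral_congr_ae (ae_of_all _ fun O => ?_)
    have h2 : Real.sqrt 2 ^ 4 = 4 := by
      rw [show (4 : ℕ) = 2 * 2 from rfl, pow_mul, Real.sq_sqrt (by norm_num)]; norm_num
    simp only [mul_pow, h2]
  have h1 := key 1 (by norm_num)
  have h2 := key (-1) (by norm_num)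
  have ca := mom_cont v a
  have cb := mom_cont v b
  have h3 : ∫ O, ((O.1 *ᵥ v) a + 1 * (O.1 *ᵥ v) b) ^ 4 ∂haar ι +
      ∫ O, ((O.1 *ᵥ v) a + -1 * (O.1 *ᵥ v) b) ^ 4 ∂haar ι =
      2 * ∫ O, (O.1 *ᵥ v) a ^ 4 ∂haar ι + 12 * ∫ O, (O.1 *ᵥ v) a ^ 2 * (O.1 *ᵥ v) b ^ 2 ∂haar ι +
        2 * ∫ O, (O.1 *ᵥ v) b ^ 4 ∂haar ι := by
    rw [← integral_add (mom_int (by fun_prop)) (mom_int (by fun_prop)), ← integral_const_mul,
      ← integral_const_mul, ← integral_const_mul,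
      ← integral_add (mom_int (by fun_prop)) (mom_int (by fun_prop)),
      ← integral_add (mom_int (by fun_prop)) (mom_int (by fun_prop))]
    refine integral_congr_ae (ae_of_all _ fun O => ?_)
    ring
  have h4 := mom_eq_pow v b a 4
  linarith

lemma mom_sum_sq (v : ι → ℝ) (a₀ : ι) (P : Finset ι) :
    3 * ∫ O, (∑ a ∈ P, (O.1 *ᵥ v) a ^ 2) ^ 2 ∂haar ι =
      ((P.card : ℝ) ^ 2 + 2 * P.card) * ∫ O, (O.1 *ᵥ v) a₀ ^ 4 ∂haar ι := by
  have c := mom_cont v
  have e : ∀ O : Orth ι, (∑ a ∈ P, (O.1 *ᵥ v) a ^ 2) ^ 2 =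
      ∑ a ∈ P, ∑ b ∈ P, (O.1 *ᵥ v) a ^ 2 * (O.1 *ᵥ v) b ^ 2 := fun O => by
    rw [sq (∑ a ∈ P, (O.1 *ᵥ v) a ^ 2), Finset.sum_mul_sum]
  simp only [e]
  rw [integral_finsetSum _ fun a _ => mom_int
    (continuous_finsetSum _ fun b _ => ((c a).fun_pow 2).fun_mul ((c b).fun_pow 2)), Finset.mul_sum]
  have h1 : ∀ a ∈ P, 3 * ∫ O, ∑ b ∈ P, (O.1 *ᵥ v) a ^ 2 * (O.1 *ᵥ v) b ^ 2 ∂haar ι =
      ((P.card : ℝ) + 2) * ∫ O, (O.1 *ᵥ v) a₀ ^ 4 ∂haar ι := fun a ha => by
    rw [integral_finsetSum _ fun b _ => mom_int (((c a).fun_pow 2).fun_mul ((c b).fun_pow 2)), Finset.mul_sum]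
    have h2 : ∀ b ∈ P, 3 * ∫ O, (O.1 *ᵥ v) a ^ 2 * (O.1 *ᵥ v) b ^ 2 ∂haar ι =
        ∫ O, (O.1 *ᵥ v) a₀ ^ 4 ∂haar ι +
          if a = b then 2 * ∫ O, (O.1 *ᵥ v) a₀ ^ 4 ∂haar ι else 0 := fun b _ => by
      split_ifs with hab
      · subst hab
        rw [← mom_eq_pow v a a₀ 4]
        simp only [← pow_add]
        ring
      · rw [mom_22 v hab, mom_eq_pow v a a₀ 4, add_zero]
    rw [Finset.sum_congr rfl h2, Finset.sum_add_distrib, Finset.sum_ite_eq, if_pos ha]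
    simp only [Finset.sum_const, nsmul_eq_mul]
    ring
  rw [Finset.sum_congr rfl h1]
  simp only [Finset.sum_const, nsmul_eq_mul]
  ring

lemma mom_var (v : ι → ℝ) (hv : ∑ r, v r ^ 2 = 1) (P : Finset ι) :
    ∫ O, (∑ a ∈ P, (O.1 *ᵥ v) a ^ 2 - (P.card : ℝ) / Fintype.card ι) ^ 2 ∂haar ι ≤
      4 / Fintype.card ι := by
  have hne : Nonempty ι := by
    by_contra hc
    rw [not_nonempty_iff] at hc
    simp at hv
  obtain ⟨a₀⟩ := hne
  have hN : (0 : ℝ) < Fintype.card ι := by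
    have : Nonempty ι := ⟨a₀⟩
    exact_mod_cast Fintype.card_pos
  have c := mom_cont v
  have cS : Continuous fun O : Orth ι => ∑ a ∈ P, (O.1 *ᵥ v) a ^ 2 :=
    continuous_finsetSum _ fun a _ => (c a).pow 2
  have h1 := mom_sum_sq v a₀ P
  have h2 := mom_sum_sq v a₀ univ
  simp only [Orth.sum_sq_mulVec, hv, one_pow, integral_const, probReal_univ, smul_eq_mul, mul_one,
    Finset.card_univ] at h2
  have h3 : ∫ O, ∑ a ∈ P, (O.1 *ᵥ v) a ^ 2 ∂haar ι = P.card / Fintype.card ι := by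
    rw [integral_finsetSum _ fun a _ => mom_int ((c a).fun_pow 2),
      Finset.sum_congr rfl fun a _ => mom_two v hv a]
    simp only [Finset.sum_const, nsmul_eq_mul]
    ring
  have h4 : ∫ O, (∑ a ∈ P, (O.1 *ᵥ v) a ^ 2 - (P.card : ℝ) / Fintype.card ι) ^ 2 ∂haar ι =
      ∫ O, (∑ a ∈ P, (O.1 *ᵥ v) a ^ 2) ^ 2 ∂haar ι - (P.card / Fintype.card ι) ^ 2 := by
    have e : ∀ O : Orth ι, (∑ a ∈ P, (O.1 *ᵥ v) a ^ 2 - (P.card : ℝ) / Fintype.card ι) ^ 2 =
        (∑ a ∈ P, (O.1 *ᵥ v) a ^ 2) ^ 2 -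
          2 * (P.card / Fintype.card ι) * ∑ a ∈ P, (O.1 *ᵥ v) a ^ 2 +
            (P.card / Fintype.card ι) ^ 2 := fun O => by ring
    simp only [e]
    rw [integral_add (mom_int (by fun_prop)) (integrable_const _),
      integral_sub (mom_int (by fun_prop)) (mom_int (by fun_prop)), integral_const_mul, h3]
    simp only [integral_const, probReal_univ, smul_eq_mul, one_mul]
    ring
  rw [h4]
  have hn0 : (0 : ℝ) ≤ P.card := Nat.cast_nonneg _
  have hn : (P.card : ℝ) ≤ Fintype.card ι := by exact_mod_cast P.card_le_univ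
  generalize (∫ O, (∑ a ∈ P, (O.1 *ᵥ v) a ^ 2) ^ 2 ∂haar ι) = S at *
  generalize (∫ O, (O.1 *ᵥ v) a₀ ^ 4 ∂haar ι) = m at *
  generalize (P.card : ℝ) = n at *
  generalize (Fintype.card ι : ℝ) = N at *
  have hm : m = 3 / (N ^ 2 + 2 * N) := by
    rw [eq_div_iff (by positivity)]; linarith
  have hS : S = (n ^ 2 + 2 * n) / (N ^ 2 + 2 * N) := by
    rw [eq_div_iff (by positivity)]
    rw [hm] at h1
    field_simp at h1
    linarith
  have h5 : S ≤ (n ^ 2 + 2 * n) / N ^ 2 := by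
    rw [hS]
    exact div_le_div_of_nonneg_left (by positivity) (by positivity) (by linarith)
  have h6 : (n ^ 2 + 2 * n) / N ^ 2 - (n / N) ^ 2 = 2 * n / N ^ 2 := by ring
  have h7 : 2 * n / N ^ 2 ≤ 4 / N := by
    rw [div_le_div_iff₀ (by positivity) hN]
    nlinarith [mul_le_mul_of_nonneg_right hn hN.le, sq_nonneg N]
  linarith

/-! ### Gaussian facts -/

lemma mom_g1 : ∫ x, x ^ 1 ∂gs = 0 := by simp
lemma mom_g2 : ∫ x, x ^ 2 ∂gs = 1 := by
  have := R350.gm_succ 1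
  simpa [R350.gm] using this
lemma mom_g4 : ∫ x, x ^ 4 ∂gs = 3 := by
  have h := R350.gm_succ 3
  have h2 : R350.gm 2 = 1 := mom_g2
  norm_num [h2] at h
  exact h

lemma mom_exp_quarter : ∫⁻ y, ENNReal.ofReal (Real.exp (y ^ 2 / 4)) ∂gs ≤ 2 := by
  have h1 : (1 : NNReal) ≠ 0 := one_ne_zero
  simp only [gs]
  rw [gaussianReal_of_var_ne_zero _ h1,
    lintegral_withDensity_eq_lintegral_mul _ (measurable_gaussianPDF _ _) (by fun_prop)]
  have e : ∀ y : ℝ, (gaussianPDF 0 1 * fun y : ℝ => ENNReal.ofReal (Real.exp (y ^ 2 / 4))) y =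
      ENNReal.ofReal ((Real.sqrt (2 * Real.pi))⁻¹ * Real.exp (-(1 / 4) * y ^ 2)) := fun y => by
    simp only [Pi.mul_apply, gaussianPDF, gaussianPDFReal]
    rw [← ENNReal.ofReal_mul (by positivity), mul_assoc, ← Real.exp_add]
    congr 3
    · simp
    · push_cast; ring
  simp only [e]
  rw [← ofReal_integral_eq_lintegral_ofReal
    ((integrable_exp_neg_mul_sq (by norm_num)).const_mul _) (ae_of_all _ fun y => by positivity),
    integral_const_mul, integral_gaussian]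
  have h2 : (Real.sqrt (2 * Real.pi))⁻¹ * Real.sqrt (Real.pi / (1 / 4)) ≤ 2 := by
    have hp := Real.pi_pos
    rw [inv_mul_le_iff₀ (by positivity)]
    have : Real.sqrt (Real.pi / (1 / 4)) ≤ Real.sqrt (2 * Real.pi * 2 ^ 2) :=
      Real.sqrt_le_sqrt (by linarith)
    rwa [Real.sqrt_mul (by positivity), Real.sqrt_sq (by norm_num)] at this
  calc _ ≤ ENNReal.ofReal 2 := ENNReal.ofReal_le_ofReal h2
    _ = 2 := by simp

lemma mom_int_exp {τ : ℝ} (h : τ ≤ 1 / 4) : Integrable (fun y : ℝ => Real.exp (τ * y ^ 2)) gs := by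
  refine ⟨by fun_prop, ?_⟩
  rw [hasFiniteIntegral_iff_ofReal (ae_of_all _ fun y => (Real.exp_pos _).le)]
  refine lt_of_le_of_lt (le_trans (lintegral_mono fun y => ?_) mom_exp_quarter) (by simp)
  exact ENNReal.ofReal_le_ofReal (Real.exp_le_exp.2 (by nlinarith [sq_nonneg y]))

lemma mom_jensen {τ : ℝ} (h : τ ≤ 1 / 4) : Real.exp τ ≤ ∫ y, Real.exp (τ * y ^ 2) ∂gs := by
  have i2 : Integrable (fun y : ℝ => y ^ 2) gs := R350.integrable_pow_gauss 2
  have h1 : ∫ y, (Real.exp τ * τ * y ^ 2 + Real.exp τ * (1 - τ)) ∂gs = Real.exp τ := by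
    rw [integral_add (i2.const_mul _) (integrable_const _), integral_const_mul, mom_g2]
    simp only [integral_const, probReal_univ, smul_eq_mul, one_mul]
    ring
  rw [← h1]
  refine integral_mono ((i2.const_mul _).add (integrable_const _)) (mom_int_exp h) fun y => ?_
  have h2 := Real.add_one_le_exp (τ * y ^ 2 - τ)
  have h3 : Real.exp (τ * y ^ 2) = Real.exp τ * Real.exp (τ * y ^ 2 - τ) := by
    rw [← Real.exp_add]; congr 1; ring
  simp only [h3]
  nlinarith [mul_le_mul_of_nonneg_left h2 (Real.exp_pos τ).le]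

omit [DecidableEq ι] in
lemma mom_jensen_pi (τ : ι → ℝ) (h : ∀ c, τ c ≤ 1 / 4) :
    ENNReal.ofReal (Real.exp (∑ c, τ c)) ≤
      ∫⁻ g, ENNReal.ofReal (Real.exp (∑ c, τ c * g c ^ 2)) ∂(Lev.μ : Measure (ι → ℝ)) := by
  simp only [Real.exp_sum, μ_pi, μ_real]
  rw [← ofReal_integral_eq_lintegral_ofReal
    (Integrable.fintype_prod (f := fun c y => Real.exp (τ c * y ^ 2)) fun c => mom_int_exp (h c))
    (ae_of_all _ fun g => Finset.prod_nonneg fun c _ => (Real.exp_pos _).le),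
    integral_fintype_prod_eq_prod (f := fun c (y : ℝ) => Real.exp (τ c * y ^ 2))]
  exact ENNReal.ofReal_le_ofReal
    (Finset.prod_le_prod (fun c _ => (Real.exp_pos _).le) fun c _ => mom_jensen (h c))

lemma mom_exp_dot (b : ι) (x : ι → ℝ) {t : ℝ} (h : t * ∑ c, x c ^ 2 ≤ 1 / 4) :
    ∫⁻ g, ENNReal.ofReal (Real.exp (t * (x ⬝ᵥ g) ^ 2)) ∂(Lev.μ : Measure (ι → ℝ)) ≤ 2 := by
  have h0 : 0 ≤ ∑ c, x c ^ 2 := Finset.sum_nonneg fun c _ => sq_nonneg _
  obtain ⟨B, hB⟩ := mom_exists_orth (Pi.single b (Real.sqrt (∑ c, x c ^ 2))) x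
    (by rw [mom_sq_single, Real.sq_sqrt h0])
  have hm : Measurable fun g : ι → ℝ => ENNReal.ofReal (Real.exp (t * (x ⬝ᵥ g) ^ 2)) := by
    simp only [dotProduct]
    fun_prop
  rw [← (mp_gauss_mulVec B).lintegral_comp hm]
  have e : ∀ g : ι → ℝ, t * (x ⬝ᵥ (B.1 *ᵥ g)) ^ 2 = (t * ∑ c, x c ^ 2) * g b ^ 2 := fun g => by
    conv_lhs => rw [← hB, B.dot_mulVec, single_dotProduct, mul_pow, Real.sq_sqrt h0]
    ring
  simp only [e]
  have hm2 : Measurable fun y : ℝ => ENNReal.ofReal (Real.exp ((t * ∑ c, x c ^ 2) * y ^ 2)) := by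
    fun_prop
  rw [μ_pi, (measurePreserving_eval (fun _ : ι => (Lev.μ : Measure ℝ)) b).lintegral_comp hm2]
  refine le_trans (lintegral_mono fun y => ?_) mom_exp_quarter
  exact ENNReal.ofReal_le_ofReal (Real.exp_le_exp.2 (by nlinarith [sq_nonneg y]))

lemma mom_pi_sq {Y β : Type} [MeasurableSpace Y] [Fintype β] (ν : Measure Y)
    [IsProbabilityMeasure ν] {f : Y → ℝ} (hf : MemLp f 2 ν) (h0 : ∫ y, f y ∂ν = 0) :
    Integrable (fun y : β → Y => (∑ b, f (y b)) ^ 2) (Measure.pi fun _ => ν) ∧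
      ∫ y, (∑ b, f (y b)) ^ 2 ∂(Measure.pi fun _ : β => ν) =
        Fintype.card β * ∫ y, f y ^ 2 ∂ν := by
  have h1 : ∀ b : β, MemLp (fun y : β → Y => f (y b)) 2 (Measure.pi fun _ => ν) := fun b =>
    hf.comp_measurePreserving (measurePreserving_eval (fun _ : β => ν) b)
  have h2 : MemLp (fun y : β → Y => ∑ b, f (y b)) 2 (Measure.pi fun _ => ν) :=
    memLp_finsetSum _ fun b _ => h1 b
  refine ⟨h2.integrable_sq, ?_⟩
  have h3 := variance_sum_pi (μ := fun _ : β => ν) (X := fun _ => f) fun _ => hf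
  have e : (∑ i : β, fun ω : β → Y => f (ω i)) = fun y => ∑ b, f (y b) := by
    ext y; simp
  have h4 : ∫ y, ∑ b, f (y b) ∂(Measure.pi fun _ : β => ν) = 0 := by
    rw [integral_finsetSum _ fun b _ => (h1 b).integrable one_le_two]
    refine Finset.sum_eq_zero fun b _ => ?_
    rw [← h0]
    exact integral_comp_eval (μ := fun _ : β => ν) hf.aestronglyMeasurable
  rw [e, variance_eq_sub h2, variance_eq_sub hf, h4, h0] at h3
  simpa using h3

lemma mom_gram {A β : Type} [Fintype A] [DecidableEq A] [Fintype β] (α α' : A) :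
    Integrable (fun G : A → β → ℝ => (∑ b, (G α b * G α' b - if α = α' then 1 else 0)) ^ 2)
      Lev.μ ∧
    ∫ G : A → β → ℝ, (∑ b, (G α b * G α' b - if α = α' then 1 else 0)) ^ 2 ∂Lev.μ ≤
      2 * Fintype.card β := by
  have i2 : Integrable (fun y : ℝ => y ^ 2) gs := R350.integrable_pow_gauss 2
  have i4 : Integrable (fun y : ℝ => y ^ 4) gs := R350.integrable_pow_gauss 4
  by_cases h : α = α'
  · subst h
    simp only [if_true]
    have e : ∀ y : ℝ, (y * y - 1) ^ 2 = y ^ 4 - 2 * y ^ 2 + 1 := fun y => by ring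
    have hf : MemLp (fun y : ℝ => y * y - 1) 2 gs := by
      rw [memLp_two_iff_integrable_sq (by fun_prop)]
      simp only [e]
      exact (i4.sub (i2.const_mul _)).add (integrable_const _)
    have h0 : ∫ y, (y * y - 1) ∂gs = 0 := by
      simp only [← sq]
      rw [integral_sub i2 (integrable_const _), mom_g2]
      simp
    have h2 : ∫ y, (y * y - 1) ^ 2 ∂gs = 2 := by
      simp only [e]
      have i5 : Integrable (fun y : ℝ => y ^ 4 - 2 * y ^ 2) gs := i4.sub (i2.const_mul _)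
      rw [integral_add i5 (integrable_const _),
        integral_sub i4 (i2.const_mul _), integral_const_mul, mom_g2, mom_g4]
      simp only [integral_const, probReal_univ, smul_eq_mul, one_mul]
      norm_num
    obtain ⟨h3, h4⟩ := mom_pi_sq (β := β) gs hf h0
    have mp := measurePreserving_eval (fun _ : A => (Lev.μ : Measure (β → ℝ))) α
    refine ⟨mp.integrable_comp_of_integrable h3, ?_⟩
    have h5 := integral_comp_eval (μ := fun _ : A => (Lev.μ : Measure (β → ℝ))) (i := α)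
      h3.aestronglyMeasurable
    rw [h2] at h4
    exact (h5.trans h4).le.trans (by linarith)
  · simp only [if_neg h, sub_zero]
    have hf : MemLp (fun y : ℝ × ℝ => y.1 * y.2) 2 (gs.prod gs) := by
      rw [memLp_two_iff_integrable_sq (by fun_prop)]
      simp only [mul_pow]
      exact i2.mul_prod i2
    have h0 : ∫ y : ℝ × ℝ, y.1 * y.2 ∂(gs.prod gs) = 0 := by
      rw [integral_prod_mul (f := fun y : ℝ => y) (g := fun y : ℝ => y)]
      simp
    have h2 : ∫ y : ℝ × ℝ, (y.1 * y.2) ^ 2 ∂(gs.prod gs) = 1 := by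
      simp only [mul_pow]
      rw [integral_prod_mul (f := fun y : ℝ => y ^ 2) (g := fun y : ℝ => y ^ 2), mom_g2, one_mul]
    obtain ⟨h3, h4⟩ := mom_pi_sq (β := β) (gs.prod gs) hf h0
    have ind : IndepFun (fun G : A → β → ℝ => G α) (fun G => G α') Lev.μ :=
      (iIndepFun_pi (μ := fun _ : A => (Lev.μ : Measure (β → ℝ))) (X := fun _ => id)
        fun _ => aemeasurable_id).indepFun h
    have mp1 : MeasurePreserving (fun G : A → β → ℝ => (G α, G α')) Lev.μ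
        ((Measure.pi fun _ : β => gs).prod (Measure.pi fun _ : β => gs)) := by
      refine ⟨by fun_prop, ?_⟩
      rw [(indepFun_iff_map_prod_eq_prod_map_map (measurable_pi_apply α).aemeasurable
        (measurable_pi_apply α').aemeasurable).1 ind]
      congr 1
      · exact (measurePreserving_eval (fun _ : A => (Lev.μ : Measure (β → ℝ))) α).map_eq
      · exact (measurePreserving_eval (fun _ : A => (Lev.μ : Measure (β → ℝ))) α').map_eq
    have mp := ((measurePreserving_arrowProdEquivProdArrow ℝ ℝ β (fun _ => gs)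
      fun _ => gs).symm _).comp mp1
    refine ⟨mp.integrable_comp_of_integrable h3, ?_⟩
    have h5 := integral_map mp.measurable.aemeasurable (mp.map_eq.symm ▸ h3.aestronglyMeasurable)
    rw [mp.map_eq, h4, h2] at h5
    have hn : (0 : ℝ) ≤ Fintype.card β := Nat.cast_nonneg _
    exact (le_of_eq h5.symm).trans (by linarith)

end Crest.Agent.R164
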