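import Crest.Agent.R164.Model
import Crest.Agent.R164.MomH
import Crest.Agent.R350.Transducer

/-!
# R164 / Mom: moments of rotated coordinates, laws of large numbers for Gram matrices, square roots

`exists_orth_fix`: apply `R350.exists_orth_of_gram` to the family indexed by `X ⊕ {a // ¬ p a}`
(the vectors together with the basis vectors off the block).
`EE_exp_sq_le`: let `n = ct lab k`, `t = 1/(4N)`.  For every `g : {b // lab b = k} → ℝ` there is a
block rotation `B` with `(B x) a * |g| = Σ_b g_b x_b` for all `x` (`exists_orth_fix` sending the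
extension of `g` to `|g| e_a`), so by `Ham_lrot`, `EE_pull`:
`EE exp (t |g|² x_a²) = EE exp (t (g·x)²)`.  Integrate over the Gaussian `g` (`EE_eq`, Tonelli):
the right side is `EE (1 - 2 t |x_k|²)^{-1/2} ≤ √2`, the left side is at least `EE exp (t n x_a²)`
by Jensen (`E |g|² = n`; or `exp u ≥ exp c (1 + u - c)`).
`haar_col`: by right invariance take `v = e_r`.  With `m₂₂ = E O_a² O_b²` (`a ≠ b`), `m₄ = E O_a⁴`
(independent of the indices by left invariance under permutation matrices), `N m₄ + N(N-1) m₂₂ = 1`,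
`m₄ = 3 m₂₂` (rotation by `π/4`, `rot`, and sign symmetry), `E O_a² = 1/N`; Chebyshev.
`haar_gram`: polarisation with `(e_r ± e_{r'})/√2` and a union bound.
`exists_sqrt`: `S = CFC.sqrt Γ` (or the spectral theorem); `(S + c)(S - c) = Γ - c²` and
`c |w|² ≤ ⟨w, (S + c) w⟩` for `w = (S - c) e_j`.
-/

set_option autoImplicit false

open MeasureTheory ProbabilityTheory Finset Matrix

namespace Crest.Agent.R164

variable {ι κ : Type} [Fintype ι] [DecidableEq ι] [Fintype κ] [DecidableEq κ]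

lemma exists_orth_fix {T : Type} [Fintype T] (p : ι → Prop) (u w : T → ι → ℝ)
    (hu : ∀ x a, ¬p a → u x a = 0) (hw : ∀ x a, ¬p a → w x a = 0)
    (h : ∀ x y, ∑ a, u x a * u y a = ∑ a, w x a * w y a) :
    ∃ B : Orth ι, (∀ x, B.1 *ᵥ u x = w x) ∧
      ∀ a b, ¬p a ∨ ¬p b → B.1 a b = if a = b then 1 else 0 := by
  classical
  obtain ⟨U, hU, h1⟩ := R350.exists_orth_of_gram (X := T ⊕ {a // ¬p a})
    (Sum.elim u fun a => Pi.single a.1 1) (Sum.elim w fun a => Pi.single a.1 1) (by
      rintro (x | x) (y | y)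
      · exact h x y
      · simp [Pi.single_apply, hu x y.1 y.2, hw x y.1 y.2]
      · simp [Pi.single_apply, hu y x.1 x.2, hw y x.1 x.2]
      · rfl)
  have hc : ∀ a b, ¬p b → U a b = if a = b then 1 else 0 := fun a b hb => by
    have := congrFun (h1 (Sum.inr ⟨b, hb⟩)) a
    simpa [Pi.single_apply] using this
  refine ⟨Orth.mk' U hU, fun x => h1 (Sum.inl x), fun a b hab => ?_⟩
  rcases hab with ha | hb
  · have h2 := congrFun (congrFun hU a) b
    simp only [Matrix.mul_apply, Matrix.transpose_apply, Matrix.one_apply] at h2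
    rw [Finset.sum_congr rfl fun c _ => by rw [hc c a ha]] at h2
    simpa using h2
  · exact hc a b hb

theorem EE_exp_sq_le {R : ℕ} [NeZero R] {a : ℕ → ℝ} (ha : Exps R a) (lab : ι → κ) (lam : κ → ℝ)
    (V : (ι → Bool) → ℝ) (hy : Fin R → ι → ℝ) (px : κ → Fin R → ℝ) (b : ι) :
    EE a (Ham (fun c => lam (lab c)) V hy fun l c => px (lab c) l)
      (fun s => Real.exp ((ct lab (lab b) : ℝ) / (4 * Fintype.card ι) * xs s b ^ 2)) ≤ 2 := by
  set H := Ham (fun c => lam (lab c)) V hy fun l c => px (lab c) l with hH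
  have hml : ML H := ml_Ham _ _ _ _
  have := Pm_prob ha hml le_rfl (Lev.pt : St R (YS ι))
  have hN : (0 : ℝ) < Fintype.card ι := by
    have : Nonempty ι := ⟨b⟩
    exact_mod_cast Fintype.card_pos
  set t : ℝ := 1 / (4 * Fintype.card ι) with ht
  have ht0 : 0 ≤ t := by positivity
  have htN : t * Fintype.card ι = 1 / 4 := by rw [ht]; field_simp
  have hme : ∀ c : ι → ℝ, ME fun s : St R (YS ι) => Real.exp (∑ a, c a * xs s a ^ 2) :=
    fun c => (ml_xs_sq c).exp
  have hme1 : ∀ c : ℝ, ME fun s : St R (YS ι) => Real.exp (c * xs s b ^ 2) := fun c => by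
    simpa [Pi.single_apply] using hme (Pi.single b c)
  have hx : ∀ s : St R (YS ι), xs s b ^ 2 ≤ Fintype.card ι := fun s => by
    rw [← sum_sq_xs s]
    exact Finset.single_le_sum (f := fun a => xs s a ^ 2) (fun _ _ => sq_nonneg _)
      (Finset.mem_univ b)
  let m : ι → ℝ := fun c => if lab c = lab b then 1 else 0
  have hm2 : ∀ c, m c ^ 2 = m c := fun c => by simp only [m]; split_ifs <;> norm_num
  have hm1 : ∀ c, m c ≤ 1 := fun c => by simp only [m]; split_ifs <;> norm_num
  have hm0 : ∀ c, 0 ≤ m c := fun c => by simp only [m]; split_ifs <;> norm_num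
  have hms : ∑ c, m c = ct lab (lab b) := by simp [m, ct]
  -- the rotation step
  have hrot : ∀ g : ι → ℝ,
      ∫⁻ s, ENNReal.ofReal (Real.exp ((t * ∑ c, m c * g c ^ 2) * xs s b ^ 2)) ∂Pm a H R Lev.pt =
        ∫⁻ s, ENNReal.ofReal (Real.exp (t * ((fun c => m c * xs s c) ⬝ᵥ g) ^ 2))
          ∂Pm a H R Lev.pt := fun g => by
    have h0 : 0 ≤ ∑ c, m c * g c ^ 2 := Finset.sum_nonneg fun c _ => mul_nonneg (hm0 c) (sq_nonneg _)
    obtain ⟨B, hB, hB'⟩ := exists_orth_fix (T := Unit) (fun c => lab c = lab b)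
      (fun _ c => m c * g c) (fun _ => Pi.single b (Real.sqrt (∑ c, m c * g c ^ 2)))
      (fun _ c hc => by simp [m, hc])
      (fun _ c hc => Pi.single_eq_of_ne (by rintro rfl; exact hc rfl) _)
      (fun _ _ => by
        simp only [← sq]
        rw [mom_sq_single, Real.sq_sqrt h0]
        simp only [mul_pow, hm2])
    have hl : ∀ c c', B.1 c c' ≠ 0 → lab c = lab c' := fun c c' hcc => by
      by_cases h1 : lab c = lab b ∧ lab c' = lab b
      · rw [h1.1, h1.2]
      · rw [hB' c c' (not_and_or.1 h1)] at hcc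
        have : c = c' := by by_contra h2; exact hcc (if_neg h2)
        rw [this]
    have e1 : (fun s => H (lift (fun _ => lrot B) s)) = H := by
      ext s
      exact Ham_lrot B (fun c c' hcc => by simp [hl c c' hcc]) s
    have e2 : ∀ s : St R (YS ι), (t * ∑ c, m c * g c ^ 2) * xs (lift (fun _ => lrot B) s) b ^ 2 =
        t * ((fun c => m c * xs s c) ⬝ᵥ g) ^ 2 := fun s => by
      have h1 := B.dot_mulVec (fun c => m c * g c) (xs s)
      rw [hB (), single_dotProduct] at h1
      have h2 : (fun c => m c * xs s c) ⬝ᵥ g = (fun c => m c * g c) ⬝ᵥ xs s :=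
        Finset.sum_congr rfl fun c _ => by ring
      rw [xs_lrot, h2, ← h1, mul_pow, Real.sq_sqrt h0, mul_assoc]
    have h3 := EE_pull (fun _ => mp_lrot B) hml.meas (hme1 (t * ∑ c, m c * g c ^ 2)).meas a
    simp only [e1, e2] at h3
    have h4 : ME fun s : St R (YS ι) => Real.exp (t * ((fun c => m c * xs s c) ⬝ᵥ g) ^ 2) := by
      have h5 : Measurable fun s : St R (YS ι) =>
          Real.exp (t * ((fun c => m c * xs s c) ⬝ᵥ g) ^ 2) := by
        have := fun c => measurable_xs (R := R) (ι := ι) c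
        simp only [dotProduct]
        fun_prop
      refine ME.of_bdd h5 (Real.exp ((t * ∑ c, m c * g c ^ 2) * Fintype.card ι)) fun s => ?_
      rw [abs_of_pos (Real.exp_pos _), ← e2]
      exact Real.exp_le_exp.2 (mul_le_mul_of_nonneg_left (hx _) (mul_nonneg ht0 h0))
    rw [rep_ofReal ha hml le_rfl (hme1 _) (fun _ => (Real.exp_pos _).le),
      rep_ofReal ha hml le_rfl h4 fun _ => (Real.exp_pos _).le]
    exact congrArg ENNReal.ofReal h3.symm
  have hxm := fun c => measurable_xs (R := R) (ι := ι) c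
  have hM1 : Measurable fun q : St R (YS ι) × (ι → ℝ) =>
      ENNReal.ofReal (Real.exp ((t * ∑ c, m c * q.2 c ^ 2) * xs q.1 b ^ 2)) := by fun_prop
  have hM2 : Measurable fun q : St R (YS ι) × (ι → ℝ) =>
      ENNReal.ofReal (Real.exp (t * ((fun c => m c * xs q.1 c) ⬝ᵥ q.2) ^ 2)) := by
    simp only [dotProduct]
    fun_prop
  have key : ∫⁻ s, ENNReal.ofReal (Real.exp ((ct lab (lab b) : ℝ) / (4 * Fintype.card ι) *
      xs s b ^ 2)) ∂Pm a H R Lev.pt ≤ 2 :=
    calc _ ≤ ∫⁻ s, ∫⁻ g : ι → ℝ, ENNReal.ofReal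
            (Real.exp ((t * ∑ c, m c * g c ^ 2) * xs s b ^ 2)) ∂Lev.μ ∂Pm a H R Lev.pt := by
          refine lintegral_mono fun s => ?_
          have h1 := mom_jensen_pi (fun c => t * xs s b ^ 2 * m c) fun c => by
            have h2 : t * xs s b ^ 2 ≤ 1 / 4 := htN ▸ mul_le_mul_of_nonneg_left (hx s) ht0
            exact (mul_le_of_le_one_right (mul_nonneg ht0 (sq_nonneg _)) (hm1 c)).trans h2
          have e1 : ∑ c, t * xs s b ^ 2 * m c =
              (ct lab (lab b) : ℝ) / (4 * Fintype.card ι) * xs s b ^ 2 := by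
            rw [← Finset.mul_sum, hms, ht]; ring
          have e2 : ∀ g : ι → ℝ, ∑ c, t * xs s b ^ 2 * m c * g c ^ 2 =
              (t * ∑ c, m c * g c ^ 2) * xs s b ^ 2 := fun g => by
            rw [Finset.mul_sum, Finset.sum_mul]
            exact Finset.sum_congr rfl fun c _ => by ring
          simpa only [e1, e2] using h1
      _ = ∫⁻ g : ι → ℝ, ∫⁻ s, ENNReal.ofReal
            (Real.exp ((t * ∑ c, m c * g c ^ 2) * xs s b ^ 2)) ∂Pm a H R Lev.pt ∂Lev.μ :=
          lintegral_lintegral_swap hM1.aemeasurable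
      _ = ∫⁻ g : ι → ℝ, ∫⁻ s, ENNReal.ofReal
            (Real.exp (t * ((fun c => m c * xs s c) ⬝ᵥ g) ^ 2)) ∂Pm a H R Lev.pt ∂Lev.μ :=
          lintegral_congr hrot
      _ = ∫⁻ s, ∫⁻ g : ι → ℝ, ENNReal.ofReal
            (Real.exp (t * ((fun c => m c * xs s c) ⬝ᵥ g) ^ 2)) ∂Lev.μ ∂Pm a H R Lev.pt :=
          (lintegral_lintegral_swap hM2.aemeasurable).symm
      _ ≤ ∫⁻ _s, 2 ∂Pm a H R Lev.pt := by
          refine lintegral_mono fun s => mom_exp_dot b _ ?_
          rw [← htN, ← sum_sq_xs s]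
          refine mul_le_mul_of_nonneg_left (Finset.sum_le_sum fun c _ => ?_) ht0
          rw [mul_pow, hm2]
          exact mul_le_of_le_one_left (sq_nonneg _) (hm1 c)
      _ = 2 := by simp
  rw [rep_ofReal ha hml le_rfl (hme1 _) (fun _ => (Real.exp_pos _).le),
    ← ENNReal.ofReal_ofNat, ENNReal.ofReal_le_ofReal_iff (by norm_num)] at key
  exact key

theorem haar_col (p : ι → Prop) [DecidablePred p] (v : ι → ℝ) (hv : ∑ r, v r ^ 2 = 1) {δ : ℝ}
    (hδ : 0 < δ) :
    (haar ι).real {O | δ < |∑ a ∈ univ.filter p, (O.1 *ᵥ v) a ^ 2 -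
      ((univ.filter p).card : ℝ) / Fintype.card ι|} ≤ 4 / (Fintype.card ι * δ ^ 2) := by
  have cS : Continuous fun O : Orth ι => ∑ a ∈ univ.filter p, (O.1 *ᵥ v) a ^ 2 :=
    continuous_finsetSum _ fun a _ => (mom_cont v a).fun_pow 2
  have h := mom_cheb (haar ι) (fun O => ∑ a ∈ univ.filter p, (O.1 *ᵥ v) a ^ 2 -
    ((univ.filter p).card : ℝ) / Fintype.card ι) (mom_int (by fun_prop)) hδ (mom_var v hv _)
  rwa [div_div] at h

theorem haar_gram {C : Type} [Fintype C] [DecidableEq C] (lab : ι → κ) (j : C → ι)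
    (hj : Function.Injective j) {δ : ℝ} (hδ : 0 < δ) :
    (haar ι).real {O | ∃ k r r', δ < |∑ a ∈ univ.filter (lab · = k), O.1 a (j r) * O.1 a (j r') -
      if r = r' then (ct lab k : ℝ) / Fintype.card ι else 0|} ≤
      8 * Fintype.card κ * Fintype.card C ^ 2 / (Fintype.card ι * δ ^ 2) := by
  have key : ∀ q : κ × C × C, (haar ι).real {O | δ < |∑ a ∈ univ.filter (lab · = q.1),
      O.1 a (j q.2.1) * O.1 a (j q.2.2) -
        if q.2.1 = q.2.2 then (ct lab q.1 : ℝ) / Fintype.card ι else 0|} ≤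
      8 / (Fintype.card ι * δ ^ 2) := by
    rintro ⟨k, r, r'⟩
    have h48 : (8 : ℝ) / (Fintype.card ι * δ ^ 2) =
        4 / (Fintype.card ι * δ ^ 2) + 4 / (Fintype.card ι * δ ^ 2) := by ring
    have h4 : (0 : ℝ) ≤ 4 / (Fintype.card ι * δ ^ 2) := by positivity
    by_cases h : r = r'
    · subst h
      have h1 := haar_col (lab · = k) (Pi.single (j r) 1) (by rw [mom_sq_single]; norm_num) hδ
      simp only [Matrix.mulVec_single_one, Matrix.col_apply, sq] at h1
      simp only [if_true, ct, sq] at h48 h4 ⊢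
      linarith
    · have hne : j r ≠ j r' := fun e => h (hj e)
      have hs : (Real.sqrt 2)⁻¹ ^ 2 = 1 / 2 := by
        rw [inv_pow, Real.sq_sqrt (by norm_num)]; norm_num
      have h1 := haar_col (lab · = k)
        (Pi.single (j r) (Real.sqrt 2)⁻¹ + Pi.single (j r') (Real.sqrt 2)⁻¹)
        (by rw [mom_sq_two hne, hs]; norm_num) hδ
      have h2 := haar_col (lab · = k)
        (Pi.single (j r) (Real.sqrt 2)⁻¹ + Pi.single (j r') (-(Real.sqrt 2)⁻¹))
        (by rw [mom_sq_two hne, neg_sq, hs]; norm_num) hδ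
      rw [h48]
      refine le_trans (measureReal_mono ?_) ((measureReal_union_le _ _).trans (add_le_add h1 h2))
      intro O hO
      simp only [if_neg h, sub_zero, Set.mem_setOf_eq] at hO
      by_contra hc
      simp only [Set.mem_union, Set.mem_setOf_eq, not_or, not_lt, Matrix.mulVec_add,
        Matrix.mulVec_single, Pi.add_apply, Pi.smul_apply, Matrix.col_apply,
        MulOpposite.smul_eq_mul_unop, MulOpposite.unop_op] at hc
      have e : ∑ a ∈ univ.filter (lab · = k), (O.1 a (j r) * (Real.sqrt 2)⁻¹ +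
          O.1 a (j r') * (Real.sqrt 2)⁻¹) ^ 2 - ∑ a ∈ univ.filter (lab · = k),
            (O.1 a (j r) * (Real.sqrt 2)⁻¹ + O.1 a (j r') * -(Real.sqrt 2)⁻¹) ^ 2 =
          2 * ∑ a ∈ univ.filter (lab · = k), O.1 a (j r) * O.1 a (j r') := by
        rw [← Finset.sum_sub_distrib, Finset.mul_sum]
        refine Finset.sum_congr rfl fun a _ => ?_
        linear_combination 4 * (O.1 a (j r) * O.1 a (j r')) * hs
      have h3 := abs_le.1 hc.1
      have h4 := abs_le.1 hc.2
      exact absurd hO (not_lt.2 (abs_le.2 ⟨by linarith [h3.1, h4.2], by linarith [h3.2, h4.1]⟩))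
  have h := mom_union (haar ι) _ key
  simp only [Set.mem_setOf_eq, Prod.exists, Fintype.card_prod] at h
  refine h.trans (le_of_eq ?_)
  push_cast
  ring

/-- Second moments: `E (Σ_b G_{αb} G_{α'b} - n δ)² ≤ 2 n`. -/
theorem gauss_gram {A β : Type} [Fintype A] [DecidableEq A] [Fintype β] [Nonempty β] {δ : ℝ}
    (hδ : 0 < δ) :
    (Lev.μ : Measure (A → β → ℝ)).real {G | ∃ α α', δ < |(∑ b, G α b * G α' b) / Fintype.card β -
      if α = α' then 1 else 0|} ≤ 2 * Fintype.card A ^ 2 / (Fintype.card β * δ ^ 2) := by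
  have hn : (0 : ℝ) < Fintype.card β := by exact_mod_cast Fintype.card_pos
  have key : ∀ q : A × A, (Lev.μ : Measure (A → β → ℝ)).real {G | δ <
      |(∑ b, G q.1 b * G q.2 b) / Fintype.card β - if q.1 = q.2 then 1 else 0|} ≤
      2 / (Fintype.card β * δ ^ 2) := by
    rintro ⟨α, α'⟩
    obtain ⟨h1, h2⟩ := mom_gram (β := β) α α'
    have h3 := mom_cheb _ _ h1 (mul_pos hn hδ) h2
    have e : ∀ G : A → β → ℝ, ∑ b, (G α b * G α' b - if α = α' then 1 else 0) =
        Fintype.card β * ((∑ b, G α b * G α' b) / Fintype.card β - if α = α' then 1 else 0) :=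
      fun G => by
        rw [Finset.sum_sub_distrib, mul_sub, mul_div_cancel₀ _ hn.ne']
        simp only [Finset.sum_const, Finset.card_univ, nsmul_eq_mul]
    simp only [e, abs_mul, abs_of_pos hn, mul_lt_mul_iff_right₀ hn] at h3
    refine h3.trans (le_of_eq ?_)
    field_simp
  have h := mom_union (Lev.μ : Measure (A → β → ℝ)) _ key
  simp only [Set.mem_setOf_eq, Prod.exists, Fintype.card_prod] at h
  refine h.trans (le_of_eq ?_)
  push_cast
  ring

open scoped MatrixOrder in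
lemma mom_sqrt {A T : Type} [Fintype A] [DecidableEq A] [Fintype T] (M : Matrix A T ℝ) :
    ∃ S : Matrix A A ℝ, S.PosSemidef ∧ S * S = M * Mᵀ := by
  have h : (M * Mᵀ).PosSemidef := by
    simpa using Matrix.posSemidef_self_mul_conjTranspose M
  exact ⟨CFC.sqrt (M * Mᵀ), (CFC.sqrt_nonneg _).posSemidef, CFC.sqrt_mul_sqrt_self _ h.nonneg⟩

theorem exists_sqrt {A T : Type} [Fintype A] [DecidableEq A] [Fintype T] (u : A → T → ℝ) :
    ∃ S : A → A → ℝ, (∀ α α', S α α' = S α' α) ∧
      (∀ α α', ∑ γ, S α γ * S α' γ = ∑ t, u α t * u α' t) ∧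
      ∀ c e : ℝ, 0 < c → (∀ α α', |∑ t, u α t * u α' t - if α = α' then c ^ 2 else 0| ≤ e) →
        ∀ α α', |S α α' - if α = α' then c else 0| ≤ Fintype.card A * e / c := by
  obtain ⟨S, hS, hSS⟩ := mom_sqrt (Matrix.of u)
  have hsym : ∀ α α', S α α' = S α' α := fun α α' => by
    simpa using hS.isHermitian.apply α' α
  have hsq : ∀ α α', ∑ γ, S α γ * S γ α' = ∑ t, u α t * u α' t := fun α α' => by
    simpa [Matrix.mul_apply] using congrFun (congrFun hSS α) α'
  refine ⟨fun α α' => S α α', hsym, fun α α' => ?_, fun c e hc h α α' => ?_⟩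
  · rw [← hsq]
    exact Finset.sum_congr rfl fun γ _ => congrArg (S α γ * ·) (hsym α' γ)
  let w : A → ℝ := fun γ => S γ α' - if γ = α' then c else 0
  have h1 : ∀ γ, (S *ᵥ w) γ + c * w γ = ∑ t, u γ t * u α' t - if γ = α' then c ^ 2 else 0 :=
    fun γ => by
      simp only [w, Matrix.mulVec, dotProduct, mul_sub, Finset.sum_sub_distrib, hsq, mul_ite,
        mul_zero, Finset.sum_ite_eq', Finset.mem_univ, if_true]
      split_ifs <;> ring
  have h2 : 0 ≤ w ⬝ᵥ (S *ᵥ w) := by simpa using hS.dotProduct_mulVec_nonneg w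
  have he : 0 ≤ e := (abs_nonneg _).trans (h α α)
  obtain ⟨i, -, hi⟩ := Finset.exists_max_image univ (fun γ => |w γ|) ⟨α, Finset.mem_univ α⟩
  have h3 : w ⬝ᵥ (S *ᵥ w) + c * ∑ γ, w γ ^ 2 ≤ Fintype.card A * (|w i| * e) := by
    rw [dotProduct, Finset.mul_sum, ← Finset.sum_add_distrib, ← Finset.card_univ, ← nsmul_eq_mul]
    refine Finset.sum_le_card_nsmul _ _ _ fun γ _ => ?_
    calc w γ * (S *ᵥ w) γ + c * w γ ^ 2 = w γ * ((S *ᵥ w) γ + c * w γ) := by ring
      _ ≤ |w γ| * |(S *ᵥ w) γ + c * w γ| := by rw [← abs_mul]; exact le_abs_self _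
      _ ≤ |w i| * e := by
        rw [h1]
        exact mul_le_mul (hi γ (Finset.mem_univ γ)) (h γ α') (abs_nonneg _) (abs_nonneg _)
  have h4 : w i ^ 2 ≤ ∑ γ, w γ ^ 2 :=
    Finset.single_le_sum (f := fun γ => w γ ^ 2) (fun _ _ => sq_nonneg _) (Finset.mem_univ i)
  have h5 : |w i| * (|w i| * c) ≤ |w i| * (Fintype.card A * e) := by
    have := mul_le_mul_of_nonneg_left h4 hc.le
    rw [← sq_abs] at this
    nlinarith
  refine (hi α (Finset.mem_univ α)).trans ?_
  rw [le_div_iff₀ hc]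
  rcases (abs_nonneg (w i)).eq_or_lt with h6 | h6
  · rw [← h6, zero_mul]; positivity
  · exact le_of_mul_le_mul_left h5 h6

end Crest.Agent.R164
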