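import Crest.Agent.R164.Interp
import Crest.Agent.R164.Mom

/-!
# R164 / RI: from the real cavity coordinates to the ideal Gaussian cavity field

Setting: a system `H₀ = Ham …` on `ι`, cavity coordinates `ζ_α = x (j α)` in the block `k1`
(`n = ct lab k1 ≥ r₀ N`).  `EE_exp_sq_le` (and `EE_prod_fst`) give, under `H₀ + H₁`,
`EE exp (r₀ ζ_α²/4) ≤ 2`, hence bounds on `EE ζ², EE ζ⁴, EE exp (2η Σ ζ²)` (Jensen/convexity over
`α`: `exp (t Σ ζ²) ≤ avg_α exp (t card ζ_α²)`) for `η ≤ η₀ = r₀/(16 B)`.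
`ri_crude`: upper bound `W ≤ 0`, `X_exp_upper`; lower bound `val_jensen`, `abs_wq_le`; `val_prod`.
`gaussianize`: `β = {b // lab b = k1}`, `ω = √(N/n)`.  `val_split`; for fixed `G` let `S` be the
square root of `G Gᵀ/n` (`exists_sqrt` with `u α b = G α b/√n`).  The vectors `G_α/√n` (extended by
zero) and `Σ_γ S α γ e_{j γ}` have the same Gram matrix, so (`exists_orth_fix`) a block rotation
`B` satisfies `ζ^G_α(x) = Σ_γ S α γ (B x)(j γ)`; `Ham_lrot`, `xs_lrot`, `val_pull` (map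
`Prod.map (lrot B) id`) and `wq_mulVec` show that the value at `G` is the value of `HR χ` with `P S`
instead of `P`.  On the good event of `gauss_gram` use `val_chi_lip`, `abs_wq_sub_le`; always
`-L-1 ≤ χ W ≤ 0`; `PM_close`.
`real_ideal`: `trunc_lower`, `trunc_upper` (with `EE |e^δ - 1| ≤ √(EE δ²) √(EE e^{2|δ|})`,
`EE δ² ≤ C η`), `gaussianize`, `interp`, `ideal_untrunc`, `exists_chi`.
-/

set_option autoImplicit false

open MeasureTheory ProbabilityTheory Finset Matrix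

namespace Crest.Agent.R164

/-- Data of a common system with cavity coordinates in the top block. -/
structure CavSys (R : ℕ) [NeZero R] (r₀ : ℝ) (ι κ A : Type) [Fintype ι] [DecidableEq ι]
    [DecidableEq κ] where
  lab : ι → κ
  k1 : κ
  lam : κ → ℝ
  V : (ι → Bool) → ℝ
  px : κ → Fin R → ℝ
  j : A → ι
  j_inj : Function.Injective j
  lab_j : ∀ α, lab (j α) = k1
  big : r₀ * Fintype.card ι ≤ ct lab k1

namespace CavSys
variable {R : ℕ} [NeZero R] {r₀ : ℝ} {ι κ A : Type} [Fintype ι] [DecidableEq ι] [DecidableEq κ]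
  (c : CavSys R r₀ ι κ A)
/-- The Hamiltonian of the common system. -/
noncomputable def H : St R (YS ι) → ℝ := Ham (fun b => c.lam (c.lab b)) c.V 0 fun l b => c.px (c.lab b) l
/-- The cavity coordinates. -/
noncomputable def ζ (s : St R (YS ι)) (α : A) : ℝ := xs s (c.j α)
end CavSys

/-- An admissible error term. -/
structure Small {R : ℕ} [NeZero R] {r₀ : ℝ} {ι κ A Y₁ : Type} [Fintype ι] [DecidableEq ι]
    [DecidableEq κ] [Fintype A] [MeasurableSpace Y₁] [Lev Y₁] (c : CavSys R r₀ ι κ A) (B η : ℝ)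
    (D : (ι → Bool) → ℝ) (δ : St R (YS ι × Y₁) → ℝ) : Prop where
  meas : Measurable δ
  le : ∀ s, |δ s| ≤ η * (1 + ∑ α, c.ζ (fS s) α ^ 2) + D (cfg (fS s))
  D_mem : ∀ σ, 0 ≤ D σ ∧ D σ ≤ B

section ri
variable {R : ℕ} [NeZero R] {a : ℕ → ℝ} {r₀ B : ℝ} {ι κ A Y₁ : Type} [Fintype ι] [DecidableEq ι]
  [Fintype κ] [DecidableEq κ] [Fintype A] [MeasurableSpace Y₁] [Lev Y₁]

lemma ri_lin {t T : ℝ} (ht : 0 < t) (hT : 0 ≤ T) : 1 + T ≤ (1 + 2 / t) * Real.exp (t * T / 2) := by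
  have h1 := Real.add_one_le_exp (t * T / 2)
  have h2 : (1 + 2 / t) * (t * T / 2 + 1) = 1 + T + (t * T / 2 + 2 / t) := by field_simp; ring
  have h3 : 0 ≤ t * T / 2 + 2 / t := by positivity
  have h4 := mul_le_mul_of_nonneg_left h1 (show 0 ≤ 1 + 2 / t by positivity)
  linarith

lemma ri_half (x : ℝ) : Real.exp (x / 2) ^ 2 = Real.exp x := by
  rw [sq, ← Real.exp_add, add_halves]

lemma ri_sq {t T : ℝ} (ht : 0 < t) (hT : 0 ≤ T) :
    (1 + T) ^ 2 ≤ (1 + 2 / t) ^ 2 * Real.exp (t * T) := by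
  rw [← ri_half, ← mul_pow]
  exact pow_le_pow_left₀ (by positivity) (ri_lin ht hT) 2

lemma ri_exp_sub (x : ℝ) : |Real.exp x - 1| ≤ |x| * Real.exp |x| := by
  rcases le_total 0 x with h | h
  · have h1 := Real.add_one_le_exp (-x)
    have h2 : Real.exp (-x) * Real.exp x = 1 := by rw [← Real.exp_add]; simp
    rw [abs_of_nonneg h, abs_of_nonneg (sub_nonneg.2 (Real.one_le_exp h))]
    nlinarith [mul_le_mul_of_nonneg_right h1 (Real.exp_pos x).le]
  · have h1 := Real.add_one_le_exp x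
    have h2 := Real.one_le_exp (neg_nonneg.2 h)
    rw [abs_of_nonpos h, abs_of_nonpos (sub_nonpos.2 (Real.exp_le_one_iff.2 h))]
    nlinarith [mul_le_mul_of_nonneg_left h2 (neg_nonneg.2 h)]

lemma ri_pt {t T s D B x : ℝ} (ht : 0 < t) (hT : 0 ≤ T) (hs : 0 < s) (hs1 : s ≤ 1)
    (hst : s ≤ t / 2) (hD0 : 0 ≤ D) (hD : D ≤ B) (hx0 : 0 ≤ x) (hx : x ≤ s ^ 2 * (1 + T) + D) :
    x * Real.exp x ≤ Real.exp (1 + B) * (s * (3 / 2 + 2 / t)) * Real.exp (t * T) +
      Real.exp (1 + B) * (B / (2 * s)) * D := by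
  have h0 : s ^ 2 ≤ s := by nlinarith
  have h1 : Real.exp x ≤ Real.exp (1 + B) * Real.exp (t * T / 2) := by
    rw [← Real.exp_add]
    refine Real.exp_le_exp.2 ?_
    nlinarith [mul_le_mul_of_nonneg_right (h0.trans hst) hT]
  have h2 : x ≤ s * ((1 + 2 / t) * Real.exp (t * T / 2)) + D := by
    have := mul_le_mul h0 (ri_lin ht hT) (by positivity) hs.le
    linarith
  rw [← ri_half (t * T)]
  have hE := Real.exp_pos (t * T / 2)
  have hF := Real.exp_pos (1 + B)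
  generalize Real.exp (t * T / 2) = E at *
  generalize Real.exp (1 + B) = F at *
  have h3 : D * E ≤ s / 2 * E ^ 2 + B / (2 * s) * D := by
    have e : s / 2 * E ^ 2 + B / (2 * s) * D - D * E =
        ((s * E - D) ^ 2 + (B - D) * D) / (2 * s) := by field_simp; ring
    have : 0 ≤ ((s * E - D) ^ 2 + (B - D) * D) / (2 * s) :=
      div_nonneg (add_nonneg (sq_nonneg _) (mul_nonneg (sub_nonneg.2 hD) hD0)) (by positivity)
    linarith
  calc x * Real.exp x ≤ (s * ((1 + 2 / t) * E) + D) * (F * E) :=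
        mul_le_mul h2 h1 (Real.exp_pos _).le (by positivity)
    _ = F * (s * (1 + 2 / t) * E ^ 2 + D * E) := by ring
    _ ≤ F * (s * (1 + 2 / t) * E ^ 2 + (s / 2 * E ^ 2 + B / (2 * s) * D)) := by gcongr
    _ = _ := by ring

omit [Fintype κ] [Fintype A] in
lemma ri_ml_H (c : CavSys R r₀ ι κ A) : ML c.H := ml_Ham _ _ _ _

omit [Fintype κ] [Fintype A] in
lemma ri_sq_le (c : CavSys R r₀ ι κ A) (s : St R (YS ι)) (α : A) :
    c.ζ s α ^ 2 ≤ Fintype.card ι := by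
  rw [← sum_sq_xs s]
  exact Finset.single_le_sum (f := fun b => xs s b ^ 2) (fun _ _ => sq_nonneg _) (Finset.mem_univ _)

omit [Fintype κ] [Fintype A] in
lemma ri_ml_sq (c : CavSys R r₀ ι κ A) (α : A) : ML fun s => c.ζ s α ^ 2 :=
  ML.of_bdd ((measurable_xs _).pow_const 2) (Fintype.card ι) fun s => by
    rw [abs_of_nonneg (sq_nonneg _)]
    exact ri_sq_le c s α

omit [Fintype κ] in
lemma ri_ml_T (c : CavSys R r₀ ι κ A) : ML fun s => ∑ α, c.ζ s α ^ 2 :=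
  ML.sum univ fun α _ => ri_ml_sq c α

lemma ri_one (ha : Exps R a) (c : CavSys R r₀ ι κ A) (α : A) :
    EE a c.H (fun s => Real.exp (r₀ / 4 * c.ζ s α ^ 2)) ≤ 2 := by
  have hN : (0 : ℝ) < Fintype.card ι := by
    have : Nonempty ι := ⟨c.j α⟩
    exact_mod_cast Fintype.card_pos
  refine le_trans (EE_mono ha (ri_ml_H c) ((ri_ml_sq c α).const_mul _).exp
    ((ri_ml_sq c α).const_mul _).exp fun s => ?_) (EE_exp_sq_le ha c.lab c.lam c.V 0 c.px (c.j α))
  refine Real.exp_le_exp.2 (mul_le_mul_of_nonneg_right ?_ (sq_nonneg _))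
  rw [c.lab_j, div_le_div_iff₀ (by norm_num) (by positivity)]
  linarith [c.big]

lemma ri_mom (ha : Exps R a) (hB : 1 ≤ B) (hr : 0 < r₀) (hA : (Fintype.card A : ℝ) ≤ B)
    (c : CavSys R r₀ ι κ A) :
    EE a c.H (fun s => Real.exp (r₀ / (4 * B) * ∑ α, c.ζ s α ^ 2)) ≤ 3 * B := by
  have hme : ∀ α, ME fun s => Real.exp (r₀ / 4 * c.ζ s α ^ 2) := fun α =>
    ((ri_ml_sq c α).const_mul _).exp
  have h1 := EE_mono ha (ri_ml_H c) ((ri_ml_T c).const_mul (r₀ / (4 * B))).exp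
    ((ME.const 1).add (ME.sum univ fun α _ => hme α)) fun s => by
      have h0 : 0 ≤ ∑ α, Real.exp (r₀ / 4 * c.ζ s α ^ 2) :=
        Finset.sum_nonneg fun α _ => (Real.exp_pos _).le
      rcases isEmpty_or_nonempty A with hE | hE
      · simp
      obtain ⟨β, -, hβ⟩ := Finset.exists_max_image univ (fun α => c.ζ s α ^ 2) univ_nonempty
      have h2 : ∑ α, c.ζ s α ^ 2 ≤ B * c.ζ s β ^ 2 := by
        have := Finset.sum_le_card_nsmul univ (fun α => c.ζ s α ^ 2) _ hβ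
        rw [nsmul_eq_mul, Finset.card_univ] at this
        exact this.trans (mul_le_mul_of_nonneg_right hA (sq_nonneg _))
      have h3 : r₀ / (4 * B) * ∑ α, c.ζ s α ^ 2 ≤ r₀ / 4 * c.ζ s β ^ 2 := by
        refine (mul_le_mul_of_nonneg_left h2 (by positivity)).trans (le_of_eq ?_)
        field_simp
      have h4 := Finset.single_le_sum (f := fun α => Real.exp (r₀ / 4 * c.ζ s α ^ 2))
        (fun _ _ => (Real.exp_pos _).le) (Finset.mem_univ β)
      linarith [Real.exp_le_exp.2 h3]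
  rw [EE_add ha (ri_ml_H c) (ME.const 1) (ME.sum univ fun α _ => hme α), EE_const ha (ri_ml_H c),
    EE_sum univ ha (ri_ml_H c) fun α _ => hme α] at h1
  have h2 := Finset.sum_le_card_nsmul univ _ 2 fun α _ => ri_one ha c α
  rw [nsmul_eq_mul, Finset.card_univ] at h2
  linarith

lemma ri_bound (ha : Exps R a) (hB : 1 ≤ B) (hr : 0 < r₀) (hA : (Fintype.card A : ℝ) ≤ B)
    (c : CavSys R r₀ ι κ A) {H₁ : St R Y₁ → ℝ} (hH : ML H₁) (D : (ι → Bool) → ℝ)
    {ψ : St R (YS ι × Y₁) → ℝ} (hψ : ME ψ) {p q d : ℝ} (hp : 0 ≤ p) (hq : 0 ≤ q)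
    (hd : q * EE a c.H (fun s => D (cfg s)) ≤ d)
    (h : ∀ s, ψ s ≤ p * Real.exp (r₀ / (4 * B) * ∑ α, c.ζ (fS s) α ^ 2) + q * D (cfg (fS s))) :
    EE a (fun s => c.H (fS s) + H₁ (sS s)) ψ ≤ p * (3 * B) + d := by
  have m1 : ME fun s => p * Real.exp (r₀ / (4 * B) * ∑ α, c.ζ s α ^ 2) :=
    ((ri_ml_T c).const_mul _).exp.const_mul p
  have m2 : ME fun s : St R (YS ι) => q * D (cfg s) := (ml_cfg D).me.const_mul q
  refine (EE_mono ha (((ri_ml_H c).comp gro_fS).add (hH.comp gro_sS)) hψ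
    ((m1.add m2).comp gro_fS) h).trans ?_
  rw [EE_prod_fst ha (ri_ml_H c).mu hH.mu
    (fun s => p * Real.exp (r₀ / (4 * B) * ∑ α, c.ζ s α ^ 2) + q * D (cfg s)),
    EE_add ha (ri_ml_H c) m1 m2, EE_const_mul, EE_const_mul]
  exact add_le_add (mul_le_mul_of_nonneg_left (ri_mom ha hB hr hA c) hp) hd

omit [Fintype κ] in
lemma ri_ml_δ {c : CavSys R r₀ ι κ A} {η : ℝ} {D : (ι → Bool) → ℝ} {δ : St R (YS ι × Y₁) → ℝ}
    (hη : 0 ≤ η) (h : Small c B η D δ) : ML δ :=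
  ML.of_bdd h.meas (η * (1 + ∑ _α : A, (Fintype.card ι : ℝ)) + B) fun s =>
    (h.le s).trans (add_le_add (mul_le_mul_of_nonneg_left (add_le_add le_rfl
      (Finset.sum_le_sum fun α _ => ri_sq_le c _ α)) hη) (h.D_mem _).2)

omit [Fintype κ] in
lemma ri_me_W (c : CavSys R r₀ ι κ A) (mu : A → ℝ) {u : St R Y₁ → A → ℝ} (P : A → A → ℝ)
    (hu : UB B u) : ME fun s : St R (YS ι × Y₁) => Wq mu (u (sS s)) P (c.ζ (fS s)) :=
  me_wq mu P (fun α => (ME.of_bdd (hu.meas α) B fun s => hu.le s α).comp gro_sS)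
    fun α => ((ml_xs (c.j α)).comp gro_fS).me

end ri

theorem ri_crude (B r₀ : ℝ) (hB : 1 ≤ B) (hr : 0 < r₀) : ∃ C η₀ : ℝ, 0 < η₀ ∧
    ∀ (R : ℕ) [NeZero R] (a : ℕ → ℝ), Exps R a →
    ∀ (ι κ A Y₁ : Type) [Fintype ι] [DecidableEq ι] [Fintype κ] [DecidableEq κ] [Fintype A]
      [MeasurableSpace Y₁] [Lev Y₁] (c : CavSys R r₀ ι κ A) (H₁ : St R Y₁ → ℝ) (mu : A → ℝ)
      (u : St R Y₁ → A → ℝ) (P : A → A → ℝ) (η : ℝ) (D : (ι → Bool) → ℝ)
      (δ : St R (YS ι × Y₁) → ℝ), ML H₁ → WB B mu P → UB B u → 0 ≤ η → η ≤ η₀ → Small c B η D δ →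
      |val a (fun s => HR id c.H H₁ mu u P c.ζ s + δ s) - val a c.H - val a H₁| ≤ C := by
  have ht : 0 < r₀ / (4 * B) := by positivity
  set t := r₀ / (4 * B) with htd
  refine ⟨(Real.exp (t + B) + (B ^ 5 + t + B) * (1 + 2 / t) ^ 2) * (3 * B), t, ht, ?_⟩
  intro R _ a ha ι κ A Y₁ _ _ _ _ _ _ _ c H₁ mu u P η D δ hH hW hu hη hηt hδ
  have hK : ML fun s : St R (YS ι × Y₁) => c.H (fS s) + H₁ (sS s) :=
    ((ri_ml_H c).comp gro_fS).add (hH.comp gro_sS)
  have mδ := ri_ml_δ hη hδ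
  have mW := ri_me_W c mu P hu
  have W0 : ∀ s : St R (YS ι × Y₁), Wq mu (u (sS s)) P (c.ζ (fS s)) ≤ 0 := fun s =>
    wq_nonpos (fun α => (hW.mu_mem α).1) _ _ _
  have hT : ∀ s : St R (YS ι × Y₁), 0 ≤ ∑ α, c.ζ (fS s) α ^ 2 := fun s =>
    Finset.sum_nonneg fun _ _ => sq_nonneg _
  have hmu : MU fun s => HR id c.H H₁ mu u P c.ζ s + δ s :=
    (hK.mu.add (MU.of_nonpos mW W0)).add mδ.mu
  have hv := val_prod ha (ri_ml_H c).mu hH.mu
  have h1 : val a (fun s => HR id c.H H₁ mu u P c.ζ s + δ s) ≤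
      val a fun s => c.H (fS s) + H₁ (sS s) + δ s :=
    val_mono ha hmu (hK.add mδ).mu fun s => by
      simp only [HR, id]
      linarith [W0 s]
  have h2 : (val a fun s => c.H (fS s) + H₁ (sS s) + δ s) ≤
      val a (fun s => c.H (fS s) + H₁ (sS s)) +
        Real.log (EE a (fun s => c.H (fS s) + H₁ (sS s)) fun s => Real.exp (δ s)) := by
    have := X_exp_upper ha hK (hK.add mδ) le_rfl Lev.pt
    simp only [add_sub_cancel_left] at this
    exact this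
  have h3 := Real.log_le_self (EE_nonneg a (fun s => c.H (fS s) + H₁ (sS s))
    (ψ := fun s => Real.exp (δ s)) fun s => (Real.exp_pos _).le)
  have h4 := ri_bound ha hB hr hW.card c hH D mδ.exp (p := Real.exp (t + B)) (q := 0) (d := 0)
    (Real.exp_pos _).le le_rfl (by simp) fun s => by
      rw [zero_mul, add_zero, ← Real.exp_add]
      refine Real.exp_le_exp.2 ?_
      have h5 := (le_abs_self _).trans (hδ.le s)
      have h6 := mul_le_mul_of_nonneg_right hηt (add_nonneg zero_le_one (hT s))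
      have h7 := (hδ.D_mem (cfg (fS s))).2
      linarith
  have h5 := val_jensen ha hK hmu
  have mneg : ME fun s => (-1 : ℝ) * (HR id c.H H₁ mu u P c.ζ s + δ s - (c.H (fS s) + H₁ (sS s))) :=
    (hmu.me.sub hK.me).const_mul _
  have h6 := ri_bound ha hB hr hW.card c hH D mneg (p := (B ^ 5 + t + B) * (1 + 2 / t) ^ 2)
    (q := 0) (d := 0) (by positivity) le_rfl (by simp) fun s => by
      have h7 := (neg_le_abs _).trans (hδ.le s)
      have h8 := mul_le_mul_of_nonneg_right hηt (add_nonneg zero_le_one (hT s))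
      have h9 := (hδ.D_mem (cfg (fS s))).2
      have h10 := (neg_le_abs _).trans (abs_wq_le hB hW (hu.le (sS s)) (c.ζ (fS s)))
      have h11 := ri_sq ht (hT s)
      have h12 : 1 + ∑ α, c.ζ (fS s) α ^ 2 ≤ (1 + ∑ α, c.ζ (fS s) α ^ 2) ^ 2 :=
        le_self_pow₀ (le_add_of_nonneg_right (hT s)) two_ne_zero
      have h13 := mul_le_mul_of_nonneg_left (h12.trans h11)
        (show 0 ≤ B ^ 5 + t + B by positivity)
      have h14 := mul_nonneg (zero_le_one.trans hB) (hT s)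
      simp only [HR, id]
      linarith
  rw [EE_const_mul] at h6
  have p1 : 0 ≤ Real.exp (t + B) * (3 * B) := by positivity
  have p2 : 0 ≤ (B ^ 5 + t + B) * (1 + 2 / t) ^ 2 * (3 * B) := by positivity
  exact abs_le.2 ⟨by linarith, by linarith⟩

section gz
variable {R : ℕ} [NeZero R] {r₀ : ℝ} {ι κ A Y₁ : Type} [Fintype ι] [DecidableEq ι] [Fintype κ]
  [DecidableEq κ] [Fintype A] [DecidableEq A] [MeasurableSpace Y₁] [Lev Y₁] {a : ℕ → ℝ}
  {L B : ℝ} {χ χ' χ'' : ℝ → ℝ} {H₁ : St R Y₁ → ℝ} {mu : A → ℝ} {u : St R Y₁ → A → ℝ}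

omit [Fintype κ] [DecidableEq A] in
lemma gz_me (c : CavSys R r₀ ι κ A) (mu : A → ℝ) (hu : UB B u) (P : A → A → ℝ) :
    ME fun s : St R (YS ι × Y₁) => Wq mu (u (sS s)) P (c.ζ (fS s)) :=
  me_wq mu P (fun γ => (ME.of_bdd (hu.meas γ) B fun s => hu.le s γ).comp gro_sS)
    fun γ => ((ml_xs (c.j γ)).comp gro_fS).me

omit [Fintype κ] [Fintype A] [DecidableEq A] in
lemma gz_base (c : CavSys R r₀ ι κ A) (h₁ : ML H₁) :
    ML fun s : St R (YS ι × Y₁) => c.H (fS s) + H₁ (sS s) :=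
  ((ml_Ham _ _ _ _).comp gro_fS).add (h₁.comp gro_sS)

omit [Fintype κ] in
/-- The value at a fixed Gaussian matrix. -/
lemma gz_rot (c : CavSys R r₀ ι κ A) (hχ : IsChi L χ χ' χ'') (hL : 0 ≤ L) (h₁ : ML H₁)
    (hmu : ∀ α, 0 ≤ mu α) (hu : UB B u) (P S : A → A → ℝ) (hN : 0 < Fintype.card ι)
    (G : A → {b // c.lab b = c.k1} → ℝ)
    (hS : ∀ α α', ∑ γ, S α γ * S α' γ =
      ∑ t, G α t / √(ct c.lab c.k1) * (G α' t / √(ct c.lab c.k1))) :
    val a (HR χ c.H H₁ mu u P (zG (√(Fintype.card ι / ct c.lab c.k1)) (Xb c.lab c.k1) G)) =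
      val a (HR χ c.H H₁ mu u (fun α γ => ∑ β, P α β * S β γ) c.ζ) := by
  have hsub : ∀ f : ι → ℝ, (∀ b, c.lab b ≠ c.k1 → f b = 0) →
      ∑ b, f b = ∑ b : {b // c.lab b = c.k1}, f b := by
    intro f hf
    rw [← Finset.sum_subtype (univ.filter fun b => c.lab b = c.k1) (by simp), Finset.sum_filter]
    refine Finset.sum_congr rfl fun b _ => ?_
    split_ifs with h
    · rfl
    · exact hf b h
  have hw : ∀ (α : A) (x : ι → ℝ), ∑ b, (∑ γ, S α γ * if b = c.j γ then 1 else 0) * x b =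
      ∑ γ, S α γ * x (c.j γ) := by
    intro α x
    simp only [Finset.sum_mul]
    rw [Finset.sum_comm]
    simp
  obtain ⟨O, hO, hO'⟩ := exists_orth_fix (fun b => c.lab b = c.k1)
    (fun (α : A) b => if h : c.lab b = c.k1 then G α ⟨b, h⟩ / √(ct c.lab c.k1) else 0)
    (fun α b => ∑ γ, S α γ * if b = c.j γ then 1 else 0) (fun α b h => dif_neg h)
    (fun α b h => Finset.sum_eq_zero fun γ _ => by
      rw [if_neg, mul_zero]
      rintro rfl
      exact h (c.lab_j γ))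
    (fun α α' => by
      rw [hw, hsub _ fun b h => by rw [dif_neg h, zero_mul]]
      simp only [c.j_inj.eq_iff, mul_ite, mul_one, mul_zero, Finset.sum_ite_eq, Finset.mem_univ,
        if_true, hS]
      exact Finset.sum_congr rfl fun b _ => by rw [dif_pos b.2, dif_pos b.2])
  have hτ : ∀ _ : Fin R, MeasurePreserving (Prod.map (lrot O) id : YS ι × Y₁ → YS ι × Y₁)
      Lev.μ Lev.μ := fun _ => (mp_lrot O).prod (MeasurePreserving.id _)
  have hm : ML (HR χ c.H H₁ mu u (fun α γ => ∑ β, P α β * S β γ) c.ζ) :=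
    (gz_base c h₁).add (hχ.ml hL (gz_me c mu hu _).meas fun s => wq_nonpos hmu _ _ _)
  rw [← val_pull hτ hm.meas a]
  congr 1
  funext s
  have e1 : c.H (lift (fun _ => lrot O) (fS s)) = c.H (fS s) := by
    refine Ham_lrot O (fun b b' h => ?_) _
    have : c.lab b = c.lab b' := by
      by_contra hne
      have h1 : ¬c.lab b = c.k1 ∨ ¬c.lab b' = c.k1 := by
        by_contra h2
        rw [not_or, not_not, not_not] at h2
        exact hne (h2.1.trans h2.2.symm)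
      rw [hO' b b' h1, if_neg (fun h3 => hne (by rw [h3]))] at h
      exact h rfl
    simp [this]
  have e2 : zG (√(Fintype.card ι / ct c.lab c.k1)) (Xb c.lab c.k1) G (fS s) =
      fun β => ∑ γ, S β γ * c.ζ (lift (fun _ => lrot O) (fS s)) γ := by
    funext α
    have h1 := O.dot_mulVec
      (fun b => if h : c.lab b = c.k1 then G α ⟨b, h⟩ / √(ct c.lab c.k1) else 0) (xs (fS s))
    rw [hO α, dotProduct, dotProduct, hw, hsub _ fun b h => by rw [dif_neg h, zero_mul]] at h1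
    simp only [CavSys.ζ, xs_lrot, h1, zG, Xb, Finset.mul_sum]
    refine Finset.sum_congr rfl fun b _ => ?_
    have hN' : √(Fintype.card ι : ℝ) ≠ 0 := (Real.sqrt_pos.2 (by exact_mod_cast hN)).ne'
    rw [dif_pos b.2, Real.sqrt_div (Nat.cast_nonneg _)]
    field_simp
  change _ = c.H (lift (fun _ => lrot O) (fS s)) + H₁ (sS s) +
    χ (Wq mu (u (sS s)) _ (c.ζ (lift (fun _ => lrot O) (fS s))))
  rw [e1, ← wq_mulVec, ← e2]
  rfl

omit [Fintype A] [DecidableEq A] in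
lemma gz_mom (c : CavSys R r₀ ι κ A) (hr : 0 < r₀) (ha : Exps R a) (hN : 0 < Fintype.card ι)
    (α : A) : EE a c.H (fun s => c.ζ s α ^ 2) ≤ 8 / r₀ := by
  have h := EE_exp_sq_le ha c.lab c.lam c.V 0 c.px (c.j α)
  have hN' : (0 : ℝ) < Fintype.card ι := by exact_mod_cast hN
  have ht : r₀ / 4 ≤ (ct c.lab (c.lab (c.j α)) : ℝ) / (4 * Fintype.card ι) := by
    rw [c.lab_j, div_le_div_iff₀ (by norm_num) (by positivity)]
    linarith [c.big]
  set t := (ct c.lab (c.lab (c.j α)) : ℝ) / (4 * Fintype.card ι) with ht'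
  have ht0 : 0 ≤ t := by positivity
  have hm : ME fun s : St R (YS ι) => Real.exp (t * xs s (c.j α) ^ 2) :=
    ME.of_bdd ((measurable_xs _).pow_const 2 |>.const_mul t).exp
      (Real.exp (t * Fintype.card ι)) fun s => by
        rw [abs_of_pos (Real.exp_pos _), Real.exp_le_exp, ← sum_sq_xs s]
        exact mul_le_mul_of_nonneg_left (Finset.single_le_sum (f := fun b => xs s b ^ 2)
          (fun _ _ => sq_nonneg _) (Finset.mem_univ _)) ht0
  have h2 := EE_mono ha (ml_Ham (fun b => c.lam (c.lab b)) c.V 0 fun l b => c.px (c.lab b) l)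
    (((ml_xs (c.j α)).me.pow 2).const_mul (r₀ / 4)) hm fun s =>
      (mul_le_mul_of_nonneg_right ht (sq_nonneg _)).trans
        ((le_add_of_nonneg_right zero_le_one).trans (Real.add_one_le_exp _))
  rw [EE_const_mul] at h2
  rw [le_div_iff₀ hr]
  have h3 := h2.trans h
  change r₀ / 4 * EE a c.H (fun s => c.ζ s α ^ 2) ≤ 2 at h3
  linarith

omit [DecidableEq A] in
lemma gz_close (c : CavSys R r₀ ι κ A) (hr : 0 < r₀) (ha : Exps R a) (hN : 0 < Fintype.card ι)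
    (hχ : IsChi L χ χ' χ'') (hL : 0 ≤ L) (h₁ : ML H₁) (hB : 1 ≤ B) {P P' : A → A → ℝ}
    (hP : WB B mu P) (hP' : WB B mu P') (hu : UB B u) {e : ℝ} (he : 0 ≤ e)
    (h : ∀ α β, |P α β - P' α β| ≤ e) :
    |val a (HR χ c.H H₁ mu u P c.ζ) - val a (HR χ c.H H₁ mu u P' c.ζ)| ≤
      Real.exp (L + 1) * (2 * B ^ 4 * e * (1 + B * (8 / r₀))) := by
  have hmu := fun α => (hP.mu_mem α).1
  have hH : ML c.H := ml_Ham _ _ _ _
  refine (val_chi_lip ha (gz_base c h₁) hχ hL (gz_me c mu hu P) (gz_me c mu hu P')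
    (fun s => wq_nonpos hmu _ _ _) fun s => wq_nonpos hmu _ _ _).trans
    (mul_le_mul_of_nonneg_left ?_ (Real.exp_pos _).le)
  have m1 : ∀ α, ME fun s : St R (YS ι) => c.ζ s α ^ 2 := fun α => (ml_xs (c.j α)).me.pow 2
  have m2 : ME fun s : St R (YS ι) => 2 * B ^ 4 * e * (1 + ∑ α, c.ζ s α ^ 2) :=
    ((ME.const 1).add (ME.sum univ fun α _ => m1 α)).const_mul _
  refine (EE_mono ha (gz_base c h₁) ((gz_me c mu hu P).sub (gz_me c mu hu P')).abs
    (m2.comp gro_fS) fun s => abs_wq_sub_le hB hP hP' (hu.le _) (hu.le _) he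
      (fun α => by rw [sub_self, abs_zero]; exact he) h _).trans ?_
  rw [EE_prod_fst ha hH.mu h₁.mu fun s => 2 * B ^ 4 * e * (1 + ∑ α, c.ζ s α ^ 2), EE_const_mul,
    EE_add ha hH (ME.const 1) (ME.sum univ fun α _ => m1 α), EE_const ha hH,
    EE_sum univ ha hH fun α _ => m1 α]
  refine mul_le_mul_of_nonneg_left (add_le_add_right ?_ 1) (by positivity)
  refine (Finset.sum_le_card_nsmul _ _ _ fun α _ => gz_mom c hr ha hN α).trans ?_
  rw [nsmul_eq_mul, Finset.card_univ]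
  exact mul_le_mul_of_nonneg_right hP.card (by positivity)

omit [NeZero R] in
lemma gz_bdd {Y : Type} [MeasurableSpace Y] [Lev Y] {H W W' : St R Y → ℝ} (ha : Exps R a)
    (hH : ML H) (hχ : IsChi L χ χ' χ'') (hL : 0 ≤ L) (hW : Measurable W) (hW' : Measurable W')
    (h0 : ∀ s, W s ≤ 0) (h0' : ∀ s, W' s ≤ 0) :
    val a (fun s => H s + χ (W s)) ≤ val a (fun s => H s + χ (W' s)) + (L + 1) := by
  have m := hH.add (hχ.ml hL hW h0)
  have m' := hH.add (hχ.ml hL hW' h0')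
  rw [← val_add_const ha m'.mu]
  refine val_mono ha m.mu (m'.add (ML.const _)).mu fun s => ?_
  linarith [hχ.nonpos hL (h0 s), hχ.ge (W' s)]

end gz

theorem gaussianize (L B r₀ m ε : ℝ) (hL : 0 ≤ L) (hB : 1 ≤ B) (hr : 0 < r₀) (hm : 0 < m)
    (hε : 0 < ε) : ∃ N₀ : ℕ, ∀ (χ χ' χ'' : ℝ → ℝ), IsChi L χ χ' χ'' →
    ∀ (R : ℕ) [NeZero R] (a : ℕ → ℝ), Exps R a → a (R - 1) = m →
    ∀ (ι κ A Y₁ : Type) [Fintype ι] [DecidableEq ι] [Fintype κ] [DecidableEq κ] [Fintype A]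
      [DecidableEq A] [MeasurableSpace Y₁] [Lev Y₁] (c : CavSys R r₀ ι κ A) (H₁ : St R Y₁ → ℝ)
      (mu : A → ℝ) (u : St R Y₁ → A → ℝ) (P : A → A → ℝ), N₀ ≤ Fintype.card ι → ML H₁ →
      WB B mu P → UB B u →
      |val a (par fun G : A → {b // c.lab b = c.k1} → ℝ => HR χ c.H H₁ mu u P
          (zG (Real.sqrt (Fintype.card ι / ct c.lab c.k1)) (Xb c.lab c.k1) G)) -
        val a (HR χ c.H H₁ mu u P c.ζ)| ≤ ε := by
  obtain ⟨e, he0, he1, heε⟩ : ∃ e : ℝ, 0 < e ∧ e ≤ 1 ∧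
      Real.exp (L + 1) * (2 * (2 * B) ^ 4 * e * (1 + 2 * B * (8 / r₀))) ≤ ε / 2 := by
    have hK : 0 < Real.exp (L + 1) * (2 * (2 * B) ^ 4 * (1 + 2 * B * (8 / r₀))) := by positivity
    refine ⟨min 1 (ε / 2 / (Real.exp (L + 1) * (2 * (2 * B) ^ 4 * (1 + 2 * B * (8 / r₀))))),
      by positivity, min_le_left _ _, ?_⟩
    have := (le_div_iff₀' hK).1 (min_le_right 1 (ε / 2 / _))
    linarith
  obtain ⟨η, hη0, hη1, hηε⟩ : ∃ η : ℝ, 0 < η ∧ η ≤ 1 / 2 ∧
      m⁻¹ * (2 * η * Real.exp (m * (L + 1 + ε / 2))) ≤ ε / 2 := by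
    have hK : 0 < m⁻¹ * (2 * Real.exp (m * (L + 1 + ε / 2))) := by positivity
    refine ⟨min (1 / 2) (ε / 2 / (m⁻¹ * (2 * Real.exp (m * (L + 1 + ε / 2))))),
      by positivity, min_le_left _ _, ?_⟩
    have := (le_div_iff₀' hK).1 (min_le_right (1 / 2) (ε / 2 / _))
    linarith
  have hB0 : 0 < B := by linarith
  refine ⟨⌈2 * B ^ 2 / (r₀ * (e / B ^ 3) ^ 2 * η)⌉₊ + 1, ?_⟩
  intro χ χ' χ'' hχ R _ a ha ham ι κ A Y₁ _ _ _ _ _ _ _ _ c H₁ mu u P hN h₁ hW hu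
  have hN0 : 0 < Fintype.card ι := by omega
  have hN0' : (0 : ℝ) < Fintype.card ι := by exact_mod_cast hN0
  have hN1 : 2 * B ^ 2 / (r₀ * (e / B ^ 3) ^ 2 * η) ≤ Fintype.card ι :=
    (Nat.le_ceil _).trans (by exact_mod_cast (by omega))
  have hn : (0 : ℝ) < ct c.lab c.k1 := lt_of_lt_of_le (by positivity) c.big
  have hcard : (Fintype.card {b // c.lab b = c.k1} : ℝ) = ct c.lab c.k1 := by rw [card_block]
  have : Nonempty {b // c.lab b = c.k1} := Fintype.card_pos_iff.1 (by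
    rw [card_block]; exact_mod_cast hn)
  have hmu := fun α => (hW.mu_mem α).1
  have hz : ME fun q : (A → {b // c.lab b = c.k1} → ℝ) × St R (YS ι × Y₁) =>
      Wq mu (u (sS q.2)) P
        (zG (√(Fintype.card ι / ct c.lab c.k1)) (Xb c.lab c.k1) q.1 (fS q.2)) :=
    me_wq mu P (fun γ => (ME.of_bdd (hu.meas γ) B fun s => hu.le s γ).comp (gro_sS.comp Gro.snd))
      fun γ => (ME.sum univ fun b _ => (ml_id.comp ((Gro.apply b).comp ((Gro.apply γ).comp
        Gro.fst))).me.mul (((uv_Xb c.lab c.k1).me b).comp (gro_fS.comp Gro.snd))).const_mul _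
  have hq : ML fun q : (A → {b // c.lab b = c.k1} → ℝ) × St R (YS ι × Y₁) =>
      HR χ c.H H₁ mu u P (zG (√(Fintype.card ι / ct c.lab c.k1)) (Xb c.lab c.k1) q.1) q.2 :=
    ((gz_base c h₁).comp Gro.snd).add (ML.of_bdd ((continuous_iff_continuousAt.2 fun w =>
      (hχ.der w).continuousAt).measurable.comp hz.meas) (L + 1) fun s =>
        abs_le.2 ⟨le_trans (by linarith) (hχ.ge _),
          (hχ.nonpos hL (wq_nonpos hmu _ _ _)).trans (by linarith)⟩)
  rw [val_split ha hq, ham]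
  have hgood := gauss_gram (A := A) (β := {b // c.lab b = c.k1}) (δ := e / B ^ 3) (by positivity)
  refine (PM_close (B := L + 1) (ε := ε / 2) (η := η) hm (measurable_val_par hq.meas a)
    (fun G => ?_) (G := {G : A → {b // c.lab b = c.k1} → ℝ | ∃ α α', e / B ^ 3 <
      |(∑ b, G α b * G α' b) / Fintype.card {b // c.lab b = c.k1} - if α = α' then 1 else 0|}ᶜ) (MeasurableSet.compl ?_)
    ?_ hη1 (by positivity) fun G hG => ?_).trans (by linarith)
  · have hzG := hz.meas.comp (measurable_prodMk_left (x := G))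
    have h1 := gz_bdd ha (gz_base c h₁) hχ hL hzG (gz_me c mu hu P).meas
      (fun s => wq_nonpos hmu _ _ _) fun s => wq_nonpos hmu _ _ _
    have h2 := gz_bdd ha (gz_base c h₁) hχ hL (gz_me c mu hu P).meas hzG
      (fun s => wq_nonpos hmu _ _ _) fun s => wq_nonpos hmu _ _ _
    exact abs_sub_le_iff.2 ⟨sub_le_iff_le_add'.2 h1, sub_le_iff_le_add'.2 h2⟩
  · simp only [Set.ofPred_exists]
    exact MeasurableSet.iUnion fun α => MeasurableSet.iUnion fun α' =>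
      measurableSet_lt measurable_const (by fun_prop)
  · rw [compl_compl]
    refine hgood.trans ?_
    rw [hcard, div_le_iff₀ (by positivity)]
    rw [div_le_iff₀ (by positivity)] at hN1
    calc 2 * (Fintype.card A : ℝ) ^ 2 ≤ 2 * B ^ 2 := by gcongr; exact hW.card
      _ ≤ r₀ * Fintype.card ι * (η * (e / B ^ 3) ^ 2) := by linarith
      _ ≤ ct c.lab c.k1 * (η * (e / B ^ 3) ^ 2) := by gcongr; exact c.big
      _ = η * (ct c.lab c.k1 * (e / B ^ 3) ^ 2) := by ring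
  · obtain ⟨S, -, hS, hS'⟩ := exists_sqrt fun α t => G α t / √(ct c.lab c.k1)
    have h1 := hS' 1 (e / B ^ 3) one_pos fun α α' => by
      have h2 : ¬e / B ^ 3 < |(∑ b, G α b * G α' b) / Fintype.card {b // c.lab b = c.k1} -
          if α = α' then 1 else 0| := fun h => hG ⟨α, α', h⟩
      rw [not_lt, hcard, Finset.sum_div] at h2
      simp only [div_mul_div_comm, Real.mul_self_sqrt hn.le, one_pow]
      exact h2
    have h3 : ∀ α γ, |∑ β, P α β * S β γ - P α γ| ≤ e := by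
      intro α γ
      have h4 : ∑ β, P α β * S β γ - P α γ = ∑ β, P α β * (S β γ - if β = γ then 1 else 0) := by
        simp [mul_sub, Finset.sum_sub_distrib]
      rw [h4]
      refine (Finset.abs_sum_le_sum_abs _ _).trans ((Finset.sum_le_card_nsmul _ _
        (B * (B * (e / B ^ 3))) fun β _ => ?_).trans ?_)
      · rw [abs_mul]
        refine mul_le_mul (hW.P_le _ _) ((h1 β γ).trans ?_) (abs_nonneg _) hB0.le
        rw [div_one]
        exact mul_le_mul_of_nonneg_right hW.card (by positivity)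
      · rw [nsmul_eq_mul, Finset.card_univ]
        refine (mul_le_mul_of_nonneg_right hW.card (by positivity)).trans (le_of_eq ?_)
        field_simp
    rw [gz_rot c hχ hL h₁ hmu hu P S hN0 G hS]
    have hc2 : (Fintype.card A : ℝ) ≤ 2 * B := by linarith [hW.card]
    have hm2 : ∀ α, 0 ≤ mu α ∧ mu α ≤ 2 * B := fun α => ⟨hmu α, by linarith [(hW.mu_mem α).2]⟩
    refine (gz_close (B := 2 * B) c hr ha hN0 hχ hL h₁ (by linarith) ⟨hc2, hm2, fun α γ => ?_⟩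
      ⟨hc2, hm2, fun α γ => by linarith [hW.P_le α γ]⟩
      ⟨hu.meas, fun s α => by linarith [hu.le s α]⟩ he0.le h3).trans heε
    have h5 := abs_sub_abs_le_abs_sub (∑ β, P α β * S β γ) (P α γ)
    linarith [h3 α γ, hW.P_le α γ]

theorem real_ideal (B r₀ ε : ℝ) (hB : 1 ≤ B) (hr : 0 < r₀) (hε : 0 < ε) : ∃ ε₁ : ℝ, 0 < ε₁ ∧
    ∀ (R : ℕ) [NeZero R] (a : ℕ → ℝ), Exps R a → ∃ N₀ : ℕ,
    ∀ (ι κ A Y₁ : Type) [Fintype ι] [DecidableEq ι] [Fintype κ] [DecidableEq κ] [Fintype A]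
      [DecidableEq A] [MeasurableSpace Y₁] [Lev Y₁] (c : CavSys R r₀ ι κ A) (H₁ : St R Y₁ → ℝ)
      (mu : A → ℝ) (u : St R Y₁ → A → ℝ) (P : A → A → ℝ) (D : (ι → Bool) → ℝ)
      (δ : St R (YS ι × Y₁) → ℝ) (dc cc : ℕ → ℝ), N₀ ≤ Fintype.card ι → ML H₁ → WB B mu P →
      UB B u → Small c B ε₁ D δ → EE a c.H (fun s => D (cfg s)) ≤ ε₁ → (∀ l < R, 0 ≤ dc l) →
      ∑ l ∈ range R, dc l ≤ B → cavErr a c.H (Xb c.lab c.k1) cc ≤ ε₁ →
      (∀ i < R, |Fintype.card ι / ct c.lab c.k1 * cc i - ∑ l ∈ Ico i R, dc l| ≤ ε₁) →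
      |val a (fun s => HR id c.H H₁ mu u P c.ζ s + δ s) - val a c.H -
        val a (HI id H₁ mu u P dc)| ≤ ε := by
  have ht : 0 < r₀ / (4 * B) := by positivity
  set t := r₀ / (4 * B) with htd
  obtain ⟨M, hM⟩ : ∃ M, M = B ^ 10 * (1 + 2 / t) ^ 2 * (3 * B) := ⟨_, rfl⟩
  have hM0 : 0 ≤ M := by rw [hM]; positivity
  obtain ⟨L, hLd⟩ : ∃ L, L = 4 * (3 * M + 24 * B ^ 14) / ε := ⟨_, rfl⟩
  have hL : 0 < L := by rw [hLd]; positivity
  have hLε : 3 / L * M + 24 * B ^ 14 / L = ε / 4 := by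
    have : 0 < 3 * M + 24 * B ^ 14 := by positivity
    rw [hLd]; field_simp
  obtain ⟨χ, χ', χ'', hχ⟩ := exists_chi L
  have hr' : 0 < 1 / r₀ := by positivity
  obtain ⟨C, hC0, hC⟩ := interp L (B + 1 / r₀) hL.le (by linarith)
  obtain ⟨C₃, hC₃⟩ : ∃ C₃, C₃ = Real.exp (1 + B) * ((3 / 2 + 2 / t) * (3 * B) + B / 2) := ⟨_, rfl⟩
  have hC₃0 : 0 ≤ C₃ := by rw [hC₃]; positivity
  have hQ : 0 < Real.exp (L + 1) * C₃ + 2 * C + 1 := by positivity
  obtain ⟨σ, hσ0, hσ1, hσt, hσε⟩ : ∃ σ : ℝ, 0 < σ ∧ σ ≤ 1 ∧ σ ≤ t / 2 ∧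
      (Real.exp (L + 1) * C₃ + 2 * C + 1) * σ ≤ ε / 4 := by
    refine ⟨min 1 (min (t / 2) (ε / 4 / (Real.exp (L + 1) * C₃ + 2 * C + 1))), by positivity,
      min_le_left _ _, (min_le_right _ _).trans (min_le_left _ _), ?_⟩
    rw [← le_div_iff₀' hQ]
    exact (min_le_right _ _).trans (min_le_right _ _)
  refine ⟨σ ^ 2, by positivity, fun R _ a ha => ?_⟩
  obtain ⟨N₀, hN₀⟩ := gaussianize L B r₀ (a (R - 1)) (ε / 4) hL.le hB hr
    (ha.pos _ (Nat.sub_one_lt (NeZero.ne R))) (by positivity)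
  refine ⟨N₀, ?_⟩
  intro ι κ A Y₁ _ _ _ _ _ _ _ _ c H₁ mu u P D δ dc cc hN hH hW hu hδ hD hdc hdc' hcav hcc
  have g1 := hN₀ χ χ' χ'' hχ R a ha rfl ι κ A Y₁ c H₁ mu u P hN hH hW hu
  have hω : Real.sqrt (Fintype.card ι / ct c.lab c.k1) ^ 2 = Fintype.card ι / ct c.lab c.k1 :=
    Real.sq_sqrt (by positivity)
  have g2 := hC χ χ' χ'' hχ R a ha (YS ι) Y₁ A {b // c.lab b = c.k1} c.H H₁ (Xb c.lab c.k1) mu u P
    (Real.sqrt (Fintype.card ι / ct c.lab c.k1)) (σ ^ 2) dc cc (ri_ml_H c) hH (uv_Xb _ _)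
    ⟨by linarith [hW.card], fun α => ⟨(hW.mu_mem α).1, by linarith [(hW.mu_mem α).2]⟩,
      fun α β => by linarith [hW.P_le α β]⟩
    ⟨hu.meas, fun s α => by linarith [hu.le s α]⟩
    (by
      rw [hω]
      refine le_trans (div_le_of_le_mul₀ (Nat.cast_nonneg _) hr'.le ?_) (by linarith)
      rw [one_div, ← div_eq_inv_mul, le_div_iff₀' hr]
      exact c.big)
    hdc (by rw [hω]; exact hcc)
  have g3 := ideal_untrunc ha hH hχ hL hB hW hu hdc hdc'
  have hK : ML fun s : St R (YS ι × Y₁) => c.H (fS s) + H₁ (sS s) :=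
    ((ri_ml_H c).comp gro_fS).add (hH.comp gro_sS)
  have mδ := ri_ml_δ (sq_nonneg σ) hδ
  have mW := ri_me_W c mu P hu
  have W0 : ∀ s : St R (YS ι × Y₁), Wq mu (u (sS s)) P (c.ζ (fS s)) ≤ 0 := fun s =>
    wq_nonpos (fun α => (hW.mu_mem α).1) _ _ _
  have hT : ∀ s : St R (YS ι × Y₁), 0 ≤ ∑ α, c.ζ (fS s) α ^ 2 := fun s =>
    Finset.sum_nonneg fun _ _ => sq_nonneg _
  have g4 := trunc_lower ha hK hχ hL mW W0 mδ
  have g5 := trunc_upper ha hK hχ hL mW W0 mδ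
  have b1 := ri_bound ha hB hr hW.card c hH D (mW.pow 2) (p := B ^ 10 * (1 + 2 / t) ^ 2)
    (q := 0) (d := 0) (by positivity) le_rfl (by simp) fun s => by
      have h1 := pow_le_pow_left₀ (abs_nonneg _) (abs_wq_le hB hW (hu.le (sS s)) (c.ζ (fS s))) 2
      rw [sq_abs, mul_pow, ← pow_mul] at h1
      have h2 := mul_le_mul_of_nonneg_left (ri_sq ht (hT s)) (show 0 ≤ B ^ 10 by positivity)
      rw [← htd, zero_mul, add_zero, mul_assoc]
      exact h1.trans h2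
  have mx : ME fun s => |δ s| * Real.exp |δ s| := mδ.abs.me.mul mδ.abs.exp
  have b2 := ri_bound ha hB hr hW.card c hH D mx (p := Real.exp (1 + B) * (σ * (3 / 2 + 2 / t)))
    (q := Real.exp (1 + B) * (B / (2 * σ))) (d := Real.exp (1 + B) * (B / 2 * σ))
    (by positivity) (by positivity)
    ((mul_le_mul_of_nonneg_left hD (by positivity)).trans (le_of_eq (by field_simp)))
    fun s => ri_pt ht (hT s) hσ0 hσ1 hσt (hδ.D_mem _).1 (hδ.D_mem _).2 (abs_nonneg _) (hδ.le s)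
  have b2' : EE a (fun s => c.H (fS s) + H₁ (sS s)) (fun s => |δ s| * Real.exp |δ s|) ≤ C₃ * σ := by
    refine b2.trans (le_of_eq ?_)
    rw [hC₃]; ring
  have b3 := (EE_mono ha hK mδ.abs.me mx fun s =>
    le_mul_of_one_le_right (abs_nonneg _) (Real.one_le_exp (abs_nonneg _))).trans b2'
  have b4 := (EE_mono ha hK (mδ.exp.sub (ME.const 1)).abs mx fun s => ri_exp_sub _).trans b2'
  rw [add_zero, ← hM] at b1
  have b5 := mul_le_mul_of_nonneg_left b1 (show 0 ≤ 3 / L by positivity)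
  have b6 := mul_le_mul_of_nonneg_left b3 (Real.exp_pos (L + 1)).le
  have b7 := mul_le_mul_of_nonneg_left b4 (Real.exp_pos (L + 1)).le
  have hσ2 : σ ^ 2 ≤ σ := by nlinarith
  have b8 : C * (cavErr a c.H (Xb c.lab c.k1) cc + σ ^ 2) ≤ C * (2 * σ) :=
    mul_le_mul_of_nonneg_left (by linarith) hC0
  have b9 : 0 ≤ 3 / L * M := by positivity
  have e1 : val a (fun s => HR id c.H H₁ mu u P c.ζ s + δ s) = val a fun s =>
    c.H (fS s) + H₁ (sS s) + Wq mu (u (sS s)) P (c.ζ (fS s)) + δ s := rfl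
  have e2 : val a (HR χ c.H H₁ mu u P c.ζ) = val a fun s =>
    c.H (fS s) + H₁ (sS s) + χ (Wq mu (u (sS s)) P (c.ζ (fS s))) := rfl
  rw [← e1, ← e2] at g4 g5
  have g1' := abs_le.1 g1
  have g2' := abs_le.1 g2
  have g3' := abs_le.1 g3
  exact abs_le.2 ⟨by linarith only [g1'.2, g2'.1, g3'.1, g4, b5, b6, b8, hLε, hσε, hσ0, hε],
    by linarith only [g1'.1, g2'.2, g3'.2, g5, b7, b8, b9, hLε, hσε, hσ0, hε]⟩

end Crest.Agent.R164
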