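import Crest.Agent.R164.Geo
import Crest.Agent.R164.RI

/-!
# R164 / BigA: auxiliary facts for `big_split`

The level space `YD ι C = Orth ι × (ι ⊕ C → Bool × ℝ) × (ι ⊕ C → ℝ)`, the measure preserving maps
`bsT` (to the big system) and `bsP` (to the common system with cavity spins), and a sandwich
lemma for Gaussian perturbations.
-/

set_option autoImplicit false

open MeasureTheory ProbabilityTheory Finset Matrix

namespace Crest.Agent.R164

section sand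
variable {Y Y' A : Type} [MeasurableSpace Y] [Lev Y] [MeasurableSpace Y'] [Lev Y'] [Fintype A]
  [DecidableEq A] {R : ℕ} {a : ℕ → ℝ}

lemma bs_sand (ha : Exps R a) (d : A → Dir Y)
    (hd : ∀ α β θ y, (d β).γ ((d α).τ θ y) = (d β).γ y + if α = β then θ else 0) {ρ : Y → Y'}
    (hρ : Gro ρ) (hi : ∀ α θ y, ρ ((d α).τ θ y) = ρ y) {H : St R Y' → ℝ} (hH : ML H)
    {z : A → St R Y' → ℝ} (hz : ∀ α, Measurable (z α)) {B : ℝ} (hB : ∀ α x, |z α x| ≤ B)
    {c : Fin R → A → ℝ} {s : ℝ} (hc : ∀ l α, |c l α| ≤ s) :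
    val a (fun t => H (lift (fun _ => ρ) t)) ≤ val a (fun t => H (lift (fun _ => ρ) t) +
        ∑ l, ∑ α, c l α * ((d α).γ (t l) * z α (lift (fun _ => ρ) t))) ∧
      val a (fun t => H (lift (fun _ => ρ) t) +
        ∑ l, ∑ α, c l α * ((d α).γ (t l) * z α (lift (fun _ => ρ) t))) ≤
      val a fun t => H (lift (fun _ => ρ) t) + R * s ^ 2 * ∑ α, z α (lift (fun _ => ρ) t) ^ 2 := by
  have hg : Gro fun t : St R Y => lift (fun _ => ρ) t := Gro.lift fun _ => hρ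
  have hinv : ∀ α l θ (t : St R Y), lift (fun _ => ρ) (act (d α) l θ t) = lift (fun _ => ρ) t :=
    fun α l θ t => by
      funext i
      by_cases h : i = l
      · subst h
        simp only [lift, act_self, hi]
      · simp only [lift, act_ne _ h]
  have hgf : GF (J := Fin R × A) (fun t => H (lift (fun _ => ρ) t)) (fun j => d j.2) (fun j => j.1)
      fun j t => z j.2 (lift (fun _ => ρ) t) :=
    { ml := hH.comp hg
      meas := fun j => (hz j.2).comp hg.meas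
      bdd := ⟨B, fun j t => hB _ _⟩
      H_inv := fun j θ t => by rw [hinv]
      z_inv := fun j k θ t => by rw [hinv]
      γ_act := fun j k θ t => by
        by_cases h : k.1 = j.1
        · rw [h, act_self, hd]
          simp only [Prod.ext_iff, h, true_and]
        · rw [act_ne _ h, if_neg fun e => h (by rw [e]), add_zero] }
  have h1 := gf_lower ha hgf fun j => c j.1 j.2
  have h2 := gf_upper ha hgf fun j => c j.1 j.2
  simp only [Fintype.sum_prod_type] at h1 h2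
  have hsq : ∀ α, ML fun t : St R Y => z α (lift (fun _ => ρ) t) ^ 2 := fun α =>
    ML.of_bdd (((hz α).comp hg.meas).pow_const 2) (B ^ 2) fun t => by
      rw [abs_pow]; exact pow_le_pow_left₀ (abs_nonneg _) (hB α _) 2
  refine ⟨h1, h2.trans (val_mono ha (hgf.ml.add (ML.sum _ fun l _ => ML.sum _ fun α _ =>
    (hsq α).const_mul _)).mu (hgf.ml.add ((ML.sum _ fun α _ => hsq α).const_mul _)).mu fun t => ?_)⟩
  have h3 : ∀ l, ∑ α, c l α ^ 2 * z α (lift (fun _ => ρ) t) ^ 2 ≤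
      s ^ 2 * ∑ α, z α (lift (fun _ => ρ) t) ^ 2 := fun l => by
    rw [Finset.mul_sum]
    refine Finset.sum_le_sum fun α _ => mul_le_mul_of_nonneg_right ?_ (sq_nonneg _)
    rw [← sq_abs]
    exact pow_le_pow_left₀ (abs_nonneg _) (hc l α) 2
  have h4 := Finset.sum_le_sum fun l (_ : l ∈ (univ : Finset (Fin R))) => h3 l
  simp only [Finset.sum_const, Finset.card_univ, Fintype.card_fin, nsmul_eq_mul] at h4
  linarith
end sand

section ext
variable {ι C : Type} [Fintype ι] [DecidableEq ι] [Fintype C] [DecidableEq C]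

/-- The block matrix `U ⊕ 1`. -/
noncomputable def bsE (C : Type) [Fintype C] [DecidableEq C] (U : Orth ι) : Orth (ι ⊕ C) :=
  Orth.mk' (fromBlocks U.1 0 0 1) (by
    rw [fromBlocks_transpose, fromBlocks_multiply]
    simp [U.transpose_mul])

lemma bsE_mulVec (U : Orth ι) (x : ι → ℝ) (ε : C → ℝ) :
    (bsE C U).1 *ᵥ Sum.elim x ε = Sum.elim (U.1 *ᵥ x) ε := by
  simp [bsE, fromBlocks_mulVec]

lemma measurable_bsE : Measurable (bsE C : Orth ι → Orth (ι ⊕ C)) :=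
  Orth.measurable_of_entry fun a r => by
    rcases a with a | a <;> rcases r with r | r
    · exact Orth.measurable_entry a r
    all_goals exact measurable_const

lemma bs_orth_ext {O O' : Orth (ι ⊕ C)}
    (h : ∀ x ε, O.1 *ᵥ Sum.elim x ε = O'.1 *ᵥ Sum.elim x ε) : O = O' := by
  refine Subtype.ext (Matrix.ext fun i j => ?_)
  have := congrFun (h (Pi.single j 1 ∘ Sum.inl) (Pi.single j 1 ∘ Sum.inr)) i
  simpa only [Sum.elim_comp_inl_inr, Matrix.mulVec_single_one, Matrix.col_apply] using this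

/-- Level space of the split system. -/
abbrev YD (ι C : Type) [Fintype ι] [DecidableEq ι] : Type :=
  Orth ι × (ι ⊕ C → Bool × ℝ) × (ι ⊕ C → ℝ)

/-- The map to the big system. -/
noncomputable def bsT (q : Orth (ι ⊕ C) × YD ι C) : YS (ι ⊕ C) := (q.1 * bsE C q.2.1, q.2.2)

lemma bs_mp_mul : MeasurePreserving (fun q : Orth (ι ⊕ C) × Orth ι => q.1 * bsE C q.2)
    ((haar _).prod (haar _)) (haar _) := by
  have h1 : MeasurePreserving (fun q : Orth ι × Orth (ι ⊕ C) => (id q.1, q.2 * bsE C q.1))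
      ((haar _).prod (haar _)) ((haar _).prod (haar _)) :=
    MeasurePreserving.skew_product (g := fun U O => O * bsE C U) (MeasurePreserving.id _)
      (measurable_snd.mul (measurable_bsE.comp measurable_fst))
      (ae_of_all _ fun U => (mp_haar_mul_right _).map_eq)
  exact (measurePreserving_snd.comp h1).comp Measure.measurePreserving_swap

lemma mp_bsT : MeasurePreserving (bsT : Orth (ι ⊕ C) × YD ι C → YS (ι ⊕ C)) Lev.μ Lev.μ :=
  (bs_mp_mul.prod (MeasurePreserving.id _)).comp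
    (measurePreserving_prodAssoc (haar (ι ⊕ C)) (haar ι)
      (Lev.μ : Measure ((ι ⊕ C → Bool × ℝ) × (ι ⊕ C → ℝ)))).symm

lemma gro_bsT : Gro (bsT : Orth (ι ⊕ C) × YD ι C → YS (ι ⊕ C)) :=
  Gro.prodMk (Gro.of_le (measurable_fst.mul (measurable_bsE.comp measurable_snd.fst))
    fun q => Lev.n_nonneg q) (Gro.snd.comp Gro.snd)

/-- The map to the common system with cavity spins. -/
def bsP (y : YD ι C) : YS ι × (C → Bool × ℝ) :=
  ((y.1, fun r => y.2.1 (Sum.inl r), fun b => y.2.2 (Sum.inl b)), fun r => y.2.1 (Sum.inr r))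

lemma bs_mp_shuffle {α β γ : Type} [MeasurableSpace α] [MeasurableSpace β] [MeasurableSpace γ]
    (μ : Measure α) (ν : Measure β) (ξ : Measure γ) [SFinite μ] [SFinite ν] [SFinite ξ] :
    MeasurePreserving (fun p : (α × β) × γ => ((p.1.1, p.2), p.1.2)) ((μ.prod ν).prod ξ)
      ((μ.prod ξ).prod ν) :=
  (measurePreserving_prodAssoc μ ξ ν).symm.comp
    (((MeasurePreserving.id μ).prod Measure.measurePreserving_swap).comp
      (measurePreserving_prodAssoc μ ν ξ))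

omit [DecidableEq C] in
lemma mp_bsP : MeasurePreserving (bsP : YD ι C → YS ι × (C → Bool × ℝ)) Lev.μ Lev.μ := by
  have h1 := measurePreserving_sumPiEquivProdPi (X := fun _ : ι ⊕ C => Bool × ℝ) fun _ => Lev.μ
  have h2 := measurePreserving_fst.comp
    (measurePreserving_sumPiEquivProdPi (X := fun _ : ι ⊕ C => ℝ) fun _ => Lev.μ)
  exact (measurePreserving_prodAssoc _ _ _).symm.comp ((MeasurePreserving.id (haar ι)).prod
    ((bs_mp_shuffle _ _ _).comp (h1.prod h2)))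

/-- Simultaneous rotations of the split system. -/
noncomputable def bsR (U₀ : Orth ι) (B : Orth (ι ⊕ C)) (y : YD ι C) : YD ι C :=
  (U₀ * y.1, y.2.1, B.1 *ᵥ y.2.2)

lemma mp_bsR (U₀ : Orth ι) (B : Orth (ι ⊕ C)) : MeasurePreserving (bsR U₀ B) Lev.μ Lev.μ :=
  (mp_haar_mul_left U₀).prod ((MeasurePreserving.id _).prod (mp_gauss_mulVec B))

lemma lrot_bsT {O B Q : Orth (ι ⊕ C)} {U₀ : Orth ι}
    (h : ∀ x ε, B.1 *ᵥ (O.1 *ᵥ Sum.elim x ε) = Q.1 *ᵥ Sum.elim (U₀.1 *ᵥ x) ε) (y : YD ι C) :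
    lrot B (bsT (O, y)) = bsT (Q, bsR U₀ B y) := by
  refine Prod.ext (bs_orth_ext fun x ε => ?_) rfl
  change (B.1 * (O.1 * (bsE C y.1).1)) *ᵥ _ = (Q.1 * (bsE C (U₀ * y.1)).1) *ᵥ _
  rw [← mulVec_mulVec, ← mulVec_mulVec, ← mulVec_mulVec, bsE_mulVec, bsE_mulVec, h, mulVec_mulVec]
  rfl

variable {R : ℕ} [NeZero R] {a : ℕ → ℝ}

/-- The big Hamiltonian with the outer matrix as a parameter. -/
noncomputable def bsH (lamv : ι ⊕ C → ℝ) (V : (ι ⊕ C → Bool) → ℝ) (hy px : Fin R → ι ⊕ C → ℝ)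
    (O : Orth (ι ⊕ C)) (t : St R (YD ι C)) : ℝ :=
  Ham lamv V hy px (lift (fun _ y => bsT (O, y)) t)

variable (lamv : ι ⊕ C → ℝ) (V : (ι ⊕ C → Bool) → ℝ) (hy px : Fin R → ι ⊕ C → ℝ)

lemma ml_bsH : ML fun q : Orth (ι ⊕ C) × St R (YD ι C) => bsH lamv V hy px q.1 q.2 :=
  (ml_Ham lamv V hy px).comp (Gro.pi fun i =>
    gro_bsT.comp (Gro.prodMk Gro.fst ((Gro.apply i).comp Gro.snd)))

lemma val_bsH (ha : Exps R a) :
    val a (Ham lamv V hy px) = PM (a (R - 1)) (haar _) fun O => val a (bsH lamv V hy px O) := by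
  rw [← val_pull (τ := fun _ => (bsT : Orth (ι ⊕ C) × YD ι C → _)) (fun _ => mp_bsT)
    (ml_Ham lamv V hy px).meas a]
  exact val_split ha (ml_bsH lamv V hy px)

lemma val_bsH_rot {O B Q : Orth (ι ⊕ C)} {U₀ : Orth ι}
    (hB : ∀ b c, B.1 b c ≠ 0 → lamv b = lamv c ∧ ∀ l, px l b = px l c)
    (h : ∀ x ε, B.1 *ᵥ (O.1 *ᵥ Sum.elim x ε) = Q.1 *ᵥ Sum.elim (U₀.1 *ᵥ x) ε) (a : ℕ → ℝ) :
    val a (bsH lamv V hy px O) = val a (bsH lamv V hy px Q) := by
  rw [← val_pull (τ := fun _ => bsR U₀ B) (fun _ => mp_bsR U₀ B)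
    (ml_of_par (ml_bsH lamv V hy px) Q).meas a]
  congr 1
  funext t
  rw [bsH, bsH, ← Ham_lrot B hB]
  congr 1
  funext i
  exact lrot_bsT h (t i)

lemma xs_bsT (Q : Orth (ι ⊕ C)) (t : St R (YD ι C)) :
    xs (lift (fun _ y => bsT (Q, y)) t) = Q.1 *ᵥ Sum.elim (xs (fS (lift (fun _ => bsP) t)))
      (cε (sS (lift (fun _ => bsP) t))) := by
  have e : spn (cfg (lift (fun _ y => bsT (Q, y)) t)) =
      Sum.elim (spn (cfg (fS (lift (fun _ => bsP) t)))) (cε (sS (lift (fun _ => bsP) t))) := by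
    funext r
    rcases r with r | r <;> rfl
  rw [xs, e]
  change (Q.1 * (bsE C (t (lst R)).1).1) *ᵥ _ = _
  rw [← mulVec_mulVec, bsE_mulVec]
  rfl

end ext

section cav
variable {ϱ C κ : Type} [Fintype ϱ] [DecidableEq ϱ] [Fintype C] [DecidableEq C] [Fintype κ]
  [DecidableEq κ] {R : ℕ} [NeZero R] {a : ℕ → ℝ}

/-- As `bsP`, with the perturbation fields on the cavity coordinates removed. -/
def bsZ (y : YD (ϱ ⊕ C × κ) C) : YS (ϱ ⊕ C × κ) × (C → Bool × ℝ) :=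
  ((y.1, fun r => y.2.1 (Sum.inl r), Sum.elim (fun b => y.2.2 (Sum.inl (Sum.inl b))) fun _ => 0),
    fun r => y.2.1 (Sum.inr r))

/-- The cavity coordinates of the big system. -/
def bsJ (ϱ : Type) : (C × κ) ⊕ C → (ϱ ⊕ C × κ) ⊕ C :=
  Sum.elim (fun α => Sum.inl (Sum.inr α)) Sum.inr

/-- Translation of the perturbation field on a cavity coordinate. -/
noncomputable def bsD (ϱ : Type) [Fintype ϱ] [DecidableEq ϱ] (α : (C × κ) ⊕ C) :
    Dir (YD (ϱ ⊕ C × κ) C) :=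
  Dir.snd _ (Dir.snd _ (Dir.pi (bsJ ϱ α) Dir.real))

lemma gro_bsZ : Gro (bsZ : YD (ϱ ⊕ C × κ) C → _) := by
  refine Gro.prodMk (Gro.prodMk Gro.fst (Gro.prodMk
    (Gro.pi fun r => (Gro.apply _).comp (Gro.fst.comp Gro.snd)) (Gro.pi fun b => ?_)))
    (Gro.pi fun r => (Gro.apply _).comp (Gro.fst.comp Gro.snd))
  rcases b with b | b
  · exact (Gro.apply (Sum.inl (Sum.inl b))).comp (Gro.snd.comp Gro.snd)
  · exact Gro.of_ml (ML.const 0)

lemma bsD_γ (α β : (C × κ) ⊕ C) (θ : ℝ) (y : YD (ϱ ⊕ C × κ) C) :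
    (bsD ϱ β).γ ((bsD ϱ α).τ θ y) = (bsD ϱ β).γ y + if α = β then θ else 0 := by
  change Function.update y.2.2 (bsJ ϱ α) (y.2.2 (bsJ ϱ α) + θ) (bsJ ϱ β) = y.2.2 (bsJ ϱ β) + _
  by_cases h : α = β
  · subst h
    rw [Function.update_self, if_pos rfl]
  · rw [Function.update_of_ne, if_neg h, add_zero]
    rcases α with α | α <;> rcases β with β | β <;> simp_all [bsJ, eq_comm]

lemma bsZ_bsD (α : (C × κ) ⊕ C) (θ : ℝ) (y : YD (ϱ ⊕ C × κ) C) :
    bsZ ((bsD ϱ α).τ θ y) = bsZ y := by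
  have : (fun b => Function.update y.2.2 (bsJ ϱ α) (y.2.2 (bsJ ϱ α) + θ) (Sum.inl (Sum.inl b))) =
      fun b => y.2.2 (Sum.inl (Sum.inl b)) := by
    funext b
    rw [Function.update_of_ne]
    rcases α with α | α <;> simp [bsJ]
  exact congrArg (fun g : ϱ → ℝ => (((y.1, fun r => y.2.1 (Sum.inl r), Sum.elim g fun _ => 0),
    fun r => y.2.1 (Sum.inr r)) : YS (ϱ ⊕ C × κ) × (C → Bool × ℝ))) this

omit [NeZero R] in
/-- The sandwich for perturbations on the cavity coordinates. -/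
lemma bs_sandZ (ha : Exps R a) {H : St R (YS (ϱ ⊕ C × κ) × (C → Bool × ℝ)) → ℝ} (hH : ML H)
    {z : (C × κ) ⊕ C → St R (YS (ϱ ⊕ C × κ) × (C → Bool × ℝ)) → ℝ} (hz : ∀ α, Measurable (z α))
    {B : ℝ} (hB : ∀ α x, |z α x| ≤ B) {c : Fin R → (C × κ) ⊕ C → ℝ} {s : ℝ}
    (hc : ∀ l α, |c l α| ≤ s) :
    val a (fun t => H (lift (fun _ => bsZ) t)) ≤ val a (fun t => H (lift (fun _ => bsZ) t) +
        ∑ l, ∑ α, c l α * ((t l).2.2 (bsJ ϱ α) * z α (lift (fun _ => bsZ) t))) ∧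
      val a (fun t => H (lift (fun _ => bsZ) t) +
        ∑ l, ∑ α, c l α * ((t l).2.2 (bsJ ϱ α) * z α (lift (fun _ => bsZ) t))) ≤
      val a fun t => H (lift (fun _ => bsZ) t) +
        R * s ^ 2 * ∑ α, z α (lift (fun _ => bsZ) t) ^ 2 :=
  bs_sand ha (bsD ϱ) bsD_γ gro_bsZ bsZ_bsD hH hz hB hc

/-- The cavity eigen-coordinates of the big system. -/
noncomputable def bsQ (Y : C × κ → C → ℝ) (α : (C × κ) ⊕ C)
    (x : St R (YS (ϱ ⊕ C × κ) × (C → Bool × ℝ))) : ℝ :=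
  Qv Y (xs (fS x)) (cε (sS x)) (bsJ ϱ α)

lemma bs_meas_cε (r : C) :
    Measurable fun x : St R (YS (ϱ ⊕ C × κ) × (C → Bool × ℝ)) => cε (sS x) r := by
  unfold cε sS
  fun_prop

lemma bs_meas_xs (b : ϱ ⊕ C × κ) :
    Measurable fun x : St R (YS (ϱ ⊕ C × κ) × (C → Bool × ℝ)) => xs (fS x) b :=
  (measurable_xs b).comp gro_fS.meas

lemma measurable_bsQ (Y : C × κ → C → ℝ) (α : (C × κ) ⊕ C) :
    Measurable (bsQ (ϱ := ϱ) (R := R) Y α) := by
  rcases α with α | r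
  · exact (Finset.measurable_sum _ fun r _ => (bs_meas_cε r).const_mul _).add
      (Finset.measurable_sum _ fun β _ => (bs_meas_xs _).const_mul _)
  · exact Finset.measurable_sum _ fun β _ => (bs_meas_xs _).const_mul _

lemma sum_sq_bsQ {Y : C × κ → C → ℝ} (h : Frame Y) (x : St R (YS (ϱ ⊕ C × κ) × (C → Bool × ℝ))) :
    ∑ α, bsQ Y α x ^ 2 = Fintype.card C + ∑ α, xs (fS x) (Sum.inr α) ^ 2 := by
  have h1 := sum_sq_Qv h (xs (fS x)) (cε (sS x))
  simp only [cε, sp_sq, sum_const, card_univ, nsmul_eq_mul, mul_one] at h1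
  rw [Fintype.sum_sum_type]
  exact h1

lemma abs_bsQ_le {Y : C × κ → C → ℝ} (h : Frame Y) (α : (C × κ) ⊕ C)
    (x : St R (YS (ϱ ⊕ C × κ) × (C → Bool × ℝ))) :
    |bsQ Y α x| ≤ Real.sqrt (Fintype.card C + Fintype.card (ϱ ⊕ C × κ)) := by
  refine Real.abs_le_sqrt ((single_le_sum (f := fun α => bsQ Y α x ^ 2) (fun _ _ => sq_nonneg _)
    (mem_univ α)).trans ?_)
  rw [sum_sq_bsQ h, ← sum_sq_xs (fS x), Fintype.sum_sum_type]
  have : 0 ≤ ∑ b, xs (fS x) (Sum.inl b) ^ 2 := sum_nonneg fun _ _ => sq_nonneg _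
  linarith

lemma ml_bsQ_sq {Y : C × κ → C → ℝ} (h : Frame Y) (α : (C × κ) ⊕ C) :
    ML fun x : St R (YS (ϱ ⊕ C × κ) × (C → Bool × ℝ)) => bsQ Y α x ^ 2 :=
  ML.of_bdd ((measurable_bsQ Y α).pow_const 2) _ fun x => by
    rw [abs_pow]; exact pow_le_pow_left₀ (abs_nonneg _) (abs_bsQ_le h α x) 2

lemma ml_bs_wq {Y : C × κ → C → ℝ} (h : Frame Y) (mu : C × κ → ℝ) :
    ML fun x : St R (YS (ϱ ⊕ C × κ) × (C → Bool × ℝ)) =>
      Wq mu (uY Y (sS x)) (PY Y) fun α => xs (fS x) (Sum.inr α) := by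
  have h1 := (ML.sum univ fun α _ =>
    (ml_bsQ_sq (ϱ := ϱ) (R := R) h (Sum.inl α)).const_mul (mu α)).neg.const_mul 2⁻¹
  simp only [Wq, div_eq_inv_mul]
  exact h1

lemma ml_bs_cfg (V₁ : ((ϱ ⊕ C × κ) ⊕ C → Bool) → ℝ) :
    ML fun x : St R (YS (ϱ ⊕ C × κ) × (C → Bool × ℝ)) =>
      V₁ (Sum.elim (cfg (fS x)) fun r => (sS x 0 r).1) := by
  refine ML.of_bdd ((Measurable.of_discrete (f := V₁)).comp (measurable_pi_lambda _ fun r => ?_))
    (∑ σ, |V₁ σ|) fun s =>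
      Finset.single_le_sum (f := fun σ => |V₁ σ|) (fun _ _ => abs_nonneg _) (mem_univ _)
  rcases r with r | r
  · simp only [Sum.elim_inl, cfg, fS]
    fun_prop
  · simp only [Sum.elim_inr, sS]
    fun_prop

lemma ml_bs_cε (b : C → ℝ) :
    ML fun x : St R (YS (ϱ ⊕ C × κ) × (C → Bool × ℝ)) => ∑ r, b r * cε (sS x) r :=
  ML.sum _ fun r _ => (ML.of_bdd (bs_meas_cε r) 1 fun _ => (abs_sp _).le).const_mul _

lemma ml_bs_T : ML fun x : St R (YS (ϱ ⊕ C × κ) × (C → Bool × ℝ)) =>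
    ∑ α, xs (fS x) (Sum.inr α) ^ 2 :=
  ML.sum _ fun α _ => ML.of_bdd ((bs_meas_xs _).pow_const 2) (Fintype.card (ϱ ⊕ C × κ)) fun x => by
    rw [abs_of_nonneg (sq_nonneg _)]
    exact mdl_xs_sq_le _ _

/-- The common Hamiltonian splits off the perturbation on the cavity coordinates. -/
lemma Ham_bsP (lamv : ϱ ⊕ C × κ → ℝ) (V : (ϱ ⊕ C × κ → Bool) → ℝ) (px : Fin R → ϱ ⊕ C × κ → ℝ)
    (t : St R (YD (ϱ ⊕ C × κ) C)) :
    Ham lamv V 0 px (fS (lift (fun _ => bsP) t)) = Ham lamv V 0 px (fS (lift (fun _ => bsZ) t)) +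
      ∑ l, ∑ α, px l (Sum.inr α) * ((t l).2.2 (Sum.inl (Sum.inr α)) *
        xs (fS (lift (fun _ => bsZ) t)) (Sum.inr α)) := by
  have e1 : xs (fS (lift (fun _ => bsP) t)) = xs (fS (lift (fun _ => bsZ) t)) := rfl
  have e2 : cfg (fS (lift (fun _ => bsP) t)) = cfg (fS (lift (fun _ => bsZ) t)) := rfl
  simp only [Ham, e1, e2, Pi.zero_apply, zero_mul, sum_const_zero, add_zero, Fintype.sum_sum_type,
    sum_add_distrib]
  simp only [fS, lift, bsP, bsZ, Sum.elim_inl, Sum.elim_inr, zero_mul, mul_zero, sum_const_zero,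
    add_zero, add_assoc]

/-- The big Hamiltonian at the frame matrix `Q`. -/
lemma bsH_eq (S : Spec κ) (labr : ϱ → κ) (V : (ϱ ⊕ C × κ → Bool) → ℝ)
    (V₁ : ((ϱ ⊕ C × κ) ⊕ C → Bool) → ℝ) (b : C → ℝ) (uu : C → ℕ → ℝ) (px : κ → Fin R → ℝ)
    {Y : C × κ → C → ℝ} (hY : Frame Y) {Q : Orth ((ϱ ⊕ C × κ) ⊕ C)}
    (hQ : ∀ x ε, Q.1 *ᵥ Sum.elim x ε = Qv Y x ε) (t : St R (YD (ϱ ⊕ C × κ) C))
    (x : St R (YS (ϱ ⊕ C × κ) × (C → Bool × ℝ))) (hx : x = lift (fun _ => bsZ) t) :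
    bsH (fun b => S.lam (lab1 labr S.k1 b)) V₁
      (fun l => Sum.elim (fun _ => 0) fun r => Real.sqrt (uu r l))
      (fun l b => px (lab1 labr S.k1 b) l) Q t =
    (Ham (fun b => S.lam (lab0 labr S.k1 b)) V 0 (fun l b => px (lab0 labr S.k1 b) l) (fS x) +
      CF b uu (sS x) + Wq (fun α : C × κ => S.mu α.2) (uY Y (sS x)) (PY Y)
        (fun α => xs (fS x) (Sum.inr α)) +
      (V₁ (Sum.elim (cfg (fS x)) fun r => (sS x 0 r).1) - V (cfg (fS x)) -
        ∑ r, b r * cε (sS x) r) + Fintype.card C * S.lam S.k1 / 2) +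
      ∑ l, ∑ α, px (lab1 labr S.k1 (bsJ ϱ α)) l * ((t l).2.2 (bsJ ϱ α) * bsQ Y α x) := by
  have e1 : xs (lift (fun _ y => bsT (Q, y)) t) = Qv Y (xs (fS x)) (cε (sS x)) := by
    rw [xs_bsT, hQ, hx]
    rfl
  have e2 : cfg (lift (fun _ y => bsT (Q, y)) t) =
      Sum.elim (cfg (fS x)) fun r => (sS x 0 r).1 := by
    funext r
    rw [hx]
    rcases r with r | r <;> rfl
  have e3 := sum_sq_bsQ hY x
  have e4 : CF b uu (sS x) = ∑ r, b r * cε (sS x) r + ∑ l : Fin R, ∑ r, Real.sqrt (uu r l) *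
      (((t l).2.1 (Sum.inr r)).2 * cε (sS x) r) := by
    rw [sum_comm, ← sum_add_distrib, CF]
    refine sum_congr rfl fun r _ => ?_
    rw [osH, mul_add, mul_sum, mul_comm (b r), hx]
    congr 1
    refine sum_congr rfl fun l _ => ?_
    change cε (sS (lift (fun _ => bsZ) t)) r * (_ * ((t l).2.1 (Sum.inr r)).2) = _
    ring
  have e5 : Wq (fun α : C × κ => S.mu α.2) (uY Y (sS x)) (PY Y) (fun α => xs (fS x) (Sum.inr α)) =
      (∑ α : C × κ, S.lam α.2 * bsQ Y (Sum.inl α) x ^ 2 -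
        S.lam S.k1 * ∑ α : C × κ, bsQ Y (Sum.inl α) x ^ 2) / 2 := by
    rw [mul_sum, ← sum_sub_distrib, Wq, ← sum_neg_distrib]
    congr 1
    refine sum_congr rfl fun α _ => ?_
    change -((S.lam S.k1 - S.lam α.2) * bsQ Y (Sum.inl α) x ^ 2) = _
    ring
  have e6 : ∀ l b, (x l).1.2.2 (Sum.inl b) = (t l).2.2 (Sum.inl (Sum.inl b)) := fun l b => by
    rw [hx]; rfl
  have e7 : ∀ l α, (x l).1.2.2 (Sum.inr α) = 0 := fun l b => by
    rw [hx]; rfl
  have e8 : ∀ b, Qv Y (xs (fS x)) (cε (sS x)) (Sum.inl (Sum.inl b)) = xs (fS x) (Sum.inl b) :=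
    fun _ => rfl
  have e9 : ∀ α, Qv Y (xs (fS x)) (cε (sS x)) (Sum.inl (Sum.inr α)) = bsQ Y (Sum.inl α) x :=
    fun _ => rfl
  have e10 : ∀ r, Qv Y (xs (fS x)) (cε (sS x)) (Sum.inr r) = bsQ Y (Sum.inr r) x := fun _ => rfl
  have e11 : ∀ r, spn (Sum.elim (cfg (fS x)) fun r => (sS x 0 r).1) (Sum.inr r) = cε (sS x) r :=
    fun _ => rfl
  have e12 : ∀ l, (lift (fun _ y => bsT (Q, y)) t l).2 = (t l).2 := fun _ => rfl
  have e13 : ∀ l, (fS x l).2.2 = (x l).1.2.2 := fun _ => rfl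
  rw [Fintype.sum_sum_type] at e3
  rw [bsH, Ham, Ham, e1, e2, e4, e5]
  simp only [Fintype.sum_sum_type, e6, e7, e8, e9, e10, e11, e12, e13, lab0, lab1, bsJ,
    Sum.elim_inl, Sum.elim_inr, Pi.zero_apply, zero_mul, mul_zero, sum_const_zero, zero_add,
    add_zero, sum_add_distrib, ← mul_sum]
  linear_combination S.lam S.k1 / 2 * e3

end cav

end Crest.Agent.R164
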