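import Crest.Agent.R164.RI

/-!
# R164 / BigS: adding Gaussian perturbation fields on coordinates that carry none
-/

set_option autoImplicit false

open MeasureTheory ProbabilityTheory Finset Matrix

namespace Crest.Agent.R164

variable {ι : Type} [Fintype ι] [DecidableEq ι] {R : ℕ} [NeZero R] {a : ℕ → ℝ}
  {lamv lamv' : ι → ℝ} {V : (ι → Bool) → ℝ} {hy p p₀ : Fin R → ι → ℝ}

lemma bs_gf (lamv : ι → ℝ) (V : (ι → Bool) → ℝ) (hy p₀ : Fin R → ι → ℝ) :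
    GF (J := {j : Fin R × ι // p₀ j.1 j.2 = 0}) (Ham lamv V hy p₀) (fun j => dg j.1.2)
      (fun j => j.1.1) fun j s => xs s j.1.2 where
  ml := ml_Ham _ _ _ _
  meas := fun j => measurable_xs j.1.2
  bdd := ⟨_, fun j s => abs_xs_le s j.1.2⟩
  H_inv := fun j θ s => by rw [Ham_dg, j.2]; simp
  z_inv := fun j k θ s => by rw [xs_dg]
  γ_act := fun j k θ s => by
    rw [γ_dg, γ_dg, g_dg]
    simp only [Prod.mk.eta, Subtype.ext_iff]

omit [DecidableEq ι] [NeZero R] in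
lemma bs_sum (h : ∀ l b, p₀ l b = 0 ∨ p₀ l b = p l b) {f : ℝ → ℝ} (hf : f 0 = 0)
    (g : Fin R → ι → ℝ) :
    ∑ j : {j : Fin R × ι // p₀ j.1 j.2 = 0}, f (p j.1.1 j.1.2 - p₀ j.1.1 j.1.2) * g j.1.1 j.1.2 =
      ∑ l, ∑ b, f (p l b - p₀ l b) * g l b := by
  rw [← Fintype.sum_prod_type' fun l b => f (p l b - p₀ l b) * g l b,
    ← sum_subtype (univ.filter fun j : Fin R × ι => p₀ j.1 j.2 = 0) (by simp)
      fun j => f (p j.1 j.2 - p₀ j.1 j.2) * g j.1 j.2]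
  refine sum_filter_of_ne fun j _ hj => (h j.1 j.2).resolve_right fun e => hj ?_
  rw [e, sub_self, hf, zero_mul]

lemma bs_Ham (h : ∀ l b, p₀ l b = 0 ∨ p₀ l b = p l b) :
    Ham lamv V hy p = fun s => Ham lamv V hy p₀ s +
      ∑ j : {j : Fin R × ι // p₀ j.1 j.2 = 0}, (p j.1.1 j.1.2 - p₀ j.1.1 j.1.2) *
        ((dg j.1.2).γ (s j.1.1) * xs s j.1.2) := by
  funext s
  rw [bs_sum h (f := fun x => x) rfl fun l b => (dg b).γ (s l) * xs s b]
  simp only [Ham, γ_dg, sub_mul, sum_sub_distrib]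
  ring

lemma bs_lower (ha : Exps R a) (h : ∀ l b, p₀ l b = 0 ∨ p₀ l b = p l b) :
    val a (Ham lamv V hy p₀) ≤ val a (Ham lamv V hy p) := by
  rw [bs_Ham h]
  exact gf_lower ha (bs_gf lamv V hy p₀) _

lemma bs_upper (ha : Exps R a) (h : ∀ l b, p₀ l b = 0 ∨ p₀ l b = p l b)
    (hl : ∀ b, lamv b + 2 * ∑ l, (p l b - p₀ l b) ^ 2 ≤ lamv' b) :
    val a (Ham lamv V hy p) ≤ val a (Ham lamv' V hy p₀) := by
  rw [bs_Ham h]
  refine (gf_upper ha (bs_gf lamv V hy p₀) _).trans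
    (le_trans (le_of_eq ?_) ((val_Ham_mono ha hl (c := 0) fun σ => (add_zero _).ge).trans
      (add_zero _).le))
  congr 1
  funext s
  rw [bs_sum h (f := fun x => x ^ 2) (by simp) fun _ b => xs s b ^ 2, sum_comm]
  simp only [Ham, add_mul, sum_add_distrib, mul_assoc, ← mul_sum, ← sum_mul]
  ring

end Crest.Agent.R164
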