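import Crest.Agent.R164.Geo
import Crest.Agent.R164.RI
import Crest.Agent.R164.BigS
import Crest.Agent.R164.BigA

/-!
# R164 / Big: the big and the small system in terms of the common system

`small_sandwich`: let `H₀₀` be the common Hamiltonian without perturbation on the coordinates
`inr α`.  The small Hamiltonian is `H₀₀ + W + Σ px g ζ` (`λ_k = λ₁ - μ_k`), the common one is
`H₀₀ + Σ px g ζ` with other coefficients; `gf_lower`, `gf_upper` (`J = Fin R × (C × κ)`, flows `dg`)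
give `val (H₀₀ + F) ≤ val (H₀₀ + F + pert) ≤ val (H₀₀ + F + R s² Σ ζ²)` for every bounded `F` that
does not see these Gaussians.  Transfer to the product space by `val_fS` (`CF 0 0 = 0`).
`big_split`: `YC = YS ι₀ × ((C → Bool × ℝ) × (C → ℝ))`; the map
`(O, ((U, sz, g), (sz', g'))) ↦ (O * (U ⊕ 1), Sum.elim sz sz', Sum.elim g g')` is measure preserving
(`mp_haar_mul_right` and Fubini for the first component; `measurePreserving_sumPiEquivProdPi`), so
`val_pull`, `val_split` give a power mean over `O`.  For fixed `O` take `B, U₀, Y` from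
`cav_geometry` and pull back along `U ↦ U₀ U`, `Sum.elim g g' ↦ B (Sum.elim g g')`
(`mp_gauss_mulVec`, `sum_mul_mulVec`); by `sum_sq_Qv` the quadratic part is that of the common
system plus `λ₁ M/2 + Wq`.  Then sandwich as above (`Σ Q² = M + Σ ζ²` on the cavity coordinates) and
drop the slot `C → ℝ` by `val_pull`.
-/

set_option autoImplicit false

open MeasureTheory ProbabilityTheory Finset Matrix

namespace Crest.Agent.R164

variable {ϱ C κ : Type} [Fintype ϱ] [DecidableEq ϱ] [Fintype C] [DecidableEq C] [Fintype κ]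
  [DecidableEq κ] {R : ℕ} [NeZero R] {a : ℕ → ℝ} {r₀ : ℝ}

/-- The common system. -/
def comSys (S : Spec κ) (labr : ϱ → κ) (V : (ϱ ⊕ C × κ → Bool) → ℝ) (px : κ → Fin R → ℝ)
    (h : r₀ * Fintype.card (ϱ ⊕ C × κ) ≤ ct (lab0 (C := C) labr S.k1) S.k1) :
    CavSys R r₀ (ϱ ⊕ C × κ) κ (C × κ) where
  lab := lab0 labr S.k1
  k1 := S.k1
  lam := S.lam
  V := V
  px := px
  j := Sum.inr
  j_inj := Sum.inr_injective
  lab_j := fun _ => rfl
  big := h

/-- The Hamiltonian of the big system with extra Gaussian fields on the cavity spins. -/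
noncomputable def bigH (S : Spec κ) (labr : ϱ → κ) (V₁ : ((ϱ ⊕ C × κ) ⊕ C → Bool) → ℝ)
    (uu : C → ℕ → ℝ) (px : κ → Fin R → ℝ) : St R (YS ((ϱ ⊕ C × κ) ⊕ C)) → ℝ :=
  Ham (fun b => S.lam (lab1 labr S.k1 b)) V₁
    (fun l => Sum.elim (fun _ => 0) fun r => Real.sqrt (uu r l)) fun l b => px (lab1 labr S.k1 b) l

theorem small_sandwich (ha : Exps R a) (S : Spec κ) (labr : ϱ → κ) (lC : C → κ)
    (V : (ϱ ⊕ C × κ → Bool) → ℝ) (px : κ → Fin R → ℝ) {s : ℝ} (hpx : ∀ k l, |px k l| ≤ s)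
    (h : r₀ * Fintype.card (ϱ ⊕ C × κ) ≤ ct (lab0 (C := C) labr S.k1) S.k1) :
    let c := comSys S labr V px h
    let Φ : ℝ → ℝ := fun t => val a fun x =>
      HR id c.H (CF (fun _ : C => 0) fun _ _ => 0)
        (fun α : C × κ => S.mu (if lC α.1 = α.2 then S.k1 else α.2)) (fun _ _ => 0)
        (fun α β => if α = β then 1 else 0) c.ζ x + t * (1 + ∑ α, c.ζ (fS x) α ^ 2)
    let v := val a (Ham (fun b => S.lam (labS labr S.k1 lC b)) V 0 fun l b => px (labS labr S.k1 lC b) l)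
    Φ (-(R * s ^ 2)) ≤ v ∧ v ≤ Φ (R * s ^ 2) := by
  intro c Φ v
  let lt : ℝ → ϱ ⊕ C × κ → ℝ := fun t b =>
    S.lam (labS labr S.k1 lC b) + Sum.elim (fun _ => 0) (fun _ => 2 * t) b
  let p₀ : Fin R → ϱ ⊕ C × κ → ℝ := fun l => Sum.elim (fun a => px (labr a) l) fun _ => 0
  have hΦ : ∀ t, Φ t = val a (Ham (lt t) V 0 fun l b => px (lab0 labr S.k1 b) l) + t := by
    intro t
    rw [← val_add_const ha (ml_Ham _ _ _ _).mu, ← val_fS (Y' := C → Bool × ℝ)
      ((ml_Ham _ _ _ _).add (ML.const t)).meas]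
    refine congrArg (val a) (funext fun x => ?_)
    simp only [c, lt, HR, comSys, CavSys.H, CavSys.ζ, Ham, CF, osH, Wq, Spec.mu, lab0, labS, id,
      Fintype.sum_sum_type, Sum.elim_inl, Sum.elim_inr, Real.sqrt_zero, zero_mul, sum_const_zero,
      add_zero, mul_zero, zero_add, ite_mul, one_mul, sum_ite_eq, mem_univ, if_true, sub_mul,
      add_mul, sum_sub_distrib, sum_add_distrib, mul_assoc, ← mul_sum]
    ring
  have h0 : ∀ l b, p₀ l b = 0 ∨ p₀ l b = px (lab0 labr S.k1 b) l := by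
    rintro l (b | b)
    exacts [Or.inr rfl, Or.inl rfl]
  have hS : ∀ l b, p₀ l b = 0 ∨ p₀ l b = px (labS labr S.k1 lC b) l := by
    rintro l (b | b)
    exacts [Or.inr rfl, Or.inl rfl]
  have hs : ∀ k, ∑ l, px k l ^ 2 ≤ R * s ^ 2 := fun k =>
    (sum_le_sum (g := fun _ => s ^ 2) fun l _ =>
      sq_le_sq' (abs_le.1 (hpx k l)).1 (abs_le.1 (hpx k l)).2).trans (by simp)
  have hs0 : 0 ≤ R * s ^ 2 := by positivity
  rw [hΦ, hΦ]
  constructor
  · refine (add_le_of_nonpos_right (by linarith)).trans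
      ((bs_upper ha h0 ?_).trans (bs_lower ha hS))
    rintro (b | b)
    · simp [lt, p₀, lab0]
    · simp only [lt, p₀, lab0, Sum.elim_inr, sub_zero]
      linarith [hs S.k1]
  · refine ((bs_upper ha hS ?_).trans (bs_lower ha h0)).trans (le_add_of_nonneg_right hs0)
    rintro (b | b)
    · simp [lt, p₀, labS]
    · simp only [lt, p₀, Sum.elim_inr, sub_zero]
      linarith [hs (labS labr S.k1 lC (Sum.inr b))]

theorem big_split (ha : Exps R a) (S : Spec κ) (labr : ϱ → κ) (V : (ϱ ⊕ C × κ → Bool) → ℝ)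
    (V₁ : ((ϱ ⊕ C × κ) ⊕ C → Bool) → ℝ) (b : C → ℝ) (uu : C → ℕ → ℝ) (px : κ → Fin R → ℝ) {s : ℝ}
    (hpx : ∀ k l, |px k l| ≤ s)
    (h : r₀ * Fintype.card (ϱ ⊕ C × κ) ≤ ct (lab0 (C := C) labr S.k1) S.k1) :
    let c := comSys S labr V px h
    let Φ : (C × κ → C → ℝ) → ℝ → ℝ := fun Y t => val a fun x =>
      HR id c.H (CF b uu) (fun α : C × κ => S.mu α.2) (uY Y) (PY Y) c.ζ x +
        (V₁ (Sum.elim (cfg (fS x)) fun r => (sS x 0 r).1) - V (cfg (fS x)) - ∑ r, b r * cε (sS x) r +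
          t * (1 + ∑ α, c.ζ (fS x) α ^ 2))
    ∃ F : Orth ((ϱ ⊕ C × κ) ⊕ C) → ℝ, Measurable F ∧
      val a (bigH S labr V₁ uu px) = PM (a (R - 1)) (haar _) F ∧
      ∀ O, ∃ Y : C × κ → C → ℝ, Frame Y ∧
        Φ Y (-(R * s ^ 2 * (1 + Fintype.card C))) + Fintype.card C * S.lam S.k1 / 2 ≤ F O ∧
        F O ≤ Φ Y (R * s ^ 2 * (1 + Fintype.card C)) + Fintype.card C * S.lam S.k1 / 2 ∧
        ∀ e : ℝ, (∀ k r r', |∑ a ∈ univ.filter (lab1 labr S.k1 · = k),
            O.1 a (Sum.inr r) * O.1 a (Sum.inr r') - if r = r' then S.ρ k else 0| ≤ e) →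
          ∀ α r, |Y α r - Ys S.ρ α r| ≤ Fintype.card C * e / Real.sqrt (S.ρ α.2) := by
  intro c Φ
  refine ⟨fun O => val a (bsH _ V₁ _ _ O), measurable_val_par (ml_bsH _ _ _ _).meas a,
    val_bsH _ _ _ _ ha, fun O => ?_⟩
  obtain ⟨B, U₀, Y, hB, hY, hO, hcl⟩ := cav_geometry labr S.k1 O
  obtain ⟨Q, hQ⟩ := geo_Q (ϱ := ϱ) hY
  refine ⟨Y, hY, ?_⟩
  rw [← and_assoc]
  refine ⟨?_, fun e he => hcl S.ρ e S.ρ_pos he⟩
  beta_reduce
  rw [val_bsH_rot _ V₁ _ _ (B := B) (Q := Q) (U₀ := U₀)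
    (fun b c hbc => ⟨by rw [hB b c hbc], fun l => by rw [hB b c hbc]⟩)
    (fun x ε => by rw [hO, hQ]) a]
  obtain ⟨G, hG⟩ : ∃ G : St R (YS (ϱ ⊕ C × κ) × (C → Bool × ℝ)) → ℝ, G = fun x =>
      c.H (fS x) + CF b uu (sS x) + Wq (fun α : C × κ => S.mu α.2) (uY Y (sS x)) (PY Y)
        (fun α => xs (fS x) (Sum.inr α)) +
      (V₁ (Sum.elim (cfg (fS x)) fun r => (sS x 0 r).1) - V (cfg (fS x)) -
        ∑ r, b r * cε (sS x) r) := ⟨_, rfl⟩
  have mG : ML G := by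
    rw [hG]
    exact ((((ml_Ham _ _ _ _).comp gro_fS).add ((ml_CF b uu).comp gro_sS)).add
      (ml_bs_wq hY _)).add (((ml_bs_cfg V₁).sub ((ml_cfg V).comp gro_fS)).sub (ml_bs_cε b))
  obtain ⟨T, hT⟩ : ∃ T : St R (YS (ϱ ⊕ C × κ) × (C → Bool × ℝ)) → ℝ,
      T = fun x => ∑ α, xs (fS x) (Sum.inr α) ^ 2 := ⟨_, rfl⟩
  have mT : ML T := hT ▸ ml_bs_T
  have hT0 : ∀ x, 0 ≤ T x := fun x => hT ▸ sum_nonneg fun _ _ => sq_nonneg _
  have mΨ : ∀ t : ℝ, ML fun x => G x + t * (1 + T x) := fun t =>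
    mG.add (((ML.const 1).add mT).const_mul t)
  have gZ : Gro fun t : St R (YD (ϱ ⊕ C × κ) C) => lift (fun _ => bsZ) t :=
    Gro.lift fun _ => gro_bsZ
  obtain ⟨z₀, hz₀⟩ : ∃ z₀ : (C × κ) ⊕ C → St R (YS (ϱ ⊕ C × κ) × (C → Bool × ℝ)) → ℝ,
      z₀ = Sum.elim (fun α x => xs (fS x) (Sum.inr α)) fun _ _ => 0 := ⟨_, rfl⟩
  have hz1 : ∀ α, Measurable (z₀ α) := fun α => by
    rw [hz₀]
    rcases α with α | r
    · exact bs_meas_xs _
    · exact measurable_const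
  have hz2 : ∀ α x, |z₀ α x| ≤ Real.sqrt (Fintype.card (ϱ ⊕ C × κ)) := fun α x => by
    rw [hz₀]
    rcases α with α | r
    · exact abs_xs_le _ _
    · simp
  have hz3 : ∀ x, ∑ α, z₀ α x ^ 2 = T x := fun x => by
    simp [hz₀, hT, Fintype.sum_sum_type]
  have hΦ : ∀ t : ℝ, Φ Y t = val a fun u : St R (YD (ϱ ⊕ C × κ) C) =>
      (G (lift (fun _ => bsZ) u) + t * (1 + T (lift (fun _ => bsZ) u))) +
        ∑ l, ∑ α, px S.k1 l * ((u l).2.2 (bsJ ϱ α) * z₀ α (lift (fun _ => bsZ) u)) := fun t => by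
    have e : Φ Y t = val a fun x => G x + t * (1 + T x) := by
      rw [hG, hT]
      refine congrArg (val a) (funext fun x => ?_)
      simp only [HR, id]
      rw [add_assoc (_ + _ + _)]
      rfl
    rw [e, ← val_pull (τ := fun _ => (bsP : YD (ϱ ⊕ C × κ) C → _)) (fun _ => mp_bsP)
      (mΨ t).meas a]
    refine congrArg (val a) (funext fun u => ?_)
    have e1 := Ham_bsP (fun b => S.lam (lab0 labr S.k1 b)) V
      (fun l b => px (lab0 labr S.k1 b) l) u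
    have e2 : xs (fS (lift (fun _ => bsP) u)) = xs (fS (lift (fun _ => bsZ) u)) := rfl
    have e3 : cfg (fS (lift (fun _ => bsP) u)) = cfg (fS (lift (fun _ => bsZ) u)) := rfl
    have e4 : sS (lift (fun _ => bsP) u) = sS (lift (fun _ => bsZ) u) := rfl
    have e5 : ∀ x, c.H x = Ham (fun b => S.lam (lab0 labr S.k1 b)) V 0
      (fun l b => px (lab0 labr S.k1 b) l) x := fun _ => rfl
    simp only [hG, hT, e5, e1, e2, e3, e4]
    simp only [hz₀, Fintype.sum_sum_type, bsJ, lab0, Sum.elim_inl, Sum.elim_inr, mul_zero,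
      sum_const_zero, add_zero]
    ring
  have hF : val a (bsH (fun b => S.lam (lab1 labr S.k1 b)) V₁
      (fun l => Sum.elim (fun _ => 0) fun r => Real.sqrt (uu r l))
      (fun l b => px (lab1 labr S.k1 b) l) Q) = val a fun u : St R (YD (ϱ ⊕ C × κ) C) =>
      (G (lift (fun _ => bsZ) u) + Fintype.card C * S.lam S.k1 / 2) +
        ∑ l, ∑ α, px (lab1 labr S.k1 (bsJ ϱ α)) l *
          ((u l).2.2 (bsJ ϱ α) * bsQ Y α (lift (fun _ => bsZ) u)) := by
    refine congrArg (val a) (funext fun u => ?_)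
    rw [bsH_eq S labr V V₁ b uu px hY hQ u _ rfl, hG]
    rfl
  have hK : 0 ≤ R * s ^ 2 := by positivity
  have hM : (0 : ℝ) ≤ Fintype.card C := Nat.cast_nonneg _
  obtain ⟨h1, h2⟩ := bs_sandZ ha (mG.add (ML.const (Fintype.card C * S.lam S.k1 / 2)))
    (measurable_bsQ Y) (abs_bsQ_le hY) (c := fun l α => px (lab1 labr S.k1 (bsJ ϱ α)) l)
    fun l α => hpx _ _
  have h3 := fun t => bs_sandZ ha (mΨ t) hz1 hz2 (c := fun l _ => px S.k1 l) fun l α => hpx _ _
  simp only [hz3, sum_sq_bsQ hY, ← hΦ, ← hF] at h1 h2 h3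
  have e : ∀ x, ∑ α, xs (fS x) (Sum.inr α) ^ 2 = T x := fun x => by rw [hT]
  simp only [e] at h2
  constructor
  · refine le_trans ?_ h1
    rw [val_add_const ha (mG.comp gZ).mu]
    refine add_le_add_left ((h3 _).2.trans (val_mono ha
      (((mΨ _).add (mT.const_mul _)).comp gZ).mu (mG.comp gZ).mu fun u => ?_)) _
    nlinarith [hT0 (lift (fun _ => bsZ) u), mul_nonneg hK hM,
      mul_nonneg (mul_nonneg hK hM) (hT0 (lift (fun _ => bsZ) u))]
  · refine h2.trans (le_trans ?_ (add_le_add_left (h3 _).1 _))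
    rw [← val_add_const ha ((mΨ _).comp gZ).mu]
    refine val_mono ha (((mG.add (ML.const _)).add
      (((ML.const _).add mT).const_mul _)).comp gZ).mu
      (((mΨ _).add (ML.const _)).comp gZ).mu fun u => ?_
    nlinarith [hT0 (lift (fun _ => bsZ) u), mul_nonneg hK hM,
      mul_nonneg (mul_nonneg hK hM) (hT0 (lift (fun _ => bsZ) u))]

end Crest.Agent.R164
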