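import Crest.Agent.R164.Dat

/-!
# R164 / TransferC: the crude comparison of the three systems (proof of `Dat.crude`)
-/

set_option autoImplicit false

open MeasureTheory ProbabilityTheory Finset Matrix

namespace Crest.Agent.R164

variable {κ J C : Type} [Fintype κ] [DecidableEq κ] [Fintype J] [DecidableEq J] [Fintype C]
  [DecidableEq C]

lemma trc_PM {P : Type} [MeasurableSpace P] {ν : Measure P} [IsProbabilityMeasure ν] {m v K : ℝ}
    {F : P → ℝ} (hm : 0 < m) (hF : Measurable F) (h : ∀ p, |F p - v| ≤ K) :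
    |PM m ν F - v| ≤ K := by
  have hi : Integrable (fun p => Real.exp (m * F p)) ν :=
    Integrable.of_bound (hF.const_mul m).exp.aestronglyMeasurable (Real.exp (m * (v + K)))
      (ae_of_all _ fun p => by
        rw [Real.norm_of_nonneg (Real.exp_pos _).le]
        exact Real.exp_le_exp.2
          (mul_le_mul_of_nonneg_left (by linarith [(abs_le.1 (h p)).2]) hm.le))
  have h1 := PM_mono hm hi (G := fun _ => v + K) (integrable_const _) fun p => by
    linarith [(abs_le.1 (h p)).2]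
  have h2 := PM_mono hm (F := fun _ => v - K) (integrable_const _) hi fun p => by
    linarith [(abs_le.1 (h p)).1]
  rw [PM_const hm] at h1 h2
  exact abs_le.2 ⟨by linarith, by linarith⟩

lemma trc_V {ι : Type} [Fintype ι] [DecidableEq ι] [Nonempty ι] (D : Dat κ J C) {A : ℝ}
    (hA : 0 ≤ A) (fld : ι → J) {y : J → ℝ} (hy : ∀ j, |y j| ≤ 1) (σ : ι → Bool) (ε : C → Bool) :
    |Vm (Sum.elim fld D.fC) D.c D.m A y (Sum.elim σ ε) - Vm fld D.c D.m A y σ| ≤
      ∑ r, (|D.c (D.fC r)| + 1) + 16 * A * (1 + Fintype.card C) ^ 2 * (Fintype.card J * 3) := by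
  have hN : (1 : ℝ) ≤ Fintype.card ι := by exact_mod_cast Fintype.card_pos
  have hm : ∀ j, |D.m j| ≤ 1 := fun j => (D.m_lt j).le
  have h1 := mag_bound (fld := fld) (c := D.c) (y := y) D.fC hA hm (δ := fun _ => 0)
    (fun _ => by simp) σ ε
  simp only [mul_zero, sub_zero, ne_eq, OfNat.ofNat_ne_zero, not_false_eq_true, zero_pow, zero_mul,
    add_zero, sum_const_zero] at h1
  have h2 : ∑ j, (|(Sg fld j σ - D.m j * ct fld j) / Fintype.card ι| + 1 / (Fintype.card ι : ℝ)) ≤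
      Fintype.card J * 3 := by
    refine (sum_le_sum (g := fun _ => (3 : ℝ)) fun j _ => ?_).trans (by simp)
    have a1 : |(Sg fld j σ - D.m j * ct fld j) / Fintype.card ι| ≤ 2 := by
      rw [abs_div, Nat.abs_cast, div_le_iff₀ (by linarith)]
      exact (pen_abs_dev hm fld j σ).trans (by gcongr; exact ct_le fld j)
    have a2 : 1 / (Fintype.card ι : ℝ) ≤ 1 := (div_le_one (by linarith)).2 hN
    linarith
  have h3 : |∑ r, (D.c (D.fC r) + y (D.fC r)) * sp (ε r)| ≤ ∑ r, (|D.c (D.fC r)| + 1) :=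
    (abs_sum_le_sum_abs _ _).trans (sum_le_sum fun r _ => by
      rw [abs_mul, abs_sp, mul_one]
      exact (abs_add_le _ _).trans (add_le_add le_rfl (hy _)))
  have h4 := mul_le_mul_of_nonneg_left h2
    (show 0 ≤ 16 * A * (1 + (Fintype.card C : ℝ)) ^ 2 by positivity)
  have h5 := abs_le.1 (h1.trans h4)
  have h6 := abs_le.1 h3
  exact abs_le.2 ⟨by linarith, by linarith⟩

omit [DecidableEq C] in
lemma trc_CF {R : ℕ} [NeZero R] {a : ℕ → ℝ} (ha : Exps R a) {b : C → ℝ} {uu : C → ℕ → ℝ}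
    (hb : ∀ r, b r = 0) (hu : ∀ r l, uu r l = 0) : val a (CF (R := R) b uu) = 0 := by
  rw [← val_const (Y := C → Bool × ℝ) ha 0]
  congr 1
  funext s
  simp [CF, osH, hb, hu]

omit [Fintype κ] in
lemma trc_small {R : ℕ} [NeZero R] {r₀ B η t : ℝ} {ι A Y₁ : Type} [Fintype ι] [DecidableEq ι]
    [Fintype A] [MeasurableSpace Y₁] [Lev Y₁] (c : CavSys R r₀ ι κ A) (hB : 0 ≤ B) (ht : |t| ≤ η)
    {g : St R (YS ι × Y₁) → ℝ} (hg : Measurable g) (hgB : ∀ x, |g x| ≤ B) :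
    Small c B η (fun _ => B) fun x => g x + t * (1 + ∑ α, c.ζ (fS x) α ^ 2) where
  meas := hg.add (((ML.const 1).add ((ri_ml_T c).comp gro_fS)).const_mul t).meas
  le := fun x => by
    have h0 : 0 ≤ 1 + ∑ α, c.ζ (fS x) α ^ 2 :=
      add_nonneg zero_le_one (sum_nonneg fun _ _ => sq_nonneg _)
    have h1 := abs_add_le (g x) (t * (1 + ∑ α, c.ζ (fS x) α ^ 2))
    rw [abs_mul, abs_of_nonneg h0] at h1
    linarith [hgB x, mul_le_mul_of_nonneg_right ht h0]
  D_mem := fun _ => ⟨hB, le_rfl⟩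

theorem Dat.crude_aux (D : Dat κ J C) {A : ℝ} (hA : 0 ≤ A) : ∃ K η₀ : ℝ, 0 ≤ K ∧ 0 < η₀ ∧
    ∀ (R : ℕ) [NeZero R] (s : ℝ), 0 ≤ s → R * s ^ 2 ≤ η₀ →
    ∀ (ϱ : Type) [Fintype ϱ] [DecidableEq ϱ] (labr : ϱ → κ) (fld : ϱ ⊕ C × κ → J),
      Prp (lab0 (C := C) labr D.S.k1) D.S.ρ (D.S.ρ D.S.k1 / 2) → D.Crude A labr fld R s K := by
  have hM : (0 : ℝ) ≤ Fintype.card C := Nat.cast_nonneg _
  obtain ⟨B, hB1, hB2, hB3, hB4⟩ : ∃ B : ℝ, (Fintype.card (C × κ) : ℝ) ≤ B ∧
      1 + (Fintype.card C : ℝ) ≤ B ∧ (∀ k, D.S.mu k ≤ B) ∧ ∑ r, (|D.c (D.fC r)| + 1) +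
        16 * A * (1 + Fintype.card C) ^ 2 * (Fintype.card J * 3) ≤ B := by
    have a1 : (0 : ℝ) ≤ Fintype.card (C × κ) := Nat.cast_nonneg _
    have a2 : 0 ≤ ∑ k, D.S.mu k := sum_nonneg fun k _ => D.S.mu_nonneg k
    have a3 : 0 ≤ ∑ r, (|D.c (D.fC r)| + 1) +
        16 * A * (1 + Fintype.card C) ^ 2 * (Fintype.card J * 3) := by positivity
    refine ⟨Fintype.card (C × κ) + (1 + Fintype.card C) + ∑ k, D.S.mu k + (∑ r, (|D.c (D.fC r)| + 1) +
      16 * A * (1 + Fintype.card C) ^ 2 * (Fintype.card J * 3)), by linarith, by linarith,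
      fun k => ?_, by linarith⟩
    linarith [single_le_sum (f := D.S.mu) (fun k _ => D.S.mu_nonneg k) (mem_univ k)]
  have hB : 1 ≤ B := by linarith
  obtain ⟨C₀, η, hη, H⟩ := ri_crude B (D.S.ρ D.S.k1 / 2) hB (half_pos (D.S.ρ_pos _))
  refine ⟨|C₀| + |Fintype.card C * D.S.lam D.S.k1 / 2|, η / (9 * (1 + Fintype.card C)),
    by positivity, by positivity, fun R _ s hs hR ϱ _ _ labr fld hP px y hpx hy => ?_⟩
  have ha : Exps R (ua R) := exps_ua (Nat.pos_of_ne_zero (NeZero.ne R))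
  have : Nonempty C := Fintype.card_pos_iff.1 D.pos
  have : Nonempty (ϱ ⊕ C × κ) := ⟨Sum.inr (Classical.arbitrary C, D.S.k1)⟩
  have hN : (0 : ℝ) < Fintype.card (ϱ ⊕ C × κ) := by exact_mod_cast Fintype.card_pos
  have h : D.S.ρ D.S.k1 / 2 * Fintype.card (ϱ ⊕ C × κ) ≤
      ct (lab0 (C := C) labr D.S.k1) D.S.k1 := by
    rw [← le_div_iff₀ hN]
    linarith [(abs_le.1 (hP D.S.k1)).1]
  have ht0 : 0 ≤ R * (3 * s) ^ 2 := by positivity
  have ht1 : R * (3 * s) ^ 2 * (1 + Fintype.card C) ≤ η := by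
    rw [le_div_iff₀ (by positivity)] at hR
    linarith
  have ht2 : R * (3 * s) ^ 2 ≤ η := by nlinarith
  have hc : val (ua R) (D.com A labr fld px y) =
      val (ua R) (comSys D.S labr (Vm fld D.c D.m A y) px h).H := rfl
  have p1 := le_abs_self C₀
  have p2 := le_abs_self (Fintype.card C * D.S.lam D.S.k1 / 2)
  have p3 := neg_abs_le (Fintype.card C * D.S.lam D.S.k1 / 2)
  constructor
  · obtain ⟨h1, h2⟩ := small_sandwich ha D.S labr D.lC (Vm fld D.c D.m A y) px hpx h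
    have key := fun (t : ℝ) (ht : |t| ≤ η) => H R (ua R) ha _ κ (C × κ) (C → Bool × ℝ)
      (comSys D.S labr (Vm fld D.c D.m A y) px h) (CF (fun _ : C => 0) fun _ _ => 0)
      (fun α : C × κ => D.S.mu (if D.lC α.1 = α.2 then D.S.k1 else α.2)) (fun _ _ => 0)
      (fun α β => if α = β then 1 else 0) η _ _ (ml_CF _ _)
      ⟨hB1, fun α => ⟨D.S.mu_nonneg _, hB3 _⟩, fun α β => by split_ifs <;> simp <;> linarith⟩
      ⟨fun _ => measurable_const, fun _ _ => by simp; linarith⟩ hη.le le_rfl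
      (trc_small (g := fun _ => 0) _ (by linarith) ht measurable_const fun _ => by simp; linarith)
    simp only [zero_add, trc_CF ha (fun _ => rfl) fun _ _ => rfl, sub_zero] at key
    have k1 := (abs_le.1 (key (-(R * (3 * s) ^ 2)) (by rwa [abs_neg, abs_of_nonneg ht0]))).1
    have k2 := (abs_le.1 (key (R * (3 * s) ^ 2) (by rwa [abs_of_nonneg ht0]))).2
    have e : val (ua R) (D.small A labr fld px y) = val (ua R)
      (Ham (fun b => D.S.lam (labS labr D.S.k1 D.lC b)) (Vm fld D.c D.m A y) 0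
        fun l b => px (labS labr D.S.k1 D.lC b) l) := rfl
    rw [hc, e]
    exact abs_le.2 ⟨by linarith, by linarith⟩
  · obtain ⟨F, hF, e, hO⟩ := big_split ha D.S labr (Vm fld D.c D.m A y)
      (fun σ => Vm (Sum.elim fld D.fC) D.c D.m A y σ + ∑ r, (0 : C → ℝ) r * spn σ (Sum.inr r))
      0 0 px hpx h
    rw [← D.big_zero, hc, Dat.big, e]
    refine trc_PM (ha.pos _ (Nat.sub_one_lt (NeZero.ne R))) hF fun O => ?_
    obtain ⟨Y, hY, h1, h2, -⟩ := hO O
    have hu := ub_uY (R := R) hY.abs_le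
    have key := fun (t : ℝ) (ht : |t| ≤ η) => H R (ua R) ha _ κ (C × κ) (C → Bool × ℝ)
      (comSys D.S labr (Vm fld D.c D.m A y) px h) (CF 0 0)
      (fun α : C × κ => D.S.mu α.2) (uY Y) (PY Y) η _ _ (ml_CF _ _)
      ⟨hB1, fun α => ⟨D.S.mu_nonneg _, hB3 _⟩, fun α β => (hY.abs_PY_le α β).trans hB2⟩
      ⟨hu.meas, fun x α => (hu.le x α).trans (by linarith)⟩ hη.le le_rfl
      (trc_small _ (by linarith) ht (((ml_bs_cfg (fun σ => Vm (Sum.elim fld D.fC) D.c D.m A y σ +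
        ∑ r, (0 : C → ℝ) r * spn σ (Sum.inr r))).sub
          ((ml_cfg (Vm fld D.c D.m A y)).comp gro_fS)).sub (ml_bs_cε 0)).meas fun x => by
        simp only [Pi.zero_apply, zero_mul, sum_const_zero, add_zero, sub_zero]
        exact (trc_V D hA fld hy _ _).trans hB4)
    rw [trc_CF (b := 0) (uu := 0) ha (fun _ => rfl) fun _ _ => rfl] at key
    beta_reduce at h1 h2
    have ht3 : 0 ≤ R * (3 * s) ^ 2 * (1 + Fintype.card C) := by positivity
    have k1 := (abs_le.1 (key (-(R * (3 * s) ^ 2 * (1 + Fintype.card C)))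
      (by rwa [abs_neg, abs_of_nonneg ht3]))).1
    have k2 := (abs_le.1 (key (R * (3 * s) ^ 2 * (1 + Fintype.card C))
      (by rwa [abs_of_nonneg ht3]))).2
    exact abs_le.2 ⟨by linarith, by linarith⟩

end Crest.Agent.R164
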