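import Crest.Agent.R164.Dat

/-!
# R164 / TransferP: auxiliary lemmas for `Dat.prec`
-/

set_option autoImplicit false
set_option linter.unusedSectionVars false

open MeasureTheory ProbabilityTheory Finset Matrix

namespace Crest.Agent.R164

variable {κ J C : Type} [Fintype κ] [DecidableEq κ] [Fintype J] [DecidableEq J] [Fintype C]
  [DecidableEq C]

lemma tp_ct_elim {ι ι' α : Type} [Fintype ι] [Fintype ι'] [DecidableEq α] (f : ι → α) (g : ι' → α)
    (k : α) : (ct (Sum.elim f g) k : ℝ) = ct f k + ct g k := by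
  simp only [ct, Finset.card_filter, Fintype.sum_sum_type, Nat.cast_add]
  rfl

lemma tp_ct_le {ι α : Type} [Fintype ι] [DecidableEq α] (f : ι → α) (k : α) :
    (ct f k : ℝ) ≤ Fintype.card ι := by
  exact_mod_cast Finset.card_le_univ _

omit [DecidableEq C] in
lemma tp_prp {ϱ : Type} [Fintype ϱ] (labr : ϱ → κ) (k1 : κ) {ρ : κ → ℝ} {e B : ℝ}
    (h : Prp (lab0 (C := C) labr k1) ρ e) (h1 : (Fintype.card (C × κ) : ℝ) ≤ B)
    (h2 : 1 + (Fintype.card C : ℝ) ≤ B) (hN : (0 : ℝ) < Fintype.card (ϱ ⊕ C × κ)) :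
    Prp (lab1 (C := C) labr k1) ρ (e + 3 * B / Fintype.card (ϱ ⊕ C × κ)) := by
  intro k
  have e0 : (ct (lab0 (C := C) labr k1) k : ℝ) = ct labr k + ct (fun _ : C × κ => k1) k :=
    tp_ct_elim _ _ _
  have e1 : (ct (lab1 (C := C) labr k1) k : ℝ) =
      ct labr k + ct (Prod.snd : C × κ → κ) k + ct (fun _ : C => k1) k := by
    rw [lab1, tp_ct_elim, tp_ct_elim]
  have b0 := tp_ct_le (lab0 (C := C) labr k1) k
  have b1 := tp_ct_le (fun _ : C × κ => k1) k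
  have b2 := tp_ct_le (Prod.snd : C × κ → κ) k
  have b3 := tp_ct_le (fun _ : C => k1) k
  have n0 : (0 : ℝ) ≤ ct (lab0 (C := C) labr k1) k := Nat.cast_nonneg _
  have n1 : (0 : ℝ) ≤ ct (fun _ : C × κ => k1) k := Nat.cast_nonneg _
  have n2 : (0 : ℝ) ≤ ct (Prod.snd : C × κ → κ) k := Nat.cast_nonneg _
  have n3 : (0 : ℝ) ≤ ct (fun _ : C => k1) k := Nat.cast_nonneg _
  have hM : (0 : ℝ) ≤ Fintype.card C := Nat.cast_nonneg _
  have hd : |(ct (lab1 (C := C) labr k1) k : ℝ) - ct (lab0 (C := C) labr k1) k| ≤ 2 * B :=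
    abs_le.2 ⟨by linarith, by linarith⟩
  have hk := h k
  rw [Fintype.card_sum (α := ϱ ⊕ C × κ), Nat.cast_add]
  generalize (ct (lab1 (C := C) labr k1) k : ℝ) = x at *
  generalize (ct (lab0 (C := C) labr k1) k : ℝ) = x0 at *
  generalize (Fintype.card (ϱ ⊕ C × κ) : ℝ) = N at *
  generalize (Fintype.card C : ℝ) = M at *
  have e2 : x / (N + M) - ρ k = (x0 / N - ρ k) + ((x - x0) / (N + M) - x0 / N * (M / (N + M))) := by
    field_simp
    ring
  have c1 : |(x - x0) / (N + M)| ≤ 2 * B / N := by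
    rw [abs_div, abs_of_pos (by linarith : 0 < N + M)]
    exact div_le_div₀ (by linarith) hd hN (by linarith)
  have c2 : |x0 / N * (M / (N + M))| ≤ B / N := by
    rw [abs_of_nonneg (by positivity)]
    refine (mul_le_of_le_one_left (by positivity) ((div_le_one hN).2 b0)).trans ?_
    exact div_le_div₀ (by linarith) (by linarith) hN (by linarith)
  have e3 : 3 * B / N = 2 * B / N + B / N := by ring
  rw [e2, e3]
  exact (abs_add_le _ _).trans (add_le_add hk ((abs_sub _ _).trans (add_le_add c1 c2)))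

lemma tp_uY {A : Type} {R : ℕ} [NeZero R] {Y Y' : A → C → ℝ} {e : ℝ}
    (h : ∀ α r, |Y α r - Y' α r| ≤ e) (s : St R (C → Bool × ℝ)) (α : A) :
    |uY Y s α - uY Y' s α| ≤ Fintype.card C * e := by
  rw [uY, uY, ← sum_sub_distrib]
  refine (abs_sum_le_sum_abs _ _).trans ?_
  calc ∑ r, |Y α r * cε s r - Y' α r * cε s r| ≤ ∑ _r : C, e := sum_le_sum fun r _ => by
        rw [← sub_mul, abs_mul, cε, abs_sp, mul_one]
        exact h α r
    _ = Fintype.card C * e := by simp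

lemma tp_PY {A : Type} [Fintype A] [DecidableEq A] {Y Y' : A → C → ℝ} {e : ℝ} (hY : Frame Y)
    (hY' : Frame Y') (h : ∀ α r, |Y α r - Y' α r| ≤ e) (α β : A) :
    |PY Y α β - PY Y' α β| ≤ Fintype.card C * (2 * e) := by
  have e1 : PY Y α β - PY Y' α β = ∑ r, (Y' α r * Y' β r - Y α r * Y β r) := by
    rw [PY, PY, sum_sub_distrib]
    ring
  rw [e1]
  refine (abs_sum_le_sum_abs _ _).trans ?_
  calc ∑ r, |Y' α r * Y' β r - Y α r * Y β r| ≤ ∑ _r : C, 2 * e := sum_le_sum fun r _ => by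
        have e2 : Y' α r * Y' β r - Y α r * Y β r =
            -((Y α r - Y' α r) * Y' β r + Y α r * (Y β r - Y' β r)) := by ring
        rw [e2, abs_neg]
        refine (abs_add_le _ _).trans ?_
        rw [abs_mul, abs_mul]
        have a1 := mul_le_of_le_one_right (abs_nonneg (Y α r - Y' α r)) (hY'.abs_le β r)
        have a2 := mul_le_of_le_one_left (abs_nonneg (Y β r - Y' β r)) (hY.abs_le α r)
        linarith [h α r, h β r]
    _ = Fintype.card C * (2 * e) := by simp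

lemma tp_wb (S : Spec κ) {B : ℝ} (h1 : (Fintype.card (C × κ) : ℝ) ≤ B)
    (h2 : 1 + (Fintype.card C : ℝ) ≤ B) (h3 : ∀ k, S.mu k ≤ B) {Y : C × κ → C → ℝ} (hY : Frame Y) :
    WB B (fun α : C × κ => S.mu α.2) (PY Y) :=
  ⟨h1, fun _ => ⟨S.mu_nonneg _, h3 _⟩, fun α β => (hY.abs_PY_le α β).trans h2⟩

lemma tp_ub {B : ℝ} {R : ℕ} [NeZero R] (h2 : 1 + (Fintype.card C : ℝ) ≤ B) {Y : C × κ → C → ℝ}
    (hY : Frame Y) : UB B (uY (R := R) Y) :=
  ⟨(ub_uY hY.abs_le).meas, fun s α => ((ub_uY hY.abs_le).le s α).trans (by linarith)⟩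

/-- The small system. -/
theorem tp_small (S : Spec κ) {B r₀ ε : ℝ} (hB : 1 ≤ B) (hr : 0 < r₀) (hε : 0 < ε)
    (h1 : (Fintype.card (C × κ) : ℝ) ≤ B) (h3 : ∀ k, S.mu k ≤ B) :
    ∃ e : ℝ, 0 < e ∧ ∀ (R : ℕ) [NeZero R] (a : ℕ → ℝ), Exps R a → ∃ N₀ : ℕ,
      ∀ (ϱ : Type) [Fintype ϱ] [DecidableEq ϱ] (labr : ϱ → κ) (V : (ϱ ⊕ C × κ → Bool) → ℝ)
        (px : κ → Fin R → ℝ) (s : ℝ) (dc cc : ℕ → ℝ) (lC : C → κ),
        r₀ * Fintype.card (ϱ ⊕ C × κ) ≤ ct (lab0 (C := C) labr S.k1) S.k1 →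
        N₀ ≤ Fintype.card (ϱ ⊕ C × κ) → (∀ k l, |px k l| ≤ s) → R * s ^ 2 ≤ e →
        (∀ l < R, 0 ≤ dc l) → ∑ l ∈ range R, dc l ≤ B →
        cavErr a (HL S.lam (lab0 labr S.k1) V 0 px) (Xb (lab0 (C := C) labr S.k1) S.k1) cc ≤ e →
        (∀ i < R, |Fintype.card (ϱ ⊕ C × κ) / ct (lab0 (C := C) labr S.k1) S.k1 * cc i -
          ∑ l ∈ Ico i R, dc l| ≤ e) →
        |val a (HL S.lam (labS labr S.k1 lC) V 0 px) - val a (HL S.lam (lab0 labr S.k1) V 0 px) -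
          val a (HI (R := R) id (CF (fun _ : C => 0) fun _ _ => 0)
            (fun α : C × κ => S.mu (if lC α.1 = α.2 then S.k1 else α.2)) (fun _ _ => 0)
            (fun α β => if α = β then 1 else 0) dc)| ≤ ε := by
  obtain ⟨e, he, H⟩ := real_ideal B r₀ ε hB hr hε
  refine ⟨e, he, fun R _ a ha => ?_⟩
  obtain ⟨N₀, H⟩ := H R a ha
  refine ⟨N₀, fun ϱ _ _ labr V px s dc cc lC h hN hpx hs hdc hdc' hcav hcc => ?_⟩
  have key := small_sandwich ha S labr lC V px hpx h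
  have hK : ∀ t : ℝ, |t| ≤ e → |val a (fun x =>
      HR id (comSys S labr V px h).H (CF (fun _ : C => 0) fun _ _ => 0)
        (fun α : C × κ => S.mu (if lC α.1 = α.2 then S.k1 else α.2)) (fun _ _ => 0)
        (fun α β => if α = β then 1 else 0) (comSys S labr V px h).ζ x +
          t * (1 + ∑ α, (comSys S labr V px h).ζ (fS x) α ^ 2)) - val a (comSys S labr V px h).H -
        val a (HI (R := R) id (CF (fun _ : C => 0) fun _ _ => 0)
            (fun α : C × κ => S.mu (if lC α.1 = α.2 then S.k1 else α.2)) (fun _ _ => 0)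
            (fun α β => if α = β then 1 else 0) dc)| ≤ ε := fun t ht => by
    refine H _ κ (C × κ) _ (comSys S labr V px h) _ _ _ _ (fun _ => 0) _ dc cc hN (ml_CF _ _)
      ⟨h1, fun α => ⟨S.mu_nonneg _, h3 _⟩, fun α β => ?_⟩
      ⟨fun _ => measurable_const, fun _ _ => by simpa using zero_le_one.trans hB⟩
      ⟨(((ML.const 1).add ((ri_ml_T _).comp gro_fS)).const_mul t).meas, fun x => ?_,
        fun _ => ⟨le_rfl, zero_le_one.trans hB⟩⟩ ?_ hdc hdc' hcav hcc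
    · split_ifs
      · simpa using hB
      · simpa using zero_le_one.trans hB
    · have : 0 ≤ 1 + ∑ α, (comSys S labr V px h).ζ (fS x) α ^ 2 := by positivity
      rw [abs_mul, abs_of_nonneg this, add_zero]
      exact mul_le_mul_of_nonneg_right ht this
    · rw [EE_const ha (ri_ml_H _)]
      exact he.le
  have hs0 : 0 ≤ R * s ^ 2 := by positivity
  have k1 := abs_le.1 (hK (R * s ^ 2) (by rwa [abs_of_nonneg hs0]))
  have k2 := abs_le.1 (hK (-(R * s ^ 2)) (by rwa [abs_neg, abs_of_nonneg hs0]))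
  obtain ⟨k3, k4⟩ := key
  have e0 : val a (HL S.lam (lab0 labr S.k1) V 0 px) = val a (comSys S labr V px h).H := rfl
  rw [e0]
  exact abs_le.2 ⟨le_trans k2.1 (sub_le_sub_right (sub_le_sub_right k3 _) _),
    le_trans (sub_le_sub_right (sub_le_sub_right k4 _) _) k1.2⟩

lemma tp_meas {ι : Type} [Fintype ι] [DecidableEq ι] (lab : ι → κ) (j : C → ι) (δ : ℝ)
    (w : κ → C → C → ℝ) : MeasurableSet {O : Orth ι | ∃ k r r', δ <
      |∑ a ∈ univ.filter (lab · = k), O.1 a (j r) * O.1 a (j r') - w k r r'|} := by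
  simp only [Set.ofPred_exists]
  refine MeasurableSet.iUnion fun k => MeasurableSet.iUnion fun r => MeasurableSet.iUnion fun r' =>
    measurableSet_lt measurable_const (Continuous.measurable ?_)
  exact ((continuous_finsetSum _ fun a _ =>
    (Orth.continuous_entry _ _).mul (Orth.continuous_entry _ _)).sub continuous_const).abs

/-- The big system. -/
theorem tp_big (S : Spec κ) {B r₀ ε : ℝ} (hB : 1 ≤ B) (hr : 0 < r₀) (hε : 0 < ε)
    (h1 : (Fintype.card (C × κ) : ℝ) ≤ B) (h2 : 1 + (Fintype.card C : ℝ) ≤ B)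
    (h3 : ∀ k, S.mu k ≤ B) (h4 : ∀ k, 1 / Real.sqrt (S.ρ k) ≤ B) :
    ∃ e : ℝ, 0 < e ∧ ∀ (R : ℕ) [NeZero R] (a : ℕ → ℝ), Exps R a → ∃ N₀ : ℕ,
      ∀ (ϱ : Type) [Fintype ϱ] [DecidableEq ϱ] (labr : ϱ → κ) (V : (ϱ ⊕ C × κ → Bool) → ℝ)
        (px : κ → Fin R → ℝ) (s : ℝ) (dc cc : ℕ → ℝ) (V₁ : ((ϱ ⊕ C × κ) ⊕ C → Bool) → ℝ)
        (b : C → ℝ) (uu : C → ℕ → ℝ) (c0 : ℝ) (Dσ : (ϱ ⊕ C × κ → Bool) → ℝ),
        r₀ * Fintype.card (ϱ ⊕ C × κ) ≤ ct (lab0 (C := C) labr S.k1) S.k1 →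
        N₀ ≤ Fintype.card (ϱ ⊕ C × κ) → (∀ k l, |px k l| ≤ s) → R * s ^ 2 ≤ e →
        (∀ l < R, 0 ≤ dc l) → ∑ l ∈ range R, dc l ≤ B →
        cavErr a (HL S.lam (lab0 labr S.k1) V 0 px) (Xb (lab0 (C := C) labr S.k1) S.k1) cc ≤ e →
        (∀ i < R, |Fintype.card (ϱ ⊕ C × κ) / ct (lab0 (C := C) labr S.k1) S.k1 * cc i -
          ∑ l ∈ Ico i R, dc l| ≤ e) →
        Prp (lab0 (C := C) labr S.k1) S.ρ e →
        (∀ σ τ, |V₁ (Sum.elim σ τ) - V σ - ∑ r, b r * sp (τ r) - c0| ≤ Dσ σ) →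
        (∀ σ, 0 ≤ Dσ σ ∧ Dσ σ ≤ B) →
        EE a (HL S.lam (lab0 labr S.k1) V 0 px) (fun x => Dσ (cfg x)) ≤ e →
        |val a (bigH S labr V₁ uu px) - (val a (HL S.lam (lab0 labr S.k1) V 0 px) + c0 +
          (val a (HI (R := R) id (CF b uu) (fun α : C × κ => S.mu α.2) (uY (Ys S.ρ)) (PY (Ys S.ρ))
            dc) + Fintype.card C * S.lam S.k1 / 2))| ≤ ε := by
  have hB0 : 0 < B := by linarith
  obtain ⟨e₁, he₁, H⟩ := real_ideal B r₀ (ε / 2) hB hr (by positivity)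
  obtain ⟨K, η₀, hη₀, HC⟩ := ri_crude B r₀ hB hr
  obtain ⟨e, he, he1, he2⟩ : ∃ e : ℝ, 0 < e ∧ 13 * B ^ 7 * e ≤ e₁ ∧ B * e ≤ η₀ := by
    refine ⟨min (e₁ / (13 * B ^ 7)) (η₀ / B), by positivity, ?_, ?_⟩
    · rw [← le_div_iff₀' (by positivity)]
      exact min_le_left _ _
    · rw [← le_div_iff₀' hB0]
      exact min_le_right _ _
  have hB7 : B ≤ B ^ 7 := le_self_pow₀ hB (by norm_num)
  have hBe : B * e ≤ B ^ 7 * e := mul_le_mul_of_nonneg_right hB7 he.le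
  have hBe' : e ≤ B * e := le_mul_of_one_le_left he.le hB
  have hee : e ≤ e₁ := by linarith
  refine ⟨e, he, fun R _ a ha => ?_⟩
  obtain ⟨N₁, H⟩ := H R a ha
  have hm : 0 < a (R - 1) := ha.pos _ (Nat.sub_one_lt (NeZero.ne R))
  obtain ⟨η, hη, hη1, hη2⟩ : ∃ η : ℝ, 0 < η ∧ η ≤ 1 / 2 ∧ (a (R - 1))⁻¹ *
      (2 * η * Real.exp (a (R - 1) * (2 * K + ε / 2 + ε / 2))) ≤ ε / 2 := by
    refine ⟨min (1 / 2) (ε / 2 / ((a (R - 1))⁻¹ *
      (2 * Real.exp (a (R - 1) * (2 * K + ε / 2 + ε / 2))))), by positivity, min_le_left _ _, ?_⟩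
    have := min_le_right (1 / 2) (ε / 2 / ((a (R - 1))⁻¹ *
      (2 * Real.exp (a (R - 1) * (2 * K + ε / 2 + ε / 2)))))
    rw [le_div_iff₀ (by positivity)] at this
    linarith
  refine ⟨max N₁ (max ⌈3 * B / e⌉₊ ⌈8 * Fintype.card κ * Fintype.card C ^ 2 / (η * e ^ 2)⌉₊),
    fun ϱ _ _ labr V px s dc cc V₁ b uu c0 Dσ h hN hpx hs hdc hdc' hcav hcc hprp hV hD hED => ?_⟩
  have hN1 : N₁ ≤ Fintype.card (ϱ ⊕ C × κ) := (le_max_left _ _).trans hN
  have hN2 : 3 * B / e ≤ Fintype.card (ϱ ⊕ C × κ) :=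
    Nat.ceil_le.1 (((le_max_left _ _).trans (le_max_right _ _)).trans hN)
  have hN3 : 8 * Fintype.card κ * Fintype.card C ^ 2 / (η * e ^ 2) ≤ Fintype.card (ϱ ⊕ C × κ) :=
    Nat.ceil_le.1 (((le_max_right _ _).trans (le_max_right _ _)).trans hN)
  have hN0 : (0 : ℝ) < Fintype.card (ϱ ⊕ C × κ) := lt_of_lt_of_le (by positivity) hN2
  have hM : (0 : ℝ) ≤ Fintype.card C := Nat.cast_nonneg _
  obtain ⟨F, hF, hv, hO⟩ := big_split ha S labr V V₁ b uu px hpx h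
  have e0 : HL S.lam (lab0 labr S.k1) V 0 px = (comSys S labr V px h).H := rfl
  rw [e0] at hED hcav ⊢
  obtain ⟨rem, hrem⟩ : ∃ rem : St R (YS (ϱ ⊕ C × κ) × (C → Bool × ℝ)) → ℝ, rem = fun x =>
    V₁ (Sum.elim (cfg (fS x)) fun r => (sS x 0 r).1) - V (cfg (fS x)) -
      ∑ r, b r * cε (sS x) r - c0 := ⟨_, rfl⟩
  have mrem : ML rem := by
    rw [hrem]
    exact (((ml_bs_cfg V₁).sub ((ml_cfg V).comp gro_fS)).sub (ml_bs_cε b)).sub (ML.const c0)
  have brem : ∀ x, |rem x| ≤ Dσ (cfg (fS x)) := fun x => by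
    rw [hrem]
    exact hV _ _
  have mT : ∀ t : ℝ, ML fun x : St R (YS (ϱ ⊕ C × κ) × (C → Bool × ℝ)) =>
      t * (1 + ∑ α, (comSys S labr V px h).ζ (fS x) α ^ 2) := fun t =>
    ((ML.const 1).add ((ri_ml_T _).comp gro_fS)).const_mul t
  have mW : ∀ Y : C × κ → C → ℝ, Frame Y → ML fun x : St R (YS (ϱ ⊕ C × κ) × (C → Bool × ℝ)) =>
      Wq (fun α : C × κ => S.mu α.2) (uY Y (sS x)) (PY Y) ((comSys S labr V px h).ζ (fS x)) :=
    fun Y hY => ml_bs_wq hY _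
  have hT : ∀ x : St R (YS (ϱ ⊕ C × κ) × (C → Bool × ℝ)),
      0 ≤ 1 + ∑ α, (comSys S labr V px h).ζ (fS x) α ^ 2 := fun x => by positivity
  obtain ⟨Ψ, hΨ⟩ : ∃ Ψ : (C × κ → C → ℝ) → ℝ → ℝ, Ψ = fun Y t => val a fun x =>
      HR id (comSys S labr V px h).H (CF b uu) (fun α : C × κ => S.mu α.2) (uY Y) (PY Y)
        (comSys S labr V px h).ζ x +
        (rem x + t * (1 + ∑ α, (comSys S labr V px h).ζ (fS x) α ^ 2)) := ⟨_, rfl⟩
  have hΦ : ∀ Y : C × κ → C → ℝ, Frame Y → ∀ t : ℝ, (val a fun x =>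
      HR id (comSys S labr V px h).H (CF b uu) (fun α : C × κ => S.mu α.2) (uY Y) (PY Y)
        (comSys S labr V px h).ζ x +
        (V₁ (Sum.elim (cfg (fS x)) fun r => (sS x 0 r).1) - V (cfg (fS x)) -
          ∑ r, b r * cε (sS x) r + t * (1 + ∑ α, (comSys S labr V px h).ζ (fS x) α ^ 2))) =
      Ψ Y t + c0 := fun Y hY t => by
    rw [hΨ]
    beta_reduce
    refine Eq.trans (congrArg (val a) (funext fun x => ?_))
      (val_add_const ha ((((((ri_ml_H (comSys S labr V px h)).comp gro_fS).add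
        ((ml_CF b uu).comp gro_sS)).add (mW Y hY))).add (mrem.add (mT t))).mu c0)
    simp only [hrem, HR, id]
    ring
  have hcr : ∀ Y : C × κ → C → ℝ, Frame Y → ∀ t : ℝ, |t| ≤ B * e →
      |Ψ Y t - val a (comSys S labr V px h).H - val a (CF (R := R) b uu)| ≤ K := fun Y hY t ht => by
    rw [hΨ]
    refine HC R a ha _ κ (C × κ) _ (comSys S labr V px h) _ _ _ _ (B * e) Dσ _ (ml_CF _ _)
      (tp_wb S h1 h2 h3 hY) (tp_ub h2 hY) (by positivity) he2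
      ⟨(mrem.add (mT t)).meas, fun x => ?_, hD⟩
    refine (abs_add_le _ _).trans ?_
    rw [abs_mul, abs_of_nonneg (hT x)]
    linarith [brem x, mul_le_mul_of_nonneg_right ht (hT x)]
  have hYs : Frame (Ys (C := C) S.ρ) := frame_Ys S
  have hpr : ∀ Y : C × κ → C → ℝ, Frame Y → (∀ α r, |Y α r - Ys S.ρ α r| ≤ 3 * B ^ 2 * e) →
      ∀ t : ℝ, |t| ≤ B * e → |Ψ Y t - val a (comSys S labr V px h).H -
        val a (HI (R := R) id (CF b uu) (fun α : C × κ => S.mu α.2) (uY (Ys S.ρ)) (PY (Ys S.ρ))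
          dc)| ≤ ε / 2 := fun Y hY hYY t ht => by
    have e1 : Ψ Y t = val a fun x =>
        HR id (comSys S labr V px h).H (CF b uu) (fun α : C × κ => S.mu α.2) (uY (Ys S.ρ))
          (PY (Ys S.ρ)) (comSys S labr V px h).ζ x +
        (rem x + t * (1 + ∑ α, (comSys S labr V px h).ζ (fS x) α ^ 2) +
          (Wq (fun α : C × κ => S.mu α.2) (uY Y (sS x)) (PY Y) ((comSys S labr V px h).ζ (fS x)) -
            Wq (fun α : C × κ => S.mu α.2) (uY (Ys S.ρ) (sS x)) (PY (Ys S.ρ))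
              ((comSys S labr V px h).ζ (fS x)))) := by
      rw [hΨ]
      refine congrArg (val a) (funext fun x => ?_)
      simp only [HR, id]
      ring
    rw [e1]
    refine H _ κ (C × κ) _ (comSys S labr V px h) _ _ _ _ Dσ _ dc cc hN1 (ml_CF _ _)
      (tp_wb S h1 h2 h3 hYs) (tp_ub h2 hYs)
      ⟨((mrem.add (mT t)).add ((mW Y hY).sub (mW _ hYs))).meas, fun x => ?_, hD⟩
      (hED.trans hee) hdc hdc' (hcav.trans hee) fun i hi => (hcc i hi).trans hee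
    have hMB : (Fintype.card C : ℝ) ≤ B := by linarith
    have hw := abs_wq_sub_le hB (tp_wb S h1 h2 h3 hY) (tp_wb S h1 h2 h3 hYs)
      ((tp_ub h2 hY).le (sS x)) ((tp_ub h2 hYs).le (sS x)) (e := B * (2 * (3 * B ^ 2 * e)))
      (by positivity)
      (fun α => (tp_uY hYY _ α).trans (mul_le_mul hMB (by nlinarith [mul_pos (pow_pos hB0 2) he])
        (by positivity) hB0.le))
      (fun α β => (tp_PY hY hYs hYY α β).trans (mul_le_mul_of_nonneg_right hMB (by positivity)))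
      ((comSys S labr V px h).ζ (fS x))
    refine (abs_add_le _ _).trans ((add_le_add (abs_add_le _ _) hw).trans ?_)
    rw [abs_mul, abs_of_nonneg (hT x)]
    have a1 := mul_le_mul_of_nonneg_right (ht.trans hBe) (hT x)
    have a2 := mul_le_mul_of_nonneg_right he1 (hT x)
    linarith [brem x]
  have hs0 : 0 ≤ R * s ^ 2 * (1 + Fintype.card C) := by positivity
  have ht0 : R * s ^ 2 * (1 + Fintype.card C) ≤ B * e := by
    rw [mul_comm B]
    exact mul_le_mul hs h2 (by positivity) he.le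
  have ht1 : |R * s ^ 2 * (1 + Fintype.card C)| ≤ B * e := by rwa [abs_of_nonneg hs0]
  have ht2 : |-(R * s ^ 2 * (1 + Fintype.card C))| ≤ B * e := by rwa [abs_neg]
  have z1 := abs_le.1 (hcr _ hYs 0 (by rw [abs_zero]; positivity))
  have z2 := abs_le.1 (hpr _ hYs (fun α r => by rw [sub_self, abs_zero]; positivity) 0
    (by rw [abs_zero]; positivity))
  have hgram := haar_gram (lab1 (C := C) labr S.k1) Sum.inr Sum.inr_injective he
  have hGm := tp_meas (lab1 (C := C) labr S.k1) Sum.inr e fun k r r' => if r = r' then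
    (ct (lab1 (C := C) labr S.k1) k : ℝ) / Fintype.card ((ϱ ⊕ C × κ) ⊕ C) else 0
  have hp1 := tp_prp labr S.k1 hprp h1 h2 hN0
  rw [hv]
  refine (PM_close (B := 2 * K + ε / 2) (ε := ε / 2) (η := η) hm hF (fun O => ?_) hGm.compl ?_ hη1
    (by positivity) fun O hOG => ?_).trans (by linarith)
  · obtain ⟨Y, hY, l1, l2, -⟩ := hO O
    beta_reduce at l1 l2
    rw [hΦ Y hY] at l1 l2
    have y1 := abs_le.1 (hcr Y hY _ ht1)
    have y2 := abs_le.1 (hcr Y hY _ ht2)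
    exact abs_le.2 ⟨by linarith [y2.1, z1.2, z2.1], by linarith [y1.2, z1.1, z2.2]⟩
  · rw [compl_compl]
    refine hgram.trans ?_
    have hN' : (Fintype.card (ϱ ⊕ C × κ) : ℝ) ≤ Fintype.card ((ϱ ⊕ C × κ) ⊕ C) := by
      rw [Fintype.card_sum (α := ϱ ⊕ C × κ), Nat.cast_add]
      linarith
    have hN'' := hN3.trans hN'
    have hN0' := hN0.trans_le hN'
    rw [div_le_iff₀ (by positivity)] at hN'' ⊢
    linarith
  · obtain ⟨Y, hY, l1, l2, l3⟩ := hO O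
    beta_reduce at l1 l2
    rw [hΦ Y hY] at l1 l2
    have hN2' : 3 * B / Fintype.card (ϱ ⊕ C × κ) ≤ e := by
      rw [div_le_iff₀ he] at hN2
      rw [div_le_iff₀ hN0]
      linarith
    have l4 := l3 (3 * e) fun k r r' => by
      have o1 : ¬ _ := fun hh => hOG ⟨k, r, r', hh⟩
      rw [not_lt] at o1
      have o2 := abs_le.1 (hp1 k)
      have o3 := abs_le.1 o1
      split_ifs at o3 ⊢
      · exact abs_le.2 ⟨by linarith [o2.1, o3.1], by linarith [o2.2, o3.2]⟩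
      · exact abs_le.2 ⟨by linarith [o3.1], by linarith [o3.2]⟩
    have l5 : ∀ α r, |Y α r - Ys S.ρ α r| ≤ 3 * B ^ 2 * e := fun α r => by
      refine (l4 α r).trans ?_
      calc Fintype.card C * (3 * e) / Real.sqrt (S.ρ α.2)
          = Fintype.card C * (1 / Real.sqrt (S.ρ α.2)) * (3 * e) := by ring
        _ ≤ B * B * (3 * e) := mul_le_mul_of_nonneg_right
            (mul_le_mul (by linarith) (h4 _) (by positivity) hB0.le) (by positivity)
        _ = 3 * B ^ 2 * e := by ring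
    have y1 := abs_le.1 (hpr Y hY l5 _ ht1)
    have y2 := abs_le.1 (hpr Y hY l5 _ ht2)
    exact abs_le.2 ⟨by linarith [y2.1], by linarith [y1.2]⟩

lemma Dat.tp_dev (D : Dat κ J C) {ϱ : Type} [Fintype ϱ] [DecidableEq ϱ] (fld : ϱ ⊕ C × κ → J)
    (hN : (0 : ℝ) < Fintype.card (ϱ ⊕ C × κ)) (j : J) (σ : ϱ ⊕ C × κ → Bool) :
    |D.dev fld j σ| ≤ 2 := by
  rw [Dat.dev, abs_div, Nat.abs_cast, div_le_iff₀ hN]
  exact (pen_abs_dev (fun j => (D.m_lt j).le) fld j σ).trans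
    (mul_le_mul_of_nonneg_left (tp_ct_le fld j) zero_le_two)

lemma Dat.tp_B (D : Dat κ J C) {A : ℝ} (hA : 0 ≤ A) : ∃ B : ℝ, 1 ≤ B ∧
    (Fintype.card (C × κ) : ℝ) ≤ B ∧ 1 + (Fintype.card C : ℝ) ≤ B ∧ (∀ k, D.S.mu k ≤ B) ∧
    (∀ k, 1 / Real.sqrt (D.S.ρ k) ≤ B) ∧ 1 / D.S.ρ D.S.k1 ≤ B ∧
    16 * A * (1 + Fintype.card C) ^ 2 * (Fintype.card J * 5) ≤ B := by
  have hρ := D.S.ρ_pos D.S.k1
  have p1 : (0 : ℝ) ≤ Fintype.card (C × κ) := Nat.cast_nonneg _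
  have p2 : (0 : ℝ) ≤ Fintype.card C := Nat.cast_nonneg _
  have p3 : 0 ≤ ∑ k, D.S.mu k := sum_nonneg fun k _ => D.S.mu_nonneg k
  have p4 : 0 ≤ ∑ k, 1 / Real.sqrt (D.S.ρ k) := sum_nonneg fun k _ => by positivity
  have p5 : 0 ≤ 1 / D.S.ρ D.S.k1 := by positivity
  have p6 : 0 ≤ 16 * A * (1 + Fintype.card C) ^ 2 * (Fintype.card J * 5) := by positivity
  refine ⟨1 + Fintype.card (C × κ) + Fintype.card C + ∑ k, D.S.mu k +
    ∑ k, 1 / Real.sqrt (D.S.ρ k) + 1 / D.S.ρ D.S.k1 +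
    16 * A * (1 + Fintype.card C) ^ 2 * (Fintype.card J * 5), by linarith, by linarith,
    by linarith, fun k => ?_, fun k => ?_, by linarith, by linarith⟩
  · have := single_le_sum (f := fun k => D.S.mu k) (fun k _ => D.S.mu_nonneg k) (mem_univ k)
    linarith
  · have := single_le_sum (f := fun k => 1 / Real.sqrt (D.S.ρ k)) (fun k _ => by positivity)
      (mem_univ k)
    linarith

theorem Dat.tp_prec (D : Dat κ J C) {A ε : ℝ} (hA : 0 ≤ A) (hε : 0 < ε) : ∃ ε₁ : ℝ, 0 < ε₁ ∧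
    ∀ (R : ℕ) [NeZero R], ∃ N₀ : ℕ, ∀ s : ℝ, 0 ≤ s → R * s ^ 2 ≤ ε₁ →
    ∀ (ϱ : Type) [Fintype ϱ] [DecidableEq ϱ] (labr : ϱ → κ) (fld : ϱ ⊕ C × κ → J)
      (px : κ → Fin R → ℝ) (y : J → ℝ), N₀ ≤ Fintype.card (ϱ ⊕ C × κ) →
      Prp (lab0 (C := C) labr D.S.k1) D.S.ρ ε₁ → (∀ k l, |px k l| ≤ 3 * s) → (∀ j, |y j| ≤ 1) →
      D.Good A labr fld px y ε₁ → D.Prec A labr fld px y ε := by
  have hρ := D.S.ρ_pos D.S.k1
  obtain ⟨B, hB, h1, h2, h3, h4, h5, h6⟩ := D.tp_B hA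
  have hB0 : 0 < B := by linarith
  obtain ⟨e₁, he₁, H₁⟩ := tp_small (C := C) D.S hB (half_pos hρ) hε h1 h3
  obtain ⟨e₂, he₂, H₂⟩ := tp_big D.S hB (half_pos hρ) hε h1 h2 h3 h4
  obtain ⟨ε₁, hε₁, a1, a2, a3⟩ : ∃ ε₁ : ℝ, 0 < ε₁ ∧ ε₁ ≤ D.S.ρ D.S.k1 / 2 ∧
      9 * B ^ 2 * ε₁ ≤ e₁ ∧ 9 * B ^ 2 * ε₁ ≤ e₂ := by
    refine ⟨min (D.S.ρ D.S.k1 / 2) (min e₁ e₂ / (9 * B ^ 2)), by positivity, min_le_left _ _,
      ?_⟩
    have := min_le_right (D.S.ρ D.S.k1 / 2) (min e₁ e₂ / (9 * B ^ 2))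
    rw [le_div_iff₀' (by positivity)] at this
    exact le_min_iff.1 this
  have hB2 : B ≤ B ^ 2 := le_self_pow₀ hB two_ne_zero
  have b1 : B * ε₁ ≤ B ^ 2 * ε₁ := mul_le_mul_of_nonneg_right hB2 hε₁.le
  have b2 : ε₁ ≤ B * ε₁ := le_mul_of_one_le_left hε₁.le hB
  refine ⟨ε₁, hε₁, fun R _ => ?_⟩
  have hR : 0 < R := NeZero.pos R
  have ha := exps_ua hR
  obtain ⟨N₁, H₁⟩ := H₁ R (ua R) ha
  obtain ⟨N₂, H₂⟩ := H₂ R (ua R) ha
  refine ⟨max (max N₁ N₂) ⌈1 / ε₁⌉₊, fun s _ hs ϱ _ _ labr fld px y hN hprp hpx _ hG => ?_⟩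
  have hN1 : N₁ ≤ Fintype.card (ϱ ⊕ C × κ) := ((le_max_left _ _).trans (le_max_left _ _)).trans hN
  have hN2 : N₂ ≤ Fintype.card (ϱ ⊕ C × κ) := ((le_max_right _ _).trans (le_max_left _ _)).trans hN
  have hN3 : 1 / ε₁ ≤ Fintype.card (ϱ ⊕ C × κ) := Nat.ceil_le.1 ((le_max_right _ _).trans hN)
  have hN0 : (0 : ℝ) < Fintype.card (ϱ ⊕ C × κ) := lt_of_lt_of_le (by positivity) hN3
  have hN4 : 1 / (Fintype.card (ϱ ⊕ C × κ) : ℝ) ≤ ε₁ := (one_div_le hε₁ hN0).1 hN3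
  have hN5 : 1 / (Fintype.card (ϱ ⊕ C × κ) : ℝ) ≤ 1 := by
    rw [div_le_one hN0]
    exact_mod_cast (show 0 < Fintype.card (ϱ ⊕ C × κ) by exact_mod_cast hN0)
  have : Nonempty (ϱ ⊕ C × κ) := Fintype.card_pos_iff.1 (by exact_mod_cast hN0)
  have hk := abs_le.1 (hprp D.S.k1)
  have h : D.S.ρ D.S.k1 / 2 * Fintype.card (ϱ ⊕ C × κ) ≤
      ct (lab0 (C := C) labr D.S.k1) D.S.k1 := by
    rw [← le_div_iff₀ hN0]
    linarith [hk.1]
  have hH := D.ml_com A labr fld px y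
  have hq : IsOv R (D.q0 A labr fld px y) := isOv_qt ha hH
  have hs3 : R * (3 * s) ^ 2 ≤ 9 * ε₁ := by linarith
  have hdc : ∀ l < R, 0 ≤ D.S.dc (ua R) (D.q0 A labr fld px y) l := fun l hl =>
    D.S.dc_nonneg hR hq hl
  have hdc' : ∑ l ∈ range R, D.S.dc (ua R) (D.q0 A labr fld px y) l ≤ B :=
    (D.S.sum_dc_le hR hq).trans h5
  have hcc : ∀ i < R, |Fintype.card (ϱ ⊕ C × κ) / ct (lab0 (C := C) labr D.S.k1) D.S.k1 *
      D.S.ck (ua R) (D.q0 A labr fld px y) R D.S.k1 i -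
        ∑ l ∈ Ico i R, D.S.dc (ua R) (D.q0 A labr fld px y) l| ≤ 2 * B ^ 2 * ε₁ := fun i _ => by
    rw [D.S.ck_k1]
    have c1 : 0 ≤ ∑ l ∈ Ico i R, D.S.dc (ua R) (D.q0 A labr fld px y) l :=
      sum_nonneg fun l hl => hdc l (mem_Ico.1 hl).2
    have c2 : ∑ l ∈ Ico i R, D.S.dc (ua R) (D.q0 A labr fld px y) l ≤ B :=
      (sum_le_sum_of_subset_of_nonneg (fun l hl => mem_range.2 (mem_Ico.1 hl).2)
        fun l hl _ => hdc l (mem_range.1 hl)).trans hdc'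
    have hk' := hprp D.S.k1
    generalize ∑ l ∈ Ico i R, D.S.dc (ua R) (D.q0 A labr fld px y) l = T at *
    generalize (ct (lab0 (C := C) labr D.S.k1) D.S.k1 : ℝ) = n at *
    generalize (Fintype.card (ϱ ⊕ C × κ) : ℝ) = N at *
    have hn : 0 < n := lt_of_lt_of_le (by positivity) h
    have c3 : N / n * (D.S.ρ D.S.k1 * T) - T = -(N / n * (n / N - D.S.ρ D.S.k1) * T) := by
      field_simp
      ring
    have c4 : N / n ≤ 2 * B := by
      rw [div_le_iff₀ hρ] at h5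
      rw [div_le_iff₀ hn]
      nlinarith [mul_le_mul_of_nonneg_left h hB0.le, mul_le_mul_of_nonneg_left h5 hN0.le]
    rw [c3, abs_neg, abs_mul, abs_mul, abs_of_nonneg c1, abs_of_pos (div_pos hN0 hn)]
    calc N / n * |n / N - D.S.ρ D.S.k1| * T ≤ 2 * B * ε₁ * B :=
          mul_le_mul (mul_le_mul c4 hk' (abs_nonneg _) (by positivity)) c2 c1 (by positivity)
      _ = 2 * B ^ 2 * ε₁ := by ring
  refine ⟨?_, fun uu β huu _ _ => ?_⟩
  · have key := H₁ ϱ labr (Vm fld D.c D.m A y) px (3 * s) _ _ D.lC h hN1 hpx (by linarith) hdc hdc'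
      (hG.cav.trans (by linarith)) fun i hi => (hcc i hi).trans (by linarith)
    rw [ideal_B D.S hq D.lC D.lC_ct] at key
    refine le_trans (le_of_eq (congrArg abs ?_)) key
    simp only [Dat.small, Dat.com, Dat.tB]
    ring
  · have hdl : ∀ j, |D.dl A labr fld px y j| ≤ 2 := fun j =>
      abs_E_le_const ha hH le_rfl (measurable_cfg_comp (D.dev fld j))
        (fun s => D.tp_dev fld hN0 j _) _
    have hA' : 0 ≤ 16 * A * (1 + Fintype.card C) ^ 2 := by positivity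
    have key := H₂ ϱ labr (Vm fld D.c D.m A y) px (3 * s) _ _
      (fun σ => Vm (Sum.elim fld D.fC) D.c D.m A y σ + ∑ r, β r * spn σ (Sum.inr r))
      (fun r => D.bj A labr fld px y (D.fC r) + β r) uu (D.c0 A labr fld px y)
      (fun σ => 16 * A * (1 + Fintype.card C) ^ 2 *
        ∑ j, (|D.dev fld j σ - D.dl A labr fld px y j| + 1 / Fintype.card (ϱ ⊕ C × κ)))
      h hN2 hpx (by linarith) hdc hdc' (hG.cav.trans (by linarith))
      (fun i hi => (hcc i hi).trans (by linarith)) (hprp.mono (by linarith))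
      (fun σ τ => by
        refine le_trans (le_of_eq (congrArg abs ?_))
          (mag_bound (fld := fld) (c := D.c) (y := y) D.fC hA (fun j => (D.m_lt j).le) hdl σ τ)
        simp only [Dat.bj, Dat.c0, spn, Sum.elim_inr, add_mul, sum_add_distrib]
        ring)
      (fun σ => ⟨by positivity, le_trans (mul_le_mul_of_nonneg_left ?_ hA') h6⟩) ?_
    · have e1 := ideal_A D.S hq (fun r => D.bj A labr fld px y (D.fC r) + β r) uu huu
      rw [e1] at key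
      refine le_trans (le_of_eq (congrArg abs ?_)) key
      simp only [Dat.big, Dat.com, Dat.tB, Dat.tA, Dat.vv]
      ring
    · refine (sum_le_card_nsmul univ _ 5 fun j _ => ?_).trans (le_of_eq (by simp))
      linarith [abs_sub (D.dev fld j σ) (D.dl A labr fld px y j), D.tp_dev fld hN0 j σ, hdl j]
    · have m1 : ∀ j, ME fun x : St R (YS (ϱ ⊕ C × κ)) =>
          |D.dev fld j (cfg x) - D.dl A labr fld px y j| := fun j =>
        (ml_cfg fun σ => |D.dev fld j σ - D.dl A labr fld px y j|).me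
      change EE (ua R) (D.com A labr fld px y) _ ≤ _
      rw [EE_const_mul, EE_sum univ ha hH fun j _ => (m1 j).add (ME.const _)]
      have c1 := sum_le_card_nsmul univ (fun j => EE (ua R) (D.com A labr fld px y) fun x =>
        |D.dev fld j (cfg x) - D.dl A labr fld px y j| + 1 / Fintype.card (ϱ ⊕ C × κ)) (2 * ε₁)
        fun j _ => by
          rw [EE_add ha hH (m1 j) (ME.const _), EE_const ha hH]
          linarith [hG.mag j]
      rw [nsmul_eq_mul, card_univ] at c1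
      have c2 := mul_le_mul_of_nonneg_left c1 hA'
      have c3 := mul_le_mul_of_nonneg_right h6 hε₁.le
      linarith

end Crest.Agent.R164
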