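import Crest.Agent.R164.Dat
import Crest.Agent.R164.TransferC
import Crest.Agent.R164.TransferP

/-!
# R164 / Transfer: values of the small and big systems relative to the common system

`D.com … = (comSys D.S labr (Vm …) px h).H` by `rfl`.  Let `M = card C`, `B ≥ 1` a bound for `M |κ|`,
`1 + M`, all `μ_k`, `1/ρ_{k1}` (`sum_dc_le`) and the constant `D` below.
`crude`: `small_sandwich`, `big_split` (`b r = c + y`, `uu = 0`; `big_zero`), `ri_crude`; in the big case the
remaining term is `± t (1 + Σ ζ²)` plus a function bounded by a constant (`mag_bound` with `δ = 0`,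
`|dev| ≤ 2`), `|val (CF b 0)| ≤ Σ |b r|` (`val_pi`, `val_osH`, `Ch_lower`, `Ch_upper`), and a power mean of a
function with values in an interval lies in the interval.
`prec`: `real_ideal` with `dc = S.dc (ua R) q0`, `cc = S.ck (ua R) q0 R k1` (`ck_k1`, `dc_nonneg`,
`isOv_qt`), `ideal_A`, `ideal_B`.  For the big system use `b r = bj (fC r) + β r`, subtract the
constant `c0` (`val_add_const`), and for `Y` close to `Ys` write
`HR id … (uY Y) (PY Y) = HR id … (uY Ys) (PY Ys) + (Wq Y - Wq Ys)`; the difference is absorbed in `δ`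
(`abs_wq_sub_le`), `mag_bound` gives the part `D σ = 16 A (1+M)² Σ_j (|dev j σ - dl j| + 1/N)`.
The `O` with Gram matrix close to `ρ` have probability close to `1` (`haar_gram`, proportions of
`lab1`); for all `O` use `ri_crude`, and the target value is bounded by a constant depending on `R`
only through bounded quantities (or simply on `R`: `N₀` may depend on `R`; e.g. the target is an
ideal value `val (HI id …)`, bounded above by `val (CF b uu)` and below by `val_jensen`, `abs_wq_le`,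
`EE_tau_two`).  Conclude with `PM_close` (`a (R-1) = 1/R`).
-/

set_option autoImplicit false

open MeasureTheory ProbabilityTheory Finset Matrix

namespace Crest.Agent.R164

variable {κ J C : Type} [Fintype κ] [DecidableEq κ] [Fintype J] [DecidableEq J] [Fintype C]
  [DecidableEq C]

theorem Dat.crude (D : Dat κ J C) {A : ℝ} (hA : 0 ≤ A) : ∃ K η₀ : ℝ, 0 ≤ K ∧ 0 < η₀ ∧
    ∀ (R : ℕ) [NeZero R] (s : ℝ), 0 ≤ s → R * s ^ 2 ≤ η₀ →
    ∀ (ϱ : Type) [Fintype ϱ] [DecidableEq ϱ] (labr : ϱ → κ) (fld : ϱ ⊕ C × κ → J),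
      Prp (lab0 (C := C) labr D.S.k1) D.S.ρ (D.S.ρ D.S.k1 / 2) → D.Crude A labr fld R s K :=
  D.crude_aux hA

theorem Dat.prec (D : Dat κ J C) {A ε : ℝ} (hA : 0 ≤ A) (hε : 0 < ε) : ∃ ε₁ : ℝ, 0 < ε₁ ∧
    ∀ (R : ℕ) [NeZero R], ∃ N₀ : ℕ, ∀ s : ℝ, 0 ≤ s → R * s ^ 2 ≤ ε₁ →
    ∀ (ϱ : Type) [Fintype ϱ] [DecidableEq ϱ] (labr : ϱ → κ) (fld : ϱ ⊕ C × κ → J)
      (px : κ → Fin R → ℝ) (y : J → ℝ), N₀ ≤ Fintype.card (ϱ ⊕ C × κ) →
      Prp (lab0 (C := C) labr D.S.k1) D.S.ρ ε₁ → (∀ k l, |px k l| ≤ 3 * s) → (∀ j, |y j| ≤ 1) →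
      D.Good A labr fld px y ε₁ → D.Prec A labr fld px y ε :=
  D.tp_prec hA hε

end Crest.Agent.R164
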