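import Crest.Agent.R164.Fix
import Crest.Agent.R164.Transfer

/-!
# R164 / CavStep: one cavity step

`cav_core`, order of constants: `Λ = Σ |lam k|`, `Hb = 4Λ²/ρ₁²` (`sum_dv_le`), `ε'` with `Hb ε' ≤ ε/8`,
`η = min (1 - |m j|)`, `γ₀ = min γ / 2`; `os_close η Hb (cb + 1) γ₀ (ε'/2)` gives `A`, `ε''`
(use it with `c := c j + y j`, `γ := ct fld j / N`; `|Tq q l - Tq q' l| ≤ sup |q - q'|`).  Choose `u`, `b`, then
`ε_A` so that the errors in `fix_q`, `fix_m` are `≤ ε'/2`, `≤ ε''` and `ε_A ≤ ε/8`; `prec` gives `ε₁`;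
`structure_thm (min ρ) Λ ε₁` gives `R₀`; take `R ≥ R₀` with `1/R ≤ m₀`, `Hb/R ≤ ε/8`; then `s₀, e₀`; `crude`
gives `K, η₀`; take `s ≤ s₀, 1` small; `stat` with tolerance `≤ e₀ s, ε₁, …`; `exists_near_av` with
tolerance `min 1 (ε/8)`.  Conclude by `cav_value`, `cav_final` (`1 ≤ M`).
`cav_step`: put `ϱ = Fin (N - M |κ|)`, choose `labr`, `fld` by `exists_lab` so that `labS`, `fld` have the counts
of the given small system (`ct labS k = ct labr k + (M - ct lC k) + [k = k1] M`,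
`ct lab1 k = ct labS k + ct lC k`, `|ct lab0 k - ct labS k| ≤ M |κ|`), and use `av_rel` twice.
-/

set_option autoImplicit false

open MeasureTheory ProbabilityTheory Finset Matrix

namespace Crest.Agent.R164

variable {κ J C : Type} [Fintype κ] [DecidableEq κ] [Fintype J] [DecidableEq J] [Fintype C]
  [DecidableEq C]

open Filter Topology

lemma cs_pos : ∀ᶠ x in 𝓝[>] (0 : ℝ), 0 < x := self_mem_nhdsWithin

lemma cs_ev (c : ℝ) {t : ℝ} (ht : 0 < t) : ∀ᶠ x in 𝓝[>] (0 : ℝ), c * x ≤ t := by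
  have h : Tendsto (fun x : ℝ => c * x) (𝓝 0) (𝓝 (c * 0)) := tendsto_id.const_mul c
  rw [mul_zero] at h
  exact (h.eventually_le_const ht).filter_mono nhdsWithin_le_nhds

lemma cs_min {α : Type} [Fintype α] (f : α → ℝ) (h : ∀ a, 0 < f a) : ∃ η, 0 < η ∧ ∀ a, η ≤ f a := by
  simpa using (cs_pos.and (eventually_all.2 fun a => cs_ev 1 (h a))).exists

lemma cs_Tq {R : ℕ} (hR : 0 < R) {q q' : ℕ → ℝ} {e : ℝ} (h : ∀ i ≤ R, |q i - q' i| ≤ e) {l : ℕ}
    (hl : l ≤ R) : |Tq (ua R) q l - Tq (ua R) q' l| ≤ e := by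
  have hR' : (0 : ℝ) < R := by exact_mod_cast hR
  have he : 0 ≤ e := (abs_nonneg _).trans (h 0 (Nat.zero_le R))
  simp only [Tq, ua_sub]
  rw [← Finset.sum_sub_distrib]
  refine (Finset.abs_sum_le_sum_abs _ _).trans ((Finset.sum_le_card_nsmul _ _ (1 / R * e)
    fun i hi => ?_).trans ?_)
  · rw [← mul_sub, abs_mul, abs_of_pos (by positivity)]
    exact mul_le_mul_of_nonneg_left (h _ (by have := Finset.mem_range.1 hi; omega)) (by positivity)
  · rw [Finset.card_range, nsmul_eq_mul, ← mul_assoc, mul_one_div]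
    exact mul_le_of_le_one_left he ((div_le_one hR').2 (by exact_mod_cast hl))

lemma cs_avg {α : Type} [Fintype α] {γ f g : α → ℝ} {e : ℝ} (h0 : ∀ a, 0 < γ a) (h1 : ∑ a, γ a = 1)
    (h : ∀ a, |f a - g a| ≤ e) : |∑ a, γ a * f a - ∑ a, γ a * g a| ≤ e := by
  rw [← Finset.sum_sub_distrib]
  refine (Finset.abs_sum_le_sum_abs _ _).trans ((Finset.sum_le_sum fun a _ => ?_).trans
    (show ∑ a, γ a * e ≤ e by rw [← Finset.sum_mul, h1, one_mul]))
  rw [← mul_sub, abs_mul, abs_of_pos (h0 a)]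
  exact mul_le_mul_of_nonneg_left (h a) (h0 a).le

lemma cs_ct {ι ι' α : Type} [Fintype ι] [Fintype ι'] [DecidableEq α] (f : ι → α) (g : ι' → α)
    (k : α) : ct (Sum.elim f g) k = ct f k + ct g k := by
  simp only [ct, Finset.card_filter, Fintype.sum_sum_type]
  rfl

lemma cs_prp {ι ι' α : Type} [Fintype ι] [Nonempty ι] [Fintype ι'] [DecidableEq α] {f : ι → α}
    {g : ι' → α} {γ : α → ℝ} {e : ℝ} (h : Prp f γ e)
    (hg : ∀ k, (ct g k : ℝ) = γ k * Fintype.card ι') : Prp (Sum.elim f g) γ e := fun k => by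
  have hN : (0 : ℝ) < Fintype.card ι := by exact_mod_cast Fintype.card_pos
  have hM : (0 : ℝ) ≤ Fintype.card ι' := Nat.cast_nonneg _
  have h1 := h k
  have he : 0 ≤ e := (abs_nonneg _).trans h1
  rw [div_sub' hN.ne', abs_div, abs_of_pos hN, div_le_iff₀ hN] at h1
  rw [cs_ct, Fintype.card_sum, Nat.cast_add, Nat.cast_add, hg, div_sub' (by positivity), abs_div,
    abs_of_pos (by positivity : (0 : ℝ) < Fintype.card ι + Fintype.card ι'),
    div_le_iff₀ (by positivity), show (ct f k : ℝ) + γ k * Fintype.card ι' -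
      (Fintype.card ι + Fintype.card ι') * γ k = ct f k - Fintype.card ι * γ k by ring]
  linarith [mul_nonneg he hM]

lemma cs_fin {M ε F X a t εA : ℝ} (hM : 1 ≤ M) (hε : 0 < ε) (h : F ≤ X + ε / 4) (ht : t ≤ ε / 8)
    (hA : εA ≤ ε / 8) : a + M * (F - ε) ≤ a + M * (X - t) - 2 * εA - ε / 8 := by
  have h1 := mul_le_mul_of_nonneg_left (show F - ε + ε / 2 ≤ X - t by linarith) (zero_le_one.trans hM)
  have h2 := mul_le_mul_of_nonneg_right hM hε.le
  linarith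

theorem Dat.cav_core (D : Dat κ J C) {F ε m₀ : ℝ} (hF : LBh D.S.G D.c D.γ D.m F) (hε : 0 < ε)
    (hm₀ : 0 < m₀) : ∃ (R : ℕ) (_ : NeZero R) (s A e : ℝ) (N₀ : ℕ), 1 / (R : ℝ) ≤ m₀ ∧ 0 < s ∧
    7 * R * s ^ 2 + s ≤ ε ∧ 0 ≤ A ∧ 0 < e ∧
    ∀ (ϱ : Type) [Fintype ϱ] [DecidableEq ϱ] (labr : ϱ → κ) (fld : ϱ ⊕ C × κ → J),
      N₀ ≤ Fintype.card (ϱ ⊕ C × κ) → Prp (lab0 (C := C) labr D.S.k1) D.S.ρ e → Prp fld D.γ e →
      av R s D.S.lam D.c D.m A (labS labr D.S.k1 D.lC) fld + Fintype.card C * (F - ε) ≤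
        av R s D.S.lam D.c D.m A (lab1 labr D.S.k1) (Sum.elim fld D.fC) := by
  have hM : (1 : ℝ) ≤ Fintype.card C := by exact_mod_cast D.pos
  have hρ1 := D.S.ρ_pos D.S.k1
  obtain ⟨Λ, hΛ⟩ : ∃ Λ, ∀ k, |D.S.lam k| ≤ Λ := ⟨∑ k, |D.S.lam k|, fun k =>
    Finset.single_le_sum (f := fun k => |D.S.lam k|) (fun _ _ => abs_nonneg _) (Finset.mem_univ _)⟩
  obtain ⟨cb, hcb⟩ : ∃ cb, ∀ j, |D.c j| ≤ cb := ⟨∑ j, |D.c j|, fun j =>
    Finset.single_le_sum (f := fun j => |D.c j|) (fun _ _ => abs_nonneg _) (Finset.mem_univ _)⟩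
  obtain ⟨Hb, hHb⟩ : ∃ Hb, Hb = 4 * Λ ^ 2 / D.S.ρ D.S.k1 ^ 2 := ⟨_, rfl⟩
  have hHb0 : 0 ≤ Hb := by rw [hHb]; positivity
  have hε8 : 0 < ε / 8 := by positivity
  obtain ⟨ε', hε', h1⟩ := (cs_pos.and (cs_ev Hb hε8)).exists
  have hε'8 : 0 < ε' / 8 := by positivity
  obtain ⟨η, hη, hηm⟩ := cs_min (fun j => 1 - |D.m j|) fun j => sub_pos.2 (D.m_lt j)
  obtain ⟨γ₀, hγ₀, hγ⟩ := cs_min (fun j => D.γ j / 2) fun j => half_pos (D.γ_pos j)
  obtain ⟨r₀, hr₀, hr⟩ := cs_min D.S.ρ D.S.ρ_pos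
  obtain ⟨A, ε'', hA, hε'', hos⟩ := os_close η Hb (cb + 1) γ₀ (ε' / 2) hη hHb0 hγ₀ (half_pos hε')
  have hε''4 : 0 < ε'' / 4 := by positivity
  have hγε : 0 < γ₀ * (ε'' / 4) := by positivity
  obtain ⟨w, hw, hw1, hw2⟩ := (cs_pos.and ((cs_ev 1 one_pos).and
    (cs_ev (160 * Fintype.card C) hε'8))).exists
  obtain ⟨b, hb, hb1, hb2⟩ := (cs_pos.and ((cs_ev (Fintype.card C) one_half_pos).and
    (cs_ev (8 * (Fintype.card C : ℝ) ^ 2) hε''4))).exists
  obtain ⟨εA, hεA, hA1, hA2, hA3⟩ := (cs_pos.and ((cs_ev (4 / w ^ 2) hε'8).and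
    ((cs_ev (2 / b) hε''4).and (cs_ev 1 hε8)))).exists
  obtain ⟨ε₁, hε₁, hprec⟩ := D.prec hA.le hεA
  obtain ⟨R₀, hst⟩ := structure_thm r₀ Λ ε₁ hr₀ hε₁
  obtain ⟨R, hR0, hR, hR1, hR2⟩ := ((eventually_ge_atTop R₀).and ((eventually_gt_atTop 0).and
    ((tendsto_natCast_atTop_atTop.eventually_ge_atTop (1 / m₀)).and
      (tendsto_natCast_atTop_atTop.eventually_ge_atTop (Hb / (ε / 8)))))).exists
  have hR' : (0 : ℝ) < R := by exact_mod_cast hR
  haveI : NeZero R := ⟨hR.ne'⟩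
  obtain ⟨s₀, e₀, hs₀, he₀, hst⟩ := hst R hR0
  obtain ⟨K, η₀, hK, hη₀, hcr⟩ := D.crude hA.le
  obtain ⟨N₁, hprec⟩ := hprec R
  obtain ⟨s, hs, hs1, hs2, hs3, hs4, hs5, hs6⟩ := (cs_pos.and ((cs_ev 1 one_pos).and
    ((cs_ev 1 hs₀).and ((cs_ev R hε₁).and ((cs_ev R hη₀).and ((cs_ev (7 * R + 1) hε).and
      (cs_ev (1 + 10 * Fintype.card κ * R + 2 * Fintype.card J) hε8))))))).exists
  rw [one_mul] at hw1 hA3 hs1 hs2
  have hss : R * s ^ 2 ≤ R * s := mul_le_mul_of_nonneg_left (by nlinarith only [hs, hs1]) hR'.le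
  obtain ⟨τ, hτ, hτ1, hτ2, hτ3, hτ4⟩ := (cs_pos.and ((cs_ev 1 (mul_pos he₀ hs)).and
    ((cs_ev 1 hε₁).and ((cs_ev 1 hε'8).and (cs_ev 1 hγε))))).exists
  obtain ⟨N₂, hstat⟩ := D.stat hA.le R (K := K) hs hs1 hτ
  obtain ⟨e, he, he1, he2, he3, he4, he5⟩ := (cs_pos.and ((cs_ev 1 (half_pos hρ1)).and
    ((cs_ev 1 hε₁).and ((cs_ev 1 he₀).and ((cs_ev 1 hγ₀).and
      (cs_ev (Fintype.card J) hε'8)))))).exists
  rw [one_mul] at hτ1 hτ2 hτ3 hτ4 he1 he2 he3 he4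
  obtain ⟨N₀, hN₀⟩ := eventually_atTop.1 ((eventually_ge_atTop N₁).and ((eventually_ge_atTop N₂).and
    ((eventually_gt_atTop 0).and (tendsto_natCast_atTop_atTop.eventually_ge_atTop
      (Fintype.card C / (γ₀ * (ε'' / 4)))))))
  refine ⟨R, inferInstance, s, A, e, N₀, ?_, hs, by linarith only [hss, hs5], hA.le, he,
    fun ϱ _ _ labr fld hN hp hp' => ?_⟩
  · rw [div_le_iff₀ hm₀] at hR1
    rw [div_le_iff₀ hR']
    linarith only [hR1]
  obtain ⟨hN1, hN2, hN3, hN4⟩ := hN₀ _ hN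
  have hN' : (0 : ℝ) < Fintype.card (ϱ ⊕ C × κ) := by exact_mod_cast hN3
  haveI : Nonempty (ϱ ⊕ C × κ) := Fintype.card_pos_iff.1 hN3
  obtain ⟨px, y, hbox, hy, hnear⟩ := exists_near_av (R := R) (lam := D.S.lam)
    (lab := labS labr D.S.k1 D.lC) (fld := fld) (c := D.c) (m := D.m) (A := A) hs
    (lt_min one_pos hε8)
  have hn : D.Near A labr fld px y s (ε / 8) :=
    ⟨hbox, hy, le_trans (by linarith only [min_le_right 1 (ε / 8)]) hnear⟩
  have hn1 : D.Near A labr fld px y s 1 :=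
    ⟨hbox, hy, le_trans (by linarith only [min_le_left 1 (ε / 8)]) hnear⟩
  obtain ⟨t1, t2, t3, t4, t5⟩ := hstat ϱ labr fld px y hN2
    (hcr R s hs.le (hss.trans hs4) ϱ labr fld (hp.mono he1)) hn1
  have hy1 : ∀ j, |y j| ≤ 1 := fun j => (hy j).trans hs1
  have hcav := (hst κ D.S hr hΛ (ϱ ⊕ C × κ) (lab0 labr D.S.k1) (Vm fld D.c D.m A y) 0 px s hs hs2
    (fun k l => by have := abs_le.1 (t1 k l); constructor <;> linarith only [this.1, this.2, hs])
    (hp.mono he3) (D.com A labr fld px y) rfl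
    fun k l => (t2 k l).trans (mul_le_mul_of_nonneg_right hτ1 hN'.le)).2
  have hP := hprec s hs.le (hss.trans hs3) ϱ labr fld px y hN1 (hp.mono he2)
    (fun k l => by
      have := abs_le.1 (t1 k l)
      exact abs_le.2 ⟨by linarith only [this.1, hs], by linarith only [this.2, hs]⟩)
    hy1 ⟨hcav, fun j => (t3 j).trans hτ2⟩
  have hq : IsOv R (D.q0 A labr fld px y) := isOv_qt (exps_ua hR) (D.ml_com A labr fld px y)
  have hγN : ∀ j, γ₀ ≤ (ct fld j : ℝ) / Fintype.card (ϱ ⊕ C × κ) := fun j => by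
    linarith only [(abs_le.1 (hp' j)).1, hγ j, he4]
  have hbs : ∀ j, ∃ bs, osc (ua R) (D.vv A labr fld px y) R (D.m j) =
      osv (ua R) (D.vv A labr fld px y) R bs - bs * D.m j ∧
      ∀ i ≤ R, |osQ R (ua R) (D.bj A labr fld px y j) (D.vv A labr fld px y) i -
        osQ R (ua R) bs (D.vv A labr fld px y) i| ≤ ε' / 2 := fun j => by
    refine hos R (ua R) (D.vv A labr fld px y) (exps_ua hR) (fun i hi => D.S.dv_nonneg hR hq hi)
      ((D.S.sum_dv_le hΛ hR hq).trans hHb.ge) A (D.m j) (D.c j + y j) _ (D.dl A labr fld px y j)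
      le_rfl (by linarith only [hηm j]) ((abs_add_le _ _).trans (add_le_add (hcb j) (hy1 j)))
      (hγN j) ((D.fix_m hP hb hb1 j hγ₀ ((le_div_iff₀ hN').1 (hγN j)) (t5 j)).trans ?_)
    have h2 : (Fintype.card C : ℝ) / Fintype.card (ϱ ⊕ C × κ) ≤ γ₀ * (ε'' / 4) := by
      rw [div_le_iff₀ hγε] at hN4
      rw [div_le_iff₀ hN']
      linarith only [hN4]
    have h3 : (τ + Fintype.card C / Fintype.card (ϱ ⊕ C × κ)) / γ₀ ≤ ε'' / 2 := by
      rw [div_le_iff₀ hγ₀]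
      linarith only [h2, hτ4]
    have h4 : 2 * εA / b = 2 / b * εA := by ring
    linarith only [h3, h4, hA2, hb2]
  choose bs hbs1 hbs2 using hbs
  have hv : D.vv A labr fld px y = D.S.dv (ua R) (D.q0 A labr fld px y) := rfl
  have hfin := D.cav_final hF hΛ hq hbs1 hε'.le fun l hl => by
    have h2 := D.fix_q hP (pow_pos hw 2) (by nlinarith only [hw, hw1])
      (cs_prp hp' D.fC_ct) hl (t4 l hl)
    rw [Real.sqrt_sq hw.le] at h2
    have h3 := cs_avg D.γ_pos D.γ_sum fun j => cs_Tq hR (hbs2 j) hl.le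
    have h4 : 4 * εA / w ^ 2 = 4 / w ^ 2 * εA := by ring
    have h5 := abs_le.1 h2
    have h6 := abs_le.1 h3
    rw [← hv]
    exact abs_le.2 ⟨by linarith only [h5.1, h6.2, h4, hA1, hw2, he5, hτ3],
      by linarith only [h5.2, h6.1, h4, hA1, hw2, he5, hτ3]⟩
  have hval := D.cav_value hA.le hs hP hn
  rw [← hHb, ← hv] at hfin
  have h2 : Hb * (1 / R) ≤ ε / 8 := by
    rw [div_le_iff₀ hε8] at hR2
    rw [mul_one_div, div_le_iff₀ hR']
    linarith only [hR2]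
  have h3 : s + 10 * Fintype.card κ * (R * s ^ 2) + 2 * Fintype.card J * s ≤ ε / 8 := by
    have := mul_le_mul_of_nonneg_left hss (show 0 ≤ 10 * (Fintype.card κ : ℝ) by positivity)
    linarith only [this, hs6]
  exact le_trans (cs_fin hM hε (by linarith only [hfin, h1, h2]) h3 hA3) hval

omit [DecidableEq C] in
lemma cs_swap (lC : C → κ) (k1 k : κ) :
    ct (fun p : C × κ => if lC p.1 = p.2 then k1 else p.2) k + ct lC k =
      ct (Prod.snd : C × κ → κ) k + ct (fun _ : C => k1) k := by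
  simp only [ct, Finset.card_filter, Fintype.sum_prod_type, ← Finset.sum_add_distrib]
  refine Finset.sum_congr rfl fun r _ => ?_
  have e : ∀ n : ℕ, n = ∑ k', if lC r = k' then n else 0 := fun n => by simp
  rw [e (if lC r = k then 1 else 0), e (if k1 = k then 1 else 0), ← Finset.sum_add_distrib,
    ← Finset.sum_add_distrib]
  refine Finset.sum_congr rfl fun k' _ => ?_
  by_cases h : lC r = k'
  · simp only [h, if_true, add_comm]
  · simp only [h, if_false]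

theorem Dat.cav_step (D : Dat κ J C) {F ε m₀ : ℝ} (hF : LBh D.S.G D.c D.γ D.m F) (hε : 0 < ε)
    (hm₀ : 0 < m₀) : ∃ (R : ℕ) (_ : NeZero R) (s A e : ℝ) (N₀ : ℕ), 1 / (R : ℝ) ≤ m₀ ∧ 0 < s ∧
    7 * R * s ^ 2 + s ≤ ε ∧ 0 ≤ A ∧ 0 < e ∧
    ∀ (ι ι' : Type) [Fintype ι] [DecidableEq ι] [Fintype ι'] [DecidableEq ι'] (lab : ι → κ)
      (fld : ι → J) (lab' : ι' → κ) (fld' : ι' → J), N₀ ≤ Fintype.card ι → Prp lab D.S.ρ e →
      Prp fld D.γ e → (∀ k, ct lab' k = ct lab k + ct D.lC k) →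
      (∀ j, ct fld' j = ct fld j + ct D.fC j) →
      av R s D.S.lam D.c D.m A lab fld + Fintype.card C * (F - ε) ≤
        av R s D.S.lam D.c D.m A lab' fld' := by
  obtain ⟨R, hR, s, A, e, N₀, h1, h2, h3, h4, he, hc⟩ := D.cav_core hF hε hm₀
  obtain ⟨e', he', h5, h6⟩ := (cs_pos.and ((cs_ev 1 (half_pos he)).and
    (eventually_all.2 fun k => cs_ev 1 (half_pos (D.S.ρ_pos k))))).exists
  obtain ⟨N₁, hN₁⟩ := eventually_atTop.1 ((eventually_ge_atTop N₀).and ((eventually_gt_atTop 0).and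
    (tendsto_natCast_atTop_atTop.eventually_ge_atTop ((Fintype.card (C × κ) : ℝ) / e'))))
  simp only [one_mul] at h5 h6
  refine ⟨R, hR, s, A, e', N₁, h1, h2, h3, h4, he', ?_⟩
  intro ι ι' _ _ _ _ lab fld lab' fld' hN hp hp' hl hf
  obtain ⟨hN0, hN1, hN2⟩ := hN₁ _ hN
  have hN' : (0 : ℝ) < Fintype.card ι := by exact_mod_cast hN1
  rw [div_le_iff₀ he'] at hN2
  let g : C × κ → κ := fun p => if D.lC p.1 = p.2 then D.S.k1 else p.2
  have hg : ∀ k, ct g k ≤ ct lab k := fun k => by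
    have h7 : e' ≤ (ct lab k : ℝ) / Fintype.card ι := by linarith [(abs_le.1 (hp k)).1, h6 k]
    rw [le_div_iff₀ hN'] at h7
    have h8 : (Fintype.card (C × κ) : ℝ) ≤ ct lab k := by linarith
    exact (ct_le g k).trans (by exact_mod_cast h8)
  have hsum : ∑ k, (ct lab k - ct g k) + Fintype.card (C × κ) = Fintype.card ι := by
    rw [← sum_ct g, ← sum_ct lab, ← Finset.sum_add_distrib]
    exact Finset.sum_congr rfl fun k _ => Nat.sub_add_cancel (hg k)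
  obtain ⟨labr, hlabr⟩ := exists_lab (ι := Fin (∑ k, (ct lab k - ct g k)))
    (fun k => ct lab k - ct g k) (Fintype.card_fin _).symm
  have hcard : Fintype.card (Fin (∑ k, (ct lab k - ct g k)) ⊕ C × κ) = Fintype.card ι := by
    rw [Fintype.card_sum, Fintype.card_fin, hsum]
  obtain ⟨fld₀, hfld⟩ := exists_lab (ι := Fin (∑ k, (ct lab k - ct g k)) ⊕ C × κ) (ct fld)
    (by rw [sum_ct, hcard])
  have hS : ∀ k, ct labr k + ct g k = ct lab k := fun k => by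
    rw [hlabr, Nat.sub_add_cancel (hg k)]
  have h7 := hc _ labr fld₀ (by rwa [hcard]) (fun k => ?_) fun j => by
    rw [hfld, hcard]
    exact (hp' j).trans (by linarith)
  · rw [av_rel (lab := lab) (fld := fld) (lab' := labS labr D.S.k1 D.lC) (fld' := fld₀)
      (fun k => by rw [labS, cs_ct, hS]) (fun j => (hfld j).symm),
      av_rel (lab := lab') (fld := fld') (lab' := lab1 labr D.S.k1) (fld' := Sum.elim fld₀ D.fC)
      (fun k => ?_) fun j => by rw [cs_ct, hfld, hf]]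
    · exact h7
    · rw [lab1, cs_ct, cs_ct, hl, ← hS, add_assoc, add_assoc, cs_swap]
  · have h8 : (ct g k : ℝ) ≤ Fintype.card (C × κ) := by exact_mod_cast ct_le g k
    have h9 : (ct (fun _ : C × κ => D.S.k1) k : ℝ) ≤ Fintype.card (C × κ) := by
      exact_mod_cast ct_le _ k
    have h10 : (ct labr k : ℝ) + ct g k = ct lab k := by exact_mod_cast hS k
    have h11 : |((ct (fun _ : C × κ => D.S.k1) k : ℝ) - ct g k) / Fintype.card ι| ≤ e' := by
      have a1 : (0 : ℝ) ≤ ct g k := Nat.cast_nonneg _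
      have a2 : (0 : ℝ) ≤ ct (fun _ : C × κ => D.S.k1) k := Nat.cast_nonneg _
      rw [abs_div, abs_of_pos hN', div_le_iff₀ hN']
      exact abs_le.2 ⟨by linarith, by linarith⟩
    rw [lab0, cs_ct, hcard, Nat.cast_add, show ((ct labr k : ℝ) + ct (fun _ : C × κ => D.S.k1) k) /
      Fintype.card ι - D.S.ρ k = ((ct lab k : ℝ) / Fintype.card ι - D.S.ρ k) +
        ((ct (fun _ : C × κ => D.S.k1) k : ℝ) - ct g k) / Fintype.card ι by rw [← h10]; ring]
    exact (abs_add_le _ _).trans (by linarith [hp k])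

end Crest.Agent.R164
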