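import Crest.Agent.R164.Conc1

/-!
# R164 / Conc: concentration of `logZ` under Haar measure

Reduce to `ι = Fin N` with antitone eigenvalues (`Tuple.sort`, `mdl_mp_relO`, see `PM_logZ_rel`).  Let
`k` be the size of the lowest class (`k ≥ ρ₀ N`), `n = N - k`, `d = k/8`, `E = {A ≤ logZ}`,
`K = 32 Λ/ρ₀²`.  For a Gaussian matrix `G` (rows) put `SO = fun a r => Σ_b S a b * O b r`,
* `A' = {SO | S lower triangular, T as in exists_inv, O ∈ E, gb O (Wt eig T (O σ)) ≤ K}`,
* `B' = {SO | S lower triangular, logZ O ≤ A - ε N}`.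
By `quad_lower`, `logZ_jensen`: points of `A'`, `B'` have squared distance `≥ η² N` if
`η (Λ + K) < ε`, `η ≤ 1`; this passes to the closures; apply `gauss_sets` with the closures.
The map `(G, O) ↦ G O` pushes `γ ⊗ haar` to `γ` (`mp_gauss_mulVec` row by row), so
`γ(C) = ∫ haar{O | G O ∈ C} dγ(G)` for measurable `C`; for fixed `G = S U` (`exists_QR`),
`haar{O | G O ∈ C} = haar{O | S O ∈ C}` by left invariance.  Hence `γ(cl B') ≥ haar{logZ ≤ A - εN}`,
and for good `G` (`bad_prob`: probability `≥ 1/2` for large `N`), by Markov and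
`gb_offdiag`, `gb_diag` (`∫_E gb (Wt) ≤ 2Λ (N/d) P(E)/ρ₀ ≤ K P(E)/2`), `haar{O | S O ∈ A'} ≥ P(E)/2`.
So `P(E) P(logZ ≤ A - εN) ≤ 4 e^{-η² N/4}`; take `δ = c = η²/16`.
-/

set_option autoImplicit false

open MeasureTheory ProbabilityTheory Finset Matrix

namespace Crest.Agent.R164

/-- The product `G O` of an array with an orthogonal matrix. -/
noncomputable def cnmΦ {N : ℕ} (G : Fin N → Fin N → ℝ) (O : Orth (Fin N)) : Fin N → Fin N → ℝ :=
  fun a r => ∑ b, G a b * O.1 b r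

lemma cnm_meas_Φ {N : ℕ} :
    Measurable fun p : (Fin N → Fin N → ℝ) × Orth (Fin N) => cnmΦ p.1 p.2 := by
  refine measurable_pi_lambda _ fun a => measurable_pi_lambda _ fun r => ?_
  refine Finset.measurable_sum univ fun b _ => Measurable.mul ?_ ?_
  · fun_prop
  · exact (Orth.measurable_entry b r).comp measurable_snd

lemma cnm_mp_Φ {N : ℕ} (O : Orth (Fin N)) :
    MeasurePreserving (fun G : Fin N → Fin N → ℝ => cnmΦ G O) Lev.μ Lev.μ := by
  let O' : Orth (Fin N) := Orth.mk' O.1ᵀ (by rw [Matrix.transpose_transpose, O.mul_transpose])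
  have h := measurePreserving_pi (fun _ : Fin N => (Lev.μ : Measure (Fin N → ℝ)))
    (fun _ : Fin N => (Lev.μ : Measure (Fin N → ℝ))) (fun _ => mp_gauss_mulVec O')
  have e : (fun G : Fin N → Fin N → ℝ => cnmΦ G O) = fun G a => O'.1 *ᵥ G a := by
    funext G a r
    simp only [cnmΦ, O', Orth.mk'_val, Matrix.mulVec, dotProduct, Matrix.transpose_apply]
    exact Finset.sum_congr rfl fun b _ => mul_comm _ _
  rw [e]
  exact h

lemma cnm_Φ_mul {N : ℕ} (S : Fin N → Fin N → ℝ) (U O : Orth (Fin N)) :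
    cnmΦ (cnmΦ S U) O = cnmΦ S (U * O) := by
  funext a r
  change ∑ b, (∑ c, S a c * U.1 c b) * O.1 b r = ∑ c, S a c * ∑ b, U.1 c b * O.1 b r
  simp only [Finset.sum_mul, Finset.mul_sum, mul_assoc]
  exact Finset.sum_comm

/-- Lower bound for the Gaussian measure of a set through its Haar sections. -/
lemma cnm_sec {N : ℕ} {C D : Set (Fin N → Fin N → ℝ)} (hC : MeasurableSet C) {p : ℝ}
    (hp : 0 ≤ p) (h : ∀ G, G ∉ D → p ≤ (haar (Fin N)).real {O | cnmΦ G O ∈ C}) :
    p * (1 - (Lev.μ : Measure (Fin N → Fin N → ℝ)).real D) ≤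
      (Lev.μ : Measure (Fin N → Fin N → ℝ)).real C := by
  set γ : Measure (Fin N → Fin N → ℝ) := Lev.μ with hγ
  have hs : MeasurableSet {q : (Fin N → Fin N → ℝ) × Orth (Fin N) | cnmΦ q.1 q.2 ∈ C} :=
    cnm_meas_Φ hC
  have h1 : γ.prod (haar (Fin N)) {q | cnmΦ q.1 q.2 ∈ C} = γ C := by
    rw [Measure.prod_apply_symm hs]
    have : ∀ O : Orth (Fin N), γ ((fun G => (G, O)) ⁻¹' {q | cnmΦ q.1 q.2 ∈ C}) = γ C := fun O =>
      (cnm_mp_Φ O).measure_preimage hC.nullMeasurableSet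
    simp only [this, lintegral_const, measure_univ, mul_one]
  have hD := measurableSet_toMeasurable γ D
  have h2 : ENNReal.ofReal p * γ (toMeasurable γ D)ᶜ ≤ γ C := by
    rw [← h1, Measure.prod_apply hs, ← lintegral_indicator_const hD.compl]
    refine lintegral_mono fun G => ?_
    by_cases hG : G ∈ (toMeasurable γ D)ᶜ
    · rw [Set.indicator_of_mem hG]
      exact ENNReal.ofReal_le_of_le_toReal (h G fun hGD => hG (subset_toMeasurable γ D hGD))
    · rw [Set.indicator_of_notMem hG]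
      exact zero_le
  have h3 := ENNReal.toReal_mono (measure_ne_top _ _) h2
  rw [ENNReal.toReal_mul, ENNReal.toReal_ofReal hp] at h3
  have h4 : γ.real (toMeasurable γ D)ᶜ = 1 - γ.real D := by
    rw [probReal_compl_eq_one_sub hD, measureReal_def, measureReal_def, measure_toMeasurable]
  rw [← h4]
  exact h3

section gb
variable {ι : Type} [Fintype ι] [DecidableEq ι] (lamv : ι → ℝ) (V : (ι → Bool) → ℝ)

lemma cnm_gb_sum {κ : Type} (s : Finset κ) (U : Orth ι) (f : κ → (ι → Bool) → ℝ) :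
    gb lamv V U (fun σ => ∑ k ∈ s, f k σ) = ∑ k ∈ s, gb lamv V U (f k) := by
  simp only [gb, Finset.sum_mul]
  rw [Finset.sum_comm, Finset.sum_div]

lemma cnm_gb_mul (c : ℝ) (U : Orth ι) (f : (ι → Bool) → ℝ) :
    gb lamv V U (fun σ => c * f σ) = c * gb lamv V U f := by
  simp only [gb, mul_assoc, ← Finset.mul_sum, mul_div_assoc]

lemma cnm_gb_const_add (c : ℝ) (U : Orth ι) (f : (ι → Bool) → ℝ) :
    gb lamv V U (fun σ => c + f σ) = c + gb lamv V U f := by
  have hZ : (∑ σ : ι → Bool, Real.exp ((∑ a, lamv a * (U.1 *ᵥ spn σ) a ^ 2) / 2 + V σ)) ≠ 0 := by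
    positivity
  simp only [gb, add_mul, Finset.sum_add_distrib, ← Finset.mul_sum, add_div]
  rw [mul_div_assoc, div_self hZ, mul_one]

lemma cnm_gb_nonneg (U : Orth ι) {f : (ι → Bool) → ℝ} (hf : ∀ σ, 0 ≤ f σ) :
    0 ≤ gb lamv V U f :=
  div_nonneg (Finset.sum_nonneg fun σ _ => mul_nonneg (hf σ) (Real.exp_pos _).le)
    (Finset.sum_nonneg fun _ _ => (Real.exp_pos _).le)

lemma cnm_cont_x (σ : ι → Bool) (b : ι) : Continuous fun U : Orth ι => (U.1 *ᵥ spn σ) b :=
  continuous_finsetSum univ fun r _ => (Orth.continuous_entry b r).mul continuous_const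

lemma cnm_int {f : Orth ι → ℝ} (hf : Continuous f) (E : Set (Orth ι)) :
    Integrable f ((haar ι).restrict E) :=
  (hf.integrable_of_hasCompactSupport (HasCompactSupport.of_compactSpace f)).restrict

/-- Second moment of a linear combination of eigen-coordinates. -/
lemma cnm_int_sq (A : ℝ) (s : Finset ι) (t : ι → ℝ) {ρ₀ : ℝ} (hρ : 0 < ρ₀)
    (hN : 0 < Fintype.card ι) (hct : ∀ b, ρ₀ * Fintype.card ι ≤ ct lamv (lamv b)) :
    ∫ U in {U | A ≤ logZ lamv V U},
      gb lamv V U (fun σ => (∑ b ∈ s, (U.1 *ᵥ spn σ) b * t b) ^ 2) ∂haar ι ≤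
      (∑ b, t b ^ 2) * ((haar ι).real {U | A ≤ logZ lamv V U} / ρ₀) := by
  set E := {U | A ≤ logZ lamv V U}
  have hN' : (0 : ℝ) < Fintype.card ι := Nat.cast_pos.2 hN
  have e : ∀ U : Orth ι, gb lamv V U (fun σ => (∑ b ∈ s, (U.1 *ᵥ spn σ) b * t b) ^ 2) =
      ∑ b ∈ s, ∑ b' ∈ s, t b * t b' *
        gb lamv V U (fun σ => (U.1 *ᵥ spn σ) b * (U.1 *ᵥ spn σ) b') := fun U => by
    simp only [← cnm_gb_mul, ← cnm_gb_sum]
    congr 1
    funext σ
    rw [sq, Finset.sum_mul_sum]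
    exact Finset.sum_congr rfl fun b _ => Finset.sum_congr rfl fun b' _ => by ring
  have hi : ∀ b b', Integrable (fun U : Orth ι => t b * t b' *
      gb lamv V U (fun σ => (U.1 *ᵥ spn σ) b * (U.1 *ᵥ spn σ) b')) ((haar ι).restrict E) :=
    fun b b' => cnm_int (continuous_const.mul (continuous_gb lamv V
      (f := fun U σ => (U.1 *ᵥ spn σ) b * (U.1 *ᵥ spn σ) b')
      fun σ => (cnm_cont_x σ b).mul (cnm_cont_x σ b'))) E
  simp only [e]
  rw [integral_finsetSum _ fun b _ => integrable_finsetSum _ fun b' _ => hi b b']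
  have hP : 0 ≤ (haar ι).real E / ρ₀ := div_nonneg measureReal_nonneg hρ.le
  refine le_trans (Finset.sum_le_sum (g := fun b => t b ^ 2 * ((haar ι).real E / ρ₀))
    fun b hb => ?_) ?_
  · rw [integral_finsetSum _ fun b' _ => hi b b', Finset.sum_eq_single_of_mem b hb]
    · rw [integral_const_mul, ← sq]
      refine mul_le_mul_of_nonneg_left ?_ (sq_nonneg _)
      have h1 := gb_diag lamv V A b
      simp only [sq] at h1
      have h0 : 0 ≤ ∫ U in E, gb lamv V U (fun σ => (U.1 *ᵥ spn σ) b * (U.1 *ᵥ spn σ) b) ∂haar ι :=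
        integral_nonneg fun U => cnm_gb_nonneg lamv V U fun σ => mul_self_nonneg _
      have h2 := (mul_le_mul_of_nonneg_right (hct b) h0).trans h1
      rw [le_div_iff₀ hρ]
      refine le_of_mul_le_mul_left ?_ hN'
      linarith
    · intro b' _ hb'
      rw [integral_const_mul, gb_offdiag lamv V A hb'.symm, mul_zero]
  · rw [← Finset.sum_mul]
    exact mul_le_mul_of_nonneg_right (Finset.sum_le_sum_of_subset_of_nonneg (subset_univ _)
      fun _ _ _ => sq_nonneg _) hP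

end gb

lemma cnm_Wt_nonneg {N : ℕ} {eig : Fin N → ℝ} (h : Antitone eig) (T : Fin N → Fin N → ℝ)
    (x : Fin N → ℝ) : 0 ≤ Wt eig T x :=
  Finset.sum_nonneg fun i _ => mul_nonneg (gap_nonneg h i)
    (Finset.sum_nonneg fun _ _ => sq_nonneg _)

/-- Markov's inequality for the Gibbs average of `Wt`. -/
lemma cnm_markov {N : ℕ} (hN : 0 < N) {eig : Fin N → ℝ} (V : (Fin N → Bool) → ℝ) (A : ℝ)
    {Λ ρ₀ K M : ℝ} (hanti : Antitone eig) (hΛ0 : 0 ≤ Λ) (hΛ : ∀ a, |eig a| ≤ Λ) (hρ : 0 < ρ₀)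
    (hct : ∀ b, ρ₀ * N ≤ ct eig (eig b)) {T : Fin N → Fin N → ℝ} (hT : ∑ b, ∑ a, T b a ^ 2 ≤ M)
    (hK0 : 0 < K) (hK : 4 * Λ * M / ρ₀ ≤ K) :
    (haar (Fin N)).real {U | A ≤ logZ eig V U} / 2 ≤ (haar (Fin N)).real
      {U | A ≤ logZ eig V U ∧ gb eig V U (fun σ => Wt eig T (U.1 *ᵥ spn σ)) ≤ K} := by
  set E := {U | A ≤ logZ eig V U} with hE
  have hEm : MeasurableSet E := measurableSet_le measurable_const (measurable_logZ eig V)
  set W : Orth (Fin N) → ℝ := fun U => gb eig V U (fun σ => Wt eig T (U.1 *ᵥ spn σ)) with hW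
  have hc : ∀ i a, Continuous fun U : Orth (Fin N) => gb eig V U
      (fun σ => (∑ b ∈ univ.filter (· ≤ i), (U.1 *ᵥ spn σ) b * T b a) ^ 2) := fun i a =>
    continuous_gb eig V
      (f := fun U σ => (∑ b ∈ univ.filter (· ≤ i), (U.1 *ᵥ spn σ) b * T b a) ^ 2) fun σ =>
      (continuous_finsetSum _ fun b _ => (cnm_cont_x σ b).mul continuous_const).pow 2
  have e : W = fun U => ∑ i, gap eig i * ∑ a, gb eig V U
      (fun σ => (∑ b ∈ univ.filter (· ≤ i), (U.1 *ᵥ spn σ) b * T b a) ^ 2) := by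
    funext U
    simp only [hW, Wt, cnm_gb_sum, cnm_gb_mul]
  have hWc : Continuous W := by
    rw [e]
    exact continuous_finsetSum _ fun i _ => continuous_const.mul
      (continuous_finsetSum _ fun a _ => hc i a)
  have hP : 0 ≤ (haar (Fin N)).real E := measureReal_nonneg
  have hM : 0 ≤ M := le_trans (by positivity) hT
  have h1 : ∫ U in E, W U ∂haar (Fin N) ≤ K * ((haar (Fin N)).real E / 2) := by
    have hi : ∀ i, Integrable (fun U : Orth (Fin N) => gap eig i * ∑ a, gb eig V U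
        (fun σ => (∑ b ∈ univ.filter (· ≤ i), (U.1 *ᵥ spn σ) b * T b a) ^ 2))
        ((haar (Fin N)).restrict E) := fun i => cnm_int (continuous_const.mul
      (continuous_finsetSum _ fun a _ => hc i a)) E
    simp only [e]
    rw [integral_finsetSum _ fun i _ => hi i]
    refine le_trans (Finset.sum_le_sum
      (g := fun i => gap eig i * (M * ((haar (Fin N)).real E / ρ₀))) fun i _ => ?_) ?_
    · rw [integral_const_mul, integral_finsetSum _ fun a _ => cnm_int (hc i a) E]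
      refine mul_le_mul_of_nonneg_left ?_ (gap_nonneg hanti i)
      refine le_trans (Finset.sum_le_sum fun a _ => cnm_int_sq eig V A _ (fun b => T b a) hρ
        (by simpa using hN) (by simpa using hct)) ?_
      rw [← Finset.sum_mul, Finset.sum_comm]
      exact mul_le_mul_of_nonneg_right hT (div_nonneg hP hρ.le)
    · rw [← Finset.sum_mul]
      refine (mul_le_mul_of_nonneg_right (sum_gap_le hΛ0 hΛ) (by positivity)).trans ?_
      calc 2 * Λ * (M * ((haar (Fin N)).real E / ρ₀))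
          = 4 * Λ * M / ρ₀ * ((haar (Fin N)).real E / 2) := by ring
        _ ≤ _ := mul_le_mul_of_nonneg_right hK (by positivity)
  have h2 : K * ((haar (Fin N)).restrict E).real {U | K ≤ W U} ≤ ∫ U in E, W U ∂haar (Fin N) :=
    mul_meas_ge_le_integral_of_nonneg
      (Filter.Eventually.of_forall fun U => cnm_gb_nonneg eig V U fun σ =>
        cnm_Wt_nonneg hanti T _) (cnm_int hWc E) K
  have h3 : ((haar (Fin N)).restrict E).real {U | K ≤ W U} ≤ (haar (Fin N)).real E / 2 :=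
    le_of_mul_le_mul_left (h2.trans h1) hK0
  rw [measureReal_restrict_apply' hEm] at h3
  have h4 : (haar (Fin N)).real E ≤ (haar (Fin N)).real {U | A ≤ logZ eig V U ∧ W U ≤ K} +
      (haar (Fin N)).real ({U | K ≤ W U} ∩ E) := by
    refine le_trans (measureReal_mono fun U hU => ?_) (measureReal_union_le _ _)
    rcases le_total (W U) K with h | h
    · exact Or.inl ⟨hU, h⟩
    · exact Or.inr ⟨h, hU⟩
  linarith

/-- The lowest class of an antitone sequence is a final segment. -/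
lemma cnm_min {N : ℕ} {eig : Fin N → ℝ} (hanti : Antitone eig) (l : Fin N) (hl : ∀ a, a ≤ l)
    (a b : Fin N) (ha : N - ct eig (eig l) ≤ a) : eig a ≤ eig b := by
  refine le_trans ?_ (hanti (hl b))
  by_contra hlt
  have hsub : (univ.filter fun c => eig c = eig l) ⊆ Finset.Ioi a := fun c hc => by
    rw [Finset.mem_Ioi]
    by_contra hca
    exact hlt ((hanti (not_lt.1 hca)).trans (mem_filter.1 hc).2.le)
  have h1 := Finset.card_le_card hsub
  rw [Fin.card_Ioi] at h1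
  have h2 := a.2
  unfold ct at ha
  omega

lemma cnm_closure {N : ℕ} {A B : Set (Fin N → Fin N → ℝ)} {d : ℝ}
    (h : ∀ x ∈ A, ∀ y ∈ B, d ≤ ∑ a, ∑ r, (x a r - y a r) ^ 2) :
    ∀ x ∈ closure A, ∀ y ∈ closure B, d ≤ ∑ a, ∑ r, (x a r - y a r) ^ 2 := by
  intro x hx y hy
  have hcl : IsClosed {q : (Fin N → Fin N → ℝ) × (Fin N → Fin N → ℝ) |
      d ≤ ∑ a, ∑ r, (q.1 a r - q.2 a r) ^ 2} :=
    isClosed_le continuous_const (by fun_prop)
  have hm : (x, y) ∈ closure (A ×ˢ B) := by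
    rw [closure_prod_eq]
    exact ⟨hx, hy⟩
  have hsub : A ×ˢ B ⊆ {q : (Fin N → Fin N → ℝ) × (Fin N → Fin N → ℝ) |
      d ≤ ∑ a, ∑ r, (q.1 a r - q.2 a r) ^ 2} := fun q hq => h q.1 hq.1 q.2 hq.2
  exact closure_minimal hsub hcl hm

/-- The sorted case. -/
lemma cnm_fin {Λ ρ₀ ε η : ℝ} (hΛ0 : 0 ≤ Λ) (hρ : 0 < ρ₀) (hη : 0 ≤ η) (hη1 : η ≤ 1)
    (hε : η * (Λ + (32 * Λ / ρ₀ ^ 2 + 1)) < ε) {N : ℕ} (hN0 : 0 < N) (hN : 64 / ρ₀ ^ 2 ≤ N)
    {eig : Fin N → ℝ} (V : (Fin N → Bool) → ℝ) (A : ℝ) (hanti : Antitone eig)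
    (hΛ : ∀ a, |eig a| ≤ Λ) (hct : ∀ b, ρ₀ * N ≤ ct eig (eig b)) :
    (haar (Fin N)).real {U | A ≤ logZ eig V U} *
      (haar (Fin N)).real {U | logZ eig V U ≤ A - ε * N} ≤ 4 * Real.exp (-(η ^ 2 * N) / 4) := by
  have hN' : (0 : ℝ) < N := Nat.cast_pos.2 hN0
  set K := 32 * Λ / ρ₀ ^ 2 + 1 with hK
  let l : Fin N := ⟨N - 1, by omega⟩
  have hl : ∀ a, a ≤ l := fun a => by
    have := a.2
    rw [Fin.le_def]
    change (a : ℕ) ≤ N - 1
    omega
  set k := ct eig (eig l) with hk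
  have hkN : k ≤ N := (Finset.card_filter_le _ _).trans (by simp)
  have hk1 : ρ₀ * N ≤ k := hct l
  have hk0 : (0 : ℝ) < k := lt_of_lt_of_le (by positivity) hk1
  set n := N - k with hn
  let A' : Set (Fin N → Fin N → ℝ) := {x | ∃ (S T : Fin N → Fin N → ℝ) (O : Orth (Fin N)),
    (∀ b a, b < a → T b a = 0) ∧
    (∀ b : Fin N, (b : ℕ) < n → ∀ c, ∑ a, T b a * S a c = if b = c then 1 else 0) ∧
    A ≤ logZ eig V O ∧ gb eig V O (fun σ => Wt eig T (O.1 *ᵥ spn σ)) ≤ K ∧ x = cnmΦ S O}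
  let B' : Set (Fin N → Fin N → ℝ) := {y | ∃ (S : Fin N → Fin N → ℝ) (O : Orth (Fin N)),
    (∀ a b, a < b → S a b = 0) ∧ logZ eig V O ≤ A - ε * N ∧ y = cnmΦ S O}
  have hd : ∀ x ∈ A', ∀ y ∈ B', η ^ 2 * N ≤ ∑ a, ∑ r, (x a r - y a r) ^ 2 := by
    rintro _ ⟨S, T, O, hT, hTS, hO, hW, rfl⟩ _ ⟨S', O', hS', hO', rfl⟩
    by_contra hlt
    have h1 := logZ_jensen eig V O O' (fun σ => N * η * (Λ + Wt eig T (O.1 *ᵥ spn σ))) fun σ => by
      have := quad_lower hanti (cnm_min hanti l hl) hΛ0 hΛ hη hη1 hS' hT hTS O O'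
        (not_le.1 hlt).le σ
      linarith
    rw [cnm_gb_mul, cnm_gb_const_add] at h1
    have h2 : N * η * (Λ + gb eig V O fun σ => Wt eig T (O.1 *ᵥ spn σ)) ≤ N * η * (Λ + K) :=
      mul_le_mul_of_nonneg_left (by linarith) (by positivity)
    have h3 := mul_lt_mul_of_pos_left hε hN'
    nlinarith
  have hd' : ∀ x ∈ closure A', ∀ y ∈ closure B', η ^ 2 * N ≤ ∑ a, ∑ r, (x a r - y a r) ^ 2 := by
    exact cnm_closure hd
  have hg := gauss_sets isClosed_closure.measurableSet isClosed_closure.measurableSet hd'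
  have hinv : ∀ (S : Fin N → Fin N → ℝ) (U : Orth (Fin N)) (C : Set (Fin N → Fin N → ℝ)),
      (haar (Fin N)).real {O | cnmΦ (cnmΦ S U) O ∈ C} =
        (haar (Fin N)).real {O | cnmΦ S O ∈ C} := fun S U C => by
    simp only [cnm_Φ_mul, measureReal_def]
    congr 1
    exact measure_preimage_mul (haar (Fin N)) U {O | cnmΦ S O ∈ C}
  have hB := cnm_sec (C := closure B') (D := ∅) isClosed_closure.measurableSet
    (p := (haar (Fin N)).real {U | logZ eig V U ≤ A - ε * N}) measureReal_nonneg fun G _ => by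
      obtain ⟨U, S, hS, hG⟩ := exists_QR G
      have e : G = cnmΦ S U := funext fun a => funext fun r => hG a r
      rw [e, hinv]
      exact measureReal_mono fun O hO => subset_closure ⟨S, O, hS, hO, rfl⟩
  have hA := cnm_sec (C := closure A') (D := {G | ¬GoodG n (k / 8) G})
    isClosed_closure.measurableSet
    (p := (haar (Fin N)).real {U | A ≤ logZ eig V U} / 2) (by positivity) fun G hG0 => by
      obtain ⟨U, S, hS, hG⟩ := exists_QR G
      have e : G = cnmΦ S U := funext fun a => funext fun r => hG a r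
      have hG1 : GoodG n (k / 8) G := not_not.1 hG0
      rw [e] at hG1
      obtain ⟨T, hT, hTS, -, hTb⟩ := exists_inv (by positivity) hS (GoodG.mul U hG1)
      rw [e, hinv]
      refine (cnm_markov hN0 V A (K := K) hanti hΛ0 hΛ hρ hct hTb (by positivity) ?_).trans
        (measureReal_mono fun O hO => subset_closure ⟨S, T, O, hT, hTS, hO.1, hO.2, rfl⟩)
      have h1 : (N : ℝ) / (k / 8) ≤ 8 / ρ₀ := by
        rw [div_le_div_iff₀ (by positivity) hρ]
        linarith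
      calc 4 * Λ * (N / (k / 8)) / ρ₀ ≤ 4 * Λ * (8 / ρ₀) / ρ₀ := by gcongr
        _ = 32 * Λ / ρ₀ ^ 2 := by field_simp; ring
        _ ≤ K := by linarith
  have hbad : (Lev.μ : Measure (Fin N → Fin N → ℝ)).real {G | ¬GoodG n (k / 8) G} ≤ 1 / 2 := by
    refine (bad_prob (by omega)).trans ?_
    have h1 := Real.quadratic_le_exp_of_nonneg (x := k / 4) (by positivity)
    have h2 : 64 ≤ N * ρ₀ ^ 2 := (div_le_iff₀ (by positivity)).1 hN
    have h3 : (ρ₀ * N) ^ 2 ≤ (k : ℝ) ^ 2 := pow_le_pow_left₀ (by positivity) hk1 2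
    have h4 : 2 * (N : ℝ) ≤ Real.exp (k / 4) := by nlinarith
    rw [neg_div, Real.exp_neg, ← div_eq_mul_inv, div_le_iff₀ (Real.exp_pos _)]
    linarith
  rw [measureReal_empty, sub_zero, mul_one] at hB
  have hP : 0 ≤ (haar (Fin N)).real {U | A ≤ logZ eig V U} := measureReal_nonneg
  have hA' : (haar (Fin N)).real {U | A ≤ logZ eig V U} ≤
      4 * (Lev.μ : Measure (Fin N → Fin N → ℝ)).real (closure A') := by nlinarith
  refine (mul_le_mul hA' hB measureReal_nonneg (by positivity)).trans ?_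
  linarith

theorem conc_main (Λ ρ₀ ε : ℝ) (hρ : 0 < ρ₀) (hε : 0 < ε) : ∃ δ : ℝ, 0 < δ ∧ ∃ N₀ : ℕ,
    ∀ (ι : Type) [Fintype ι] [DecidableEq ι] (lamv : ι → ℝ) (V : (ι → Bool) → ℝ) (A : ℝ),
      N₀ ≤ Fintype.card ι → (∀ b, |lamv b| ≤ Λ) →
      (∀ b, ρ₀ * Fintype.card ι ≤ ct lamv (lamv b)) →
      Real.exp (-(δ * Fintype.card ι)) ≤ (haar ι).real {U | A ≤ logZ lamv V U} →
      (haar ι).real {U | logZ lamv V U ≤ A - ε * Fintype.card ι} ≤
        Real.exp (-(δ * Fintype.card ι)) := by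
  set L := |Λ| + (32 * |Λ| / ρ₀ ^ 2 + 1) with hL
  have hL0 : 0 < L := by positivity
  set η := min 1 (ε / (2 * L)) with hη
  have hη0 : 0 < η := lt_min one_pos (by positivity)
  have hηε : η * L < ε := by
    have h1 : η * L ≤ ε / (2 * L) * L := mul_le_mul_of_nonneg_right (min_le_right _ _) hL0.le
    have h2 : ε / (2 * L) * L = ε / 2 := by field_simp
    linarith
  refine ⟨η ^ 2 / 16, by positivity, ⌈64 / ρ₀ ^ 2 + 24 / η ^ 2⌉₊, ?_⟩
  intro ι _ _ lamv V A hN hΛ hct hE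
  set N := Fintype.card ι with hNd
  have hN1 : 64 / ρ₀ ^ 2 + 24 / η ^ 2 ≤ (N : ℝ) := Nat.ceil_le.1 hN
  have hp1 : 0 < 64 / ρ₀ ^ 2 := by positivity
  have hp2 : 0 < 24 / η ^ 2 := by positivity
  have hN0 : 0 < N := Nat.cast_pos.1 (by linarith : (0 : ℝ) < N)
  let e₀ : Fin N ≃ ι := (Fintype.equivFin ι).symm
  let e : Fin N ≃ ι := (Tuple.sort fun a => -lamv (e₀ a)).trans e₀
  have hanti : Antitone fun a => lamv (e a) := fun a b hab =>
    neg_le_neg_iff.1 (Tuple.monotone_sort (fun a => -lamv (e₀ a)) hab)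
  have hZ : ∀ U, logZ (fun a => lamv (e a)) (fun σ => V fun r => σ (e.symm r)) U =
      logZ lamv V (relO e e U) := fun U => by
    unfold logZ
    rw [Fintype.card_congr e, ← (Equiv.arrowCongr e (Equiv.refl Bool)).sum_comp]
    congr 2
    refine Finset.sum_congr rfl fun σ _ => ?_
    rw [← e.sum_comp]
    simp only [← mdl_relO_mulVec e e U σ]
    rfl
  have hct' : ∀ b, ρ₀ * N ≤ ct (fun a => lamv (e a)) (lamv (e b)) := fun b => by
    refine (hct (e b)).trans (le_of_eq ?_)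
    congr 1
    rw [← card_block, ← card_block]
    exact (Fintype.card_congr (e.subtypeEquiv fun _ => Iff.rfl)).symm
  have h := cnm_fin (abs_nonneg Λ) hρ hη0.le (min_le_left _ _) hηε hN0 (by linarith)
    (fun σ => V fun r => σ (e.symm r)) A hanti (fun a => (hΛ _).trans (le_abs_self Λ)) hct'
  simp only [hZ] at h
  have m1 := (mdl_mp_relO e e).measureReal_preimage (s := {U | A ≤ logZ lamv V U})
    (measurableSet_le measurable_const (measurable_logZ lamv V)).nullMeasurableSet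
  have m2 := (mdl_mp_relO e e).measureReal_preimage (s := {U | logZ lamv V U ≤ A - ε * N})
    (measurableSet_le (measurable_logZ lamv V) measurable_const).nullMeasurableSet
  rw [Set.preimage_ofPred_eq] at m1 m2
  rw [m1, m2] at h
  have h1 := (mul_le_mul_of_nonneg_right hE measureReal_nonneg).trans h
  have h2 : 24 ≤ N * η ^ 2 := (div_le_iff₀ (by positivity)).1 (by linarith)
  have h3 : 4 ≤ Real.exp (η ^ 2 * N / 8) := by
    have := Real.add_one_le_exp (η ^ 2 * N / 8)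
    linarith
  refine le_of_mul_le_mul_left (h1.trans ?_) (Real.exp_pos _)
  refine (mul_le_mul_of_nonneg_right h3 (Real.exp_pos _).le).trans (le_of_eq ?_)
  rw [← Real.exp_add, ← Real.exp_add]
  congr 1
  ring

end Crest.Agent.R164
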