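import Crest.Agent.R164.MomH
import Crest.Agent.Lib.Prekopa.Basic

/-!
# R164 / Conc1H: Gaussian Prékopa–Leindler property and small-ball estimate (aux for `Conc1`)
-/

set_option autoImplicit false

open MeasureTheory ProbabilityTheory Finset Matrix

namespace Crest.Agent.R164

/-- The Gaussian form of the midpoint Prékopa–Leindler inequality. -/
def PLG {X : Type} [MeasurableSpace X] (μ : Measure X) (m : X → X → X) (D : X → X → ℝ) : Prop :=
  ∀ f g h : X → ENNReal, Measurable f → Measurable g → Measurable h →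
    (∀ x y, f x * g y * ENNReal.ofReal (Real.exp (-D x y / 4)) ≤ h (m x y) ^ 2) →
    (∫⁻ x, f x ∂μ) * ∫⁻ x, g x ∂μ ≤ (∫⁻ x, h x ∂μ) ^ 2

lemma plg_real : PLG gs (fun x y => (x + y) / 2) fun x y => (x - y) ^ 2 := by
  intro f g h hf hg hh H
  have h1 : (1 : NNReal) ≠ 0 := one_ne_zero
  have hp := measurable_gaussianPDF 0 1
  simp only [gs]
  rw [gaussianReal_of_var_ne_zero _ h1, lintegral_withDensity_eq_lintegral_mul _ hp hf,
    lintegral_withDensity_eq_lintegral_mul _ hp hg, lintegral_withDensity_eq_lintegral_mul _ hp hh]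
  refine Crest.Agent.Lib.Prekopa.pl_one (hp.mul hf) (hp.mul hg) (hp.mul hh) fun x y => ?_
  have e : gaussianPDF 0 1 x * gaussianPDF 0 1 y =
      gaussianPDF 0 1 ((x + y) / 2) ^ 2 * ENNReal.ofReal (Real.exp (-(x - y) ^ 2 / 4)) := by
    simp only [gaussianPDF]
    rw [← ENNReal.ofReal_mul (gaussianPDFReal_nonneg _ _ _),
      ← ENNReal.ofReal_pow (gaussianPDFReal_nonneg _ _ _), ← ENNReal.ofReal_mul (sq_nonneg _)]
    congr 1
    simp only [gaussianPDFReal]
    rw [mul_mul_mul_comm, mul_pow, ← sq, mul_assoc (_ ^ 2), ← Real.exp_add, sq (Real.exp _),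
      ← Real.exp_add, ← Real.exp_add]
    congr 2
    push_cast
    ring
  simp only [Pi.mul_apply]
  calc gaussianPDF 0 1 x * f x * (gaussianPDF 0 1 y * g y)
      = gaussianPDF 0 1 ((x + y) / 2) ^ 2 *
          (f x * g y * ENNReal.ofReal (Real.exp (-(x - y) ^ 2 / 4))) := by
        rw [mul_mul_mul_comm, e]; ring
    _ ≤ gaussianPDF 0 1 ((x + y) / 2) ^ 2 * h ((x + y) / 2) ^ 2 := by gcongr; exact H x y
    _ = _ := (mul_pow _ _ _).symm

section tensor
variable {X X' : Type} [MeasurableSpace X] [MeasurableSpace X'] {μ : Measure X} {μ' : Measure X'}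
  {m : X → X → X} {m' : X' → X' → X'} {D : X → X → ℝ} {D' : X' → X' → ℝ}

lemma PLG.map (h : PLG μ' m' D') {e : X' → X} (he : MeasurePreserving e μ' μ)
    (hm : ∀ x y, e (m' x y) = m (e x) (e y)) (hD : ∀ x y, D' x y = D (e x) (e y)) : PLG μ m D := by
  intro f g k hf hg hk H
  rw [← he.lintegral_comp hf, ← he.lintegral_comp hg, ← he.lintegral_comp hk]
  refine h _ _ _ (hf.comp he.measurable) (hg.comp he.measurable) (hk.comp he.measurable)
    fun x y => ?_
  rw [hm, hD]
  exact H _ _

lemma PLG.prod [SFinite μ'] (h : PLG μ m D) (h' : PLG μ' m' D') :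
    PLG (μ.prod μ') (fun p q => (m p.1 q.1, m' p.2 q.2)) fun p q => D p.1 q.1 + D' p.2 q.2 := by
  intro f g k hf hg hk H
  rw [lintegral_prod _ hf.aemeasurable, lintegral_prod _ hg.aemeasurable,
    lintegral_prod _ hk.aemeasurable]
  refine h _ _ _ hf.lintegral_prod_right' hg.lintegral_prod_right' hk.lintegral_prod_right'
    fun a b => ?_
  have hf' : Measurable fun x => f (a, x) := hf.comp measurable_prodMk_left
  rw [mul_right_comm, ← lintegral_mul_const _ hf']
  refine h' _ _ _ (hf'.mul_const _) (hg.comp measurable_prodMk_left)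
    (hk.comp measurable_prodMk_left) fun x y => ?_
  refine le_of_eq_of_le ?_ (H (a, x) (b, y))
  rw [show -(D a b + D' x y) / 4 = -D a b / 4 + -D' x y / 4 by ring, Real.exp_add,
    ENNReal.ofReal_mul (Real.exp_pos _).le]
  ring

lemma PLG.fin [IsProbabilityMeasure μ] (h : PLG μ m D) (n : ℕ) :
    PLG (Measure.pi fun _ : Fin n => μ) (fun x y i => m (x i) (y i))
      fun x y => ∑ i, D (x i) (y i) := by
  induction n with
  | zero =>
    intro f g k _ _ _ H
    have := H default default
    simp only [univ_eq_empty, sum_empty, neg_zero, zero_div, Real.exp_zero, ENNReal.ofReal_one,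
      mul_one] at this
    simp only [lintegral_unique, measure_univ, mul_one]
    convert this using 3
  | succ n ih =>
    refine (h.prod ih).map (measurePreserving_piFinSuccAbove (fun _ : Fin (n + 1) => μ) 0).symm
      (fun x y => ?_) fun x y => ?_
    · funext i
      refine Fin.cases ?_ (fun j => ?_) i <;>
        simp [MeasurableEquiv.piFinSuccAbove, Fin.insertNthEquiv]
    · rw [Fin.sum_univ_succ]
      simp [MeasurableEquiv.piFinSuccAbove, Fin.insertNthEquiv]

lemma PLG.pi [IsProbabilityMeasure μ] (h : PLG μ m D) (α : Type) [Fintype α] :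
    PLG (Measure.pi fun _ : α => μ) (fun x y i => m (x i) (y i)) fun x y => ∑ i, D (x i) (y i) :=
  (h.fin (Fintype.card α)).map
    (measurePreserving_arrowCongr' (fun _ => μ) (fun _ => μ) (Fintype.equivFin α).symm
      (MeasurableEquiv.refl X) fun _ => MeasurePreserving.id μ) (fun _ _ => rfl)
    fun x y => ((Fintype.equivFin α).sum_comp fun i => D (x i) (y i)).symm

end tensor

lemma c1_exp_neg : ∫ y, Real.exp (-1 * y ^ 2) ∂gs ≤ Real.exp (-(3 / 8)) := by
  have h1 : (1 : NNReal) ≠ 0 := one_ne_zero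
  rw [integral_gaussianReal_eq_integral_smul h1]
  have e : ∀ y : ℝ, gaussianPDFReal 0 1 y • Real.exp (-1 * y ^ 2) =
      (Real.sqrt (2 * Real.pi))⁻¹ * Real.exp (-(3 / 2) * y ^ 2) := fun y => by
    simp only [gaussianPDFReal, smul_eq_mul]
    rw [mul_assoc, ← Real.exp_add]
    congr 2
    · simp
    · push_cast; ring
  simp only [e]
  rw [integral_const_mul, integral_gaussian]
  have hp := Real.pi_pos
  have h2 : (Real.sqrt (2 * Real.pi))⁻¹ * Real.sqrt (Real.pi / (3 / 2)) ≤ 5 / 8 := by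
    rw [inv_mul_le_iff₀ (by positivity)]
    have : Real.sqrt (Real.pi / (3 / 2)) ≤ Real.sqrt (2 * Real.pi * (5 / 8) ^ 2) :=
      Real.sqrt_le_sqrt (by linarith)
    rwa [Real.sqrt_mul (by positivity), Real.sqrt_sq (by norm_num)] at this
  linarith [Real.add_one_le_exp (-(3 / 8) : ℝ)]

lemma c1_small {ι : Type} [Fintype ι] [DecidableEq ι] (T : Finset ι) {k : ℝ} (hk : k ≤ T.card) :
    (Lev.μ : Measure (ι → ℝ)).real {z | ∑ r ∈ T, z r ^ 2 < k / 8} ≤ Real.exp (-k / 4) := by
  let w : ι → ℝ := fun r => if r ∈ T then -1 else 0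
  have hi : ∀ r, Integrable (fun y : ℝ => Real.exp (w r * y ^ 2)) gs := fun r =>
    mom_int_exp (by simp only [w]; split_ifs <;> norm_num)
  have h1 := mul_meas_ge_le_integral_of_nonneg (μ := (Lev.μ : Measure (ι → ℝ)))
    (f := fun z => ∏ r, Real.exp (w r * z r ^ 2))
    (ae_of_all _ fun z => Finset.prod_nonneg fun _ _ => (Real.exp_pos _).le)
    (Integrable.fintype_prod (f := fun r y => Real.exp (w r * y ^ 2)) hi) (Real.exp (-k / 8))
  have h2 : ∫ z, ∏ r, Real.exp (w r * z r ^ 2) ∂(Lev.μ : Measure (ι → ℝ)) ≤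
      Real.exp (-(3 / 8) * k) := by
    rw [μ_pi, μ_real, integral_fintype_prod_eq_prod (f := fun r (y : ℝ) => Real.exp (w r * y ^ 2))]
    calc _ ≤ ∏ r, Real.exp (3 / 8 * w r) := by
          refine Finset.prod_le_prod (fun r _ => integral_nonneg fun y => (Real.exp_pos _).le)
            fun r _ => ?_
          simp only [w]
          split_ifs
          · simpa using c1_exp_neg
          · simp
      _ = Real.exp (-(3 / 8) * T.card) := by
          rw [← Real.exp_sum, ← Finset.mul_sum]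
          simp [w]
      _ ≤ _ := Real.exp_le_exp.2 (by linarith)
  have h3 : (Lev.μ : Measure (ι → ℝ)).real {z | ∑ r ∈ T, z r ^ 2 < k / 8} ≤
      (Lev.μ : Measure (ι → ℝ)).real {z | Real.exp (-k / 8) ≤ ∏ r, Real.exp (w r * z r ^ 2)} := by
    refine measureReal_mono fun z hz => ?_
    have hz' : ∑ r ∈ T, z r ^ 2 < k / 8 := hz
    show Real.exp (-k / 8) ≤ ∏ r, Real.exp (w r * z r ^ 2)
    rw [← Real.exp_sum]
    refine Real.exp_le_exp.2 ?_
    have : ∑ r, w r * z r ^ 2 = -∑ r ∈ T, z r ^ 2 := by simp [w]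
    linarith
  have h4 : Real.exp (-(3 / 8) * k) = Real.exp (-k / 8) * Real.exp (-k / 4) := by
    rw [← Real.exp_add]; congr 1; ring
  have h5 := (mul_le_mul_of_nonneg_left h3 (Real.exp_pos (-k / 8)).le).trans (h1.trans h2)
  rw [h4] at h5
  exact le_of_mul_le_mul_left h5 (Real.exp_pos _)

end Crest.Agent.R164
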