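import Crest.Agent.R164.Model
import Crest.Agent.R164.Conc1H
import Crest.Agent.Lib.Prekopa.Basic

/-!
# R164 / Conc1: ingredients for concentration of `logZ` under Haar measure

* `gauss_sets`: Prékopa–Leindler (`pl_pi`) with `f = 1_A φ`, `g = 1_B φ`, `h = e^{-d/8} φ`
  (`φ` the Gaussian density; `φ x * φ y = φ((x+y)/2)² e^{-|x-y|²/4}`); transfer from `Fin n → ℝ` by
  reindexing and currying.
* `bad_prob`: union bound over `a < n`.  The event for one `a` is open.  Fix the other rows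
  (Fubini / `lmarginal`); by `exists_QR` (applied to the matrix with the rows `b < n`, `b ≠ a` moved to the
  first `n - 1` places) or an orthonormal basis of the orthogonal complement of their span there is
  an orthogonal `O` with `|Σ c_b g_b|² ≥ Σ_{r ∈ T} (O g_a)_r²`, `|T| ≥ k`; `O g_a` is Gaussian
  (`mp_gauss_mulVec`), and `P(Σ_T z² < k/8) ≤ e^{k/8} (E e^{-z²})^{|T|} ≤ e^{k/8} 3^{-k/2}`.
* `exists_QR`: `gramSchmidtOrthonormalBasis` and its triangularity.
* `exists_inv`: the block of `S` on indices `< n` is triangular with independent rows; `T` is its inverse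
  (extended by `0`).  With `τ = Σ_b T b a²`, the vector `c = Σ_b T b a • T b` has `c a = τ`,
  `|c S|² = τ`, so `d τ² ≤ τ`.
* `quad_lower`: Abel summation `Σ eig a x_a² = Σ_{i<n} (eig i - eig (i+1)) Σ_{a ≤ i} x_a² + min · N`.
  For `y = Σ_a w_a G' a` (`w = Σ_{b ≤ i} x_b T b`, supported in `a ≤ i`), `y` lies in the span of the rows
  `≤ i` of `U'`, so `Σ_{a ≤ i} x'_a² ≥ 2⟨y,σ⟩ - |y|² = N - |σ - y|²`, and `y = P_i σ + Δᵀ w` with
  `|Δᵀ w| ≤ η √N |w|`, `|σ - P_i σ| ≤ √N`, `2|w| ≤ 1 + |w|²`.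
* `gb_offdiag`: flip the sign of row `b` (left multiplication by a diagonal sign matrix preserves
  `haar`, `logZ`, the Gibbs weights).  `gb_diag`: swap rows in the same class; `Σ_a x_a² = N`.
-/

set_option autoImplicit false

open MeasureTheory ProbabilityTheory Finset Matrix

namespace Crest.Agent.R164

theorem gauss_sets {α β : Type} [Fintype α] [Fintype β] {A B : Set (α → β → ℝ)}
    (hA : MeasurableSet A) (hB : MeasurableSet B) {d : ℝ}
    (h : ∀ x ∈ A, ∀ y ∈ B, d ≤ ∑ a, ∑ b, (x a b - y a b) ^ 2) :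
    (Lev.μ : Measure (α → β → ℝ)).real A * (Lev.μ : Measure (α → β → ℝ)).real B ≤
      Real.exp (-d / 4) := by
  have h1 := (plg_real.pi β).pi α (A.indicator 1) (B.indicator 1)
    (fun _ => ENNReal.ofReal (Real.exp (-d / 8))) (measurable_one.indicator hA)
    (measurable_one.indicator hB) measurable_const fun x y => by
      by_cases hx : x ∈ A
      · by_cases hy : y ∈ B
        · rw [Set.indicator_of_mem hx, Set.indicator_of_mem hy, Pi.one_apply, Pi.one_apply, one_mul,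
            one_mul, ← ENNReal.ofReal_pow (Real.exp_pos _).le, sq (Real.exp _), ← Real.exp_add]
          exact ENNReal.ofReal_le_ofReal (Real.exp_le_exp.2 (by linarith [h x hx y hy]))
        · simp [hy]
      · simp [hx]
  rw [lintegral_indicator_one hA, lintegral_indicator_one hB, lintegral_const, measure_univ, mul_one,
    ← ENNReal.ofReal_pow (Real.exp_pos _).le, sq (Real.exp _), ← Real.exp_add,
    show -d / 8 + -d / 8 = -d / 4 by ring] at h1
  rw [Measure.real, Measure.real, ← ENNReal.toReal_mul]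
  exact ENNReal.toReal_le_of_le_ofReal (Real.exp_pos _).le h1

/-- Each of the first `n` rows is at squared distance `≥ d` from the span of the others. -/
def GoodG {N : ℕ} (n : ℕ) (d : ℝ) (G : Fin N → Fin N → ℝ) : Prop :=
  ∀ a : Fin N, (a : ℕ) < n → ∀ c : Fin N → ℝ, c a = 1 → (∀ b : Fin N, n ≤ b → c b = 0) →
    d ≤ ∑ r, (∑ b, c b * G b r) ^ 2

lemma c1_QR {N : ℕ} (G : Fin N → Fin N → ℝ) : ∃ (U : Orth (Fin N)) (S : Fin N → Fin N → ℝ),
    (∀ a b, a < b → S a b = 0) ∧ ∀ a r, G a r = ∑ b, S a b * U.1 b r := by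
  let f : Fin N → EuclideanSpace ℝ (Fin N) := fun a => WithLp.toLp 2 (G a)
  let e := InnerProductSpace.gramSchmidtOrthonormalBasis (𝕜 := ℝ) (by simp) f
  have hU : (Matrix.of fun b r => e b r) * (Matrix.of fun b r => e b r)ᵀ = 1 := by
    ext b c
    have := orthonormal_iff_ite.1 e.orthonormal c b
    simp only [PiLp.inner_apply, RCLike.inner_apply, conj_trivial] at this
    simp only [Matrix.mul_apply, Matrix.transpose_apply, Matrix.of_apply, Matrix.one_apply, this,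
      eq_comm]
  refine ⟨⟨_, (Matrix.mem_orthogonalGroup_iff _ ℝ).2 hU⟩, fun a b => e.repr (f a) b,
    fun a b hab => InnerProductSpace.gramSchmidtOrthonormalBasis_inv_triangular' _ f hab,
    fun a r => ?_⟩
  have := congrArg (fun v : EuclideanSpace ℝ (Fin N) => v r) (e.sum_repr (f a))
  simpa [f] using this.symm

lemma c1_row {N : ℕ} (U : Orth (Fin N)) (s : Fin N → ℝ) :
    U.1 *ᵥ (fun r => ∑ b, s b * U.1 b r) = s := by
  have e : (fun r => ∑ b, s b * U.1 b r) = U.1ᵀ *ᵥ s := by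
    funext r
    simp only [Matrix.mulVec, dotProduct, Matrix.transpose_apply, mul_comm]
  rw [e, Matrix.mulVec_mulVec, U.mul_transpose, Matrix.one_mulVec]

theorem bad_prob {N n k : ℕ} (h : n + k ≤ N) :
    (Lev.μ : Measure (Fin N → Fin N → ℝ)).real {G | ¬GoodG n (k / 8) G} ≤
      N * Real.exp (-(k : ℝ) / 4) := by
  let Ev : Fin N → Set (Fin N → Fin N → ℝ) := fun a => {G | (a : ℕ) < n ∧ ∃ c : Fin N → ℝ,
    c a = 1 ∧ (∀ b : Fin N, n ≤ b → c b = 0) ∧ ∑ r, (∑ b, c b * G b r) ^ 2 < k / 8}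
  have hm : ∀ a, MeasurableSet (Ev a) := fun a => by
    refine IsOpen.measurableSet ?_
    have e : Ev a = ⋃ c : {c : Fin N → ℝ // (a : ℕ) < n ∧ c a = 1 ∧ ∀ b : Fin N, n ≤ b → c b = 0},
        {G | ∑ r, (∑ b, c.1 b * G b r) ^ 2 < k / 8} := by
      ext G
      simp only [Ev, Set.mem_ofPred_eq, Set.mem_iUnion, Subtype.exists, exists_prop]
      exact ⟨fun ⟨h1, c, h2, h3, h4⟩ => ⟨c, ⟨h1, h2, h3⟩, h4⟩,
        fun ⟨c, ⟨h1, h2, h3⟩, h4⟩ => ⟨h1, c, h2, h3, h4⟩⟩
    rw [e]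
    exact isOpen_iUnion fun c => isOpen_lt (by fun_prop) continuous_const
  let T : Finset (Fin N) := univ.filter fun r => n ≤ r
  have hT : (k : ℝ) ≤ T.card := by
    have h1 := Finset.card_filter_add_card_filter_not (s := (univ : Finset (Fin N)))
      fun r => n ≤ (r : ℕ)
    have h2 : (univ.filter fun r : Fin N => ¬n ≤ (r : ℕ)).card ≤ n := by
      simp only [not_le]
      rw [Fin.card_filter_val_lt]
      exact min_le_right _ _
    rw [Finset.card_univ, Fintype.card_fin] at h1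
    have : k ≤ T.card := by simp only [T]; omega
    exact_mod_cast this
  have hZ : MeasurableSet {z : Fin N → ℝ | ∑ r ∈ T, z r ^ 2 < (k : ℝ) / 8} :=
    measurableSet_lt (by fun_prop) measurable_const
  have key : ∀ a, (Lev.μ : Measure (Fin N → Fin N → ℝ)).real (Ev a) ≤ Real.exp (-(k : ℝ) / 4) := by
    intro a
    refine le_trans ?_ (c1_small T hT)
    refine ENNReal.toReal_mono (measure_ne_top _ _) ?_
    rw [← lintegral_indicator_one (hm a), ← mul_one (Lev.μ {z : Fin N → ℝ | _}),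
      ← measure_univ (μ := (Lev.μ : Measure (Fin N → Fin N → ℝ))), ← lintegral_const, μ_pi]
    refine lintegral_le_of_lmarginal_le {a} (measurable_one.indicator (hm a)) measurable_const
      fun x => ?_
    simp only [lmarginal_singleton, lintegral_const, measure_univ, mul_one]
    obtain ⟨U, S, hS, hx⟩ := c1_QR x
    rw [← (mp_gauss_mulVec U).measure_preimage hZ.nullMeasurableSet,
      ← lintegral_indicator_one ((mp_gauss_mulVec U).measurable hZ)]
    refine lintegral_mono fun y => ?_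
    by_cases hy : Function.update x a y ∈ Ev a
    swap
    · simp [hy]
    obtain ⟨ha, c, hc1, hc0, hc⟩ := hy
    have h1 : ∀ r ∈ T, (U.1 *ᵥ fun r => ∑ b, c b * Function.update x a y b r) r = (U.1 *ᵥ y) r := by
      intro r hr
      have e : (fun r => ∑ b, c b * Function.update x a y b r) =
          ∑ b, c b • Function.update x a y b := by
        funext r
        simp
      rw [e, Matrix.mulVec_sum, Finset.sum_apply, Finset.sum_eq_single a]
      · simp [hc1]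
      · intro b _ hb
        rw [Function.update_of_ne hb, Matrix.mulVec_smul, Pi.smul_apply, smul_eq_mul]
        rcases le_or_gt n b with h2 | h2
        · rw [hc0 b h2, zero_mul]
        · have h3 : x b = fun r => ∑ c, S b c * U.1 c r := funext (hx b)
          have h4 : n ≤ r := (Finset.mem_filter.1 hr).2
          rw [h3, c1_row, hS b r (by rw [Fin.lt_def]; omega), mul_zero]
      · simp
    have h2 : y ∈ (fun g : Fin N → ℝ => U.1 *ᵥ g) ⁻¹' {z | ∑ r ∈ T, z r ^ 2 < (k : ℝ) / 8} := by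
      show ∑ r ∈ T, (U.1 *ᵥ y) r ^ 2 < (k : ℝ) / 8
      rw [Finset.sum_congr rfl fun r hr => by rw [← h1 r hr]]
      refine lt_of_le_of_lt ?_ hc
      rw [← U.sum_sq_mulVec]
      exact Finset.sum_le_sum_of_subset_of_nonneg (Finset.subset_univ _) fun _ _ _ => sq_nonneg _
    rw [Set.indicator_of_mem h2]
    exact Set.indicator_le_self' (fun _ _ => zero_le_one) _
  have h1 := mom_union _ Ev key
  rw [Fintype.card_fin] at h1
  refine le_trans (measureReal_mono fun G hG => ?_) h1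
  simp only [GoodG, Set.mem_ofPred_eq, not_forall, not_le] at hG
  obtain ⟨a, ha, c, h2, h3, h4⟩ := hG
  exact ⟨a, ha, c, h2, h3, h4⟩

lemma GoodG.mul {N n : ℕ} {d : ℝ} {S : Fin N → Fin N → ℝ} (U : Orth (Fin N))
    (h : GoodG n d fun a r => ∑ b, S a b * U.1 b r) : GoodG n d S := by
  intro a ha c h1 h0
  refine (h a ha c h1 h0).trans (le_of_eq ?_)
  have e : ∀ r, ∑ b, c b * ∑ b', S b b' * U.1 b' r = ∑ b', (∑ b, c b * S b b') * U.1 b' r :=
    fun r => by
      simp only [Finset.mul_sum, Finset.sum_mul, mul_assoc]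
      exact Finset.sum_comm
  simp only [e]
  rw [← U.sum_sq_mulVec, c1_row]

theorem exists_QR {N : ℕ} (G : Fin N → Fin N → ℝ) : ∃ (U : Orth (Fin N)) (S : Fin N → Fin N → ℝ),
    (∀ a b, a < b → S a b = 0) ∧ ∀ a r, G a r = ∑ b, S a b * U.1 b r := c1_QR G

theorem exists_inv {N n : ℕ} {d : ℝ} (hd : 0 < d) {S : Fin N → Fin N → ℝ}
    (hS : ∀ a b, a < b → S a b = 0) (h : GoodG n d S) : ∃ T : Fin N → Fin N → ℝ,
    (∀ b a, b < a → T b a = 0) ∧
      (∀ b : Fin N, (b : ℕ) < n → ∀ c, ∑ a, T b a * S a c = if b = c then 1 else 0) ∧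
      (∀ b : Fin N, n ≤ b → ∀ a, T b a = 0) ∧ ∑ b, ∑ a, T b a ^ 2 ≤ N / d := by
  have hG : ∀ a : Fin N, (a : ℕ) < n → ∀ c : Fin N → ℝ, (∀ b : Fin N, n ≤ b → c b = 0) →
      d * c a ^ 2 ≤ ∑ r, (∑ b, c b * S b r) ^ 2 := by
    intro a ha c hc
    rcases eq_or_ne (c a) 0 with h0 | h0
    · rw [h0, zero_pow two_ne_zero, mul_zero]
      exact sum_nonneg fun _ _ => sq_nonneg _
    · have h1 := h a ha (fun b => (c a)⁻¹ * c b) (inv_mul_cancel₀ h0)
        fun b hb => by rw [hc b hb, mul_zero]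
      simp only [mul_assoc, ← mul_sum, mul_pow, inv_pow] at h1
      rwa [← div_eq_inv_mul, le_div_iff₀ (by positivity)] at h1
  let M : Matrix (Fin N) (Fin N) ℝ :=
    Matrix.of fun a c => if (a : ℕ) < n then S a c else if a = c then 1 else 0
  have hM : M.BlockTriangular OrderDual.toDual := fun a c hac => by
    have hac' : a < c := hac
    simp only [M, Matrix.of_apply, hS a c hac', if_neg hac'.ne, ite_self]
  have hinj : Function.Injective M.vecMulLinear := by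
    refine (injective_iff_map_eq_zero _).2 fun c hc => ?_
    have h1 : ∀ r, ∑ b, c b * M b r = 0 := fun r => congrFun hc r
    have h2 : ∀ r : Fin N, n ≤ r → c r = 0 := fun r hr => by
      rw [← h1 r, sum_eq_single r]
      · simp only [M, Matrix.of_apply, if_neg (not_lt.2 hr), if_true, mul_one]
      · intro b _ hb
        simp only [M, Matrix.of_apply, if_neg hb]
        split_ifs with hbn
        · rw [hS b r (Fin.lt_def.2 (by omega)), mul_zero]
        · exact mul_zero _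
      · exact fun h => absurd (mem_univ _) h
    have h3 : ∀ r, ∑ b, c b * S b r = 0 := fun r => by
      rw [← h1 r]
      refine sum_congr rfl fun b _ => ?_
      by_cases hb : (b : ℕ) < n
      · simp only [M, Matrix.of_apply, if_pos hb]
      · rw [h2 b (not_lt.1 hb), zero_mul, zero_mul]
    funext a
    by_cases ha : (a : ℕ) < n
    · have h4 := hG a ha c h2
      simp only [h3, ne_eq, OfNat.ofNat_ne_zero, not_false_eq_true, zero_pow, sum_const_zero] at h4
      exact pow_eq_zero_iff two_ne_zero |>.1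
        (le_antisymm (nonpos_of_mul_nonpos_right h4 hd) (sq_nonneg _))
    · exact h2 a (not_lt.1 ha)
  obtain ⟨_⟩ := (Matrix.vecMul_injective_iff_isUnit.1 hinj).nonempty_invertible
  have hT := Matrix.blockTriangular_inv_of_blockTriangular hM
  let T : Fin N → Fin N → ℝ := fun b a => if (b : ℕ) < n then M⁻¹ b a else 0
  have hT1 : ∀ b a, b < a → T b a = 0 := fun b a hba => by
    simp only [T, hT (show OrderDual.toDual a < OrderDual.toDual b from hba), ite_self]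
  have hT3 : ∀ b : Fin N, n ≤ b → ∀ a, T b a = 0 := fun b hb a => if_neg (not_lt.2 hb)
  have hT4 : ∀ b a : Fin N, n ≤ a → T b a = 0 := fun b a ha => by
    by_cases hb : (b : ℕ) < n
    · exact hT1 b a (Fin.lt_def.2 (by omega))
    · exact hT3 b (not_lt.1 hb) a
  have hT2 : ∀ b : Fin N, (b : ℕ) < n → ∀ c, ∑ a, T b a * S a c = if b = c then 1 else 0 := by
    intro b hb c
    rw [← Matrix.one_apply, ← Matrix.inv_mul_of_invertible M, Matrix.mul_apply]
    refine sum_congr rfl fun a _ => ?_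
    by_cases ha : (a : ℕ) < n
    · simp only [T, M, Matrix.of_apply, if_pos ha, if_pos hb]
    · have := hT4 b a (not_lt.1 ha)
      rw [this, zero_mul]
      simp only [T, if_pos hb] at this
      rw [this, zero_mul]
  refine ⟨T, hT1, hT2, hT3, ?_⟩
  rw [sum_comm]
  refine (sum_le_card_nsmul _ _ (1 / d) fun a _ => ?_).trans_eq (by simp [div_eq_mul_inv])
  by_cases ha : (a : ℕ) < n
  · have h1 := hG a ha (fun e => ∑ b, T b a * T b e)
      fun e he => sum_eq_zero fun b _ => by rw [hT4 b e he, mul_zero]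
    have h2 : ∀ r, ∑ e, (∑ b, T b a * T b e) * S e r = T r a := fun r => by
      simp only [sum_mul, mul_assoc]
      rw [sum_comm, sum_eq_single r]
      · rw [← mul_sum]
        by_cases hr : (r : ℕ) < n
        · rw [hT2 r hr, if_pos rfl, mul_one]
        · rw [hT3 r (not_lt.1 hr), zero_mul]
      · intro b _ hb
        rw [← mul_sum]
        by_cases hr : (b : ℕ) < n
        · rw [hT2 b hr, if_neg hb, mul_zero]
        · rw [hT3 b (not_lt.1 hr), zero_mul]
      · exact fun h => absurd (mem_univ _) h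
    simp only [h2, ← sq] at h1
    have h3 : 0 ≤ ∑ b, T b a ^ 2 := sum_nonneg fun _ _ => sq_nonneg _
    rw [le_div_iff₀ hd]
    by_contra hc
    nlinarith
  · rw [sum_eq_zero fun b _ => by rw [hT4 b a (not_lt.1 ha), zero_pow two_ne_zero]]
    positivity

/-- Gap below the `i`-th eigenvalue (`0` for the last one). -/
noncomputable def gap {N : ℕ} (eig : Fin N → ℝ) (i : Fin N) : ℝ :=
  if h : (i : ℕ) + 1 < N then eig i - eig ⟨i + 1, h⟩ else 0
/-- The weighted coefficient norm. -/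
noncomputable def Wt {N : ℕ} (eig : Fin N → ℝ) (T : Fin N → Fin N → ℝ) (x : Fin N → ℝ) : ℝ :=
  ∑ i, gap eig i * ∑ a, (∑ b ∈ univ.filter (· ≤ i), x b * T b a) ^ 2

lemma gap_nonneg {N : ℕ} {eig : Fin N → ℝ} (h : Antitone eig) (i : Fin N) : 0 ≤ gap eig i := by
  unfold gap
  split_ifs
  · exact sub_nonneg.2 (h (Nat.le_succ _))
  · exact le_rfl
lemma c3_tel {N : ℕ} (hN : N - 1 < N) (eig : Fin N → ℝ) (a : Fin N) :
    ∑ i, (if a ≤ i then gap eig i else 0) = eig a - eig ⟨N - 1, hN⟩ := by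
  let g : ℕ → ℝ := fun i => eig ⟨min (max a i) (N - 1), by omega⟩
  have h : ∀ i : Fin N, (if a ≤ i then gap eig i else 0) = g i - g (i + 1) := fun i => by
    have h1 := i.2
    have h2 := a.2
    simp only [gap, g, Fin.le_def]
    split_ifs
    · refine congrArg₂ _ (congrArg _ (Fin.ext ?_)) (congrArg _ (Fin.ext ?_)) <;> dsimp only <;> omega
    · rw [eq_comm, sub_eq_zero]
      congr 2
      omega
    · rw [eq_comm, sub_eq_zero]
      congr 2
      omega
  rw [sum_congr rfl fun i _ => h i, Fin.sum_univ_eq_sum_range (fun i => g i - g (i + 1)),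
    sum_range_sub']
  have h2 := a.2
  simp only [g]
  congr 3 <;> omega
lemma sum_gap_le {N : ℕ} {eig : Fin N → ℝ} {Λ : ℝ} (hΛ0 : 0 ≤ Λ) (hΛ : ∀ a, |eig a| ≤ Λ) :
    ∑ i, gap eig i ≤ 2 * Λ := by
  rcases Nat.eq_zero_or_pos N with rfl | hN
  · simp [hΛ0]
  · have h := c3_tel (by omega) eig ⟨0, hN⟩
    simp only [Fin.le_def, zero_le, if_true] at h
    rw [h]
    linarith [(abs_le.1 (hΛ ⟨0, hN⟩)).2, (abs_le.1 (hΛ ⟨N - 1, by omega⟩)).1]

lemma c3_abel {N : ℕ} (hN : N - 1 < N) (eig x : Fin N → ℝ) :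
    ∑ a, eig a * x a ^ 2 = eig ⟨N - 1, hN⟩ * ∑ a, x a ^ 2 +
      ∑ i, gap eig i * ∑ a, if a ≤ i then x a ^ 2 else 0 := by
  simp only [mul_sum]
  rw [sum_comm, ← sum_add_distrib]
  refine sum_congr rfl fun a _ => ?_
  have h := c3_tel hN eig a
  rw [eq_sub_iff_add_eq'] at h
  rw [← h, add_mul, sum_mul]
  simp only [mul_ite, ite_mul, mul_zero, zero_mul]

lemma c3_norm {N : ℕ} (U : Orth (Fin N)) (u : Fin N → ℝ) : (u ᵥ* U.1) ⬝ᵥ (u ᵥ* U.1) = u ⬝ᵥ u := by
  rw [← Matrix.dotProduct_mulVec, ← Matrix.mulVec_transpose, Matrix.mulVec_mulVec,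
    Orth.mul_transpose, Matrix.one_mulVec]

lemma c3_key {N : ℕ} {η : ℝ} (hη : 0 ≤ η) (hη1 : η ≤ 1) (U U' : Orth (Fin N))
    {s ξ u w : Fin N → ℝ} {Δ : Fin N → Fin N → ℝ} (hs : s ⬝ᵥ s = N)
    (hΔ : ∑ a, ∑ r, Δ a r ^ 2 ≤ η ^ 2 * N) (hξ : ξ ⬝ᵥ (U.1 *ᵥ s) = ξ ⬝ᵥ ξ)
    (he : ∀ r, ∑ a, w a * Δ a r = (ξ ᵥ* U.1) r - (u ᵥ* U'.1) r) :
    ξ ⬝ᵥ ξ - N * η * (1 + 2 * ∑ a, w a ^ 2) ≤ 2 * (u ⬝ᵥ (U'.1 *ᵥ s)) - u ⬝ᵥ u := by
  rw [← c3_norm U' u, Matrix.dotProduct_mulVec]
  rw [Matrix.dotProduct_mulVec, ← c3_norm U ξ] at hξ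
  rw [← c3_norm U ξ]
  obtain ⟨e, he'⟩ : ∃ e, e = ξ ᵥ* U.1 - u ᵥ* U'.1 := ⟨_, rfl⟩
  have hy : u ᵥ* U'.1 = ξ ᵥ* U.1 - e := by rw [he', sub_sub_cancel]
  have hW : 0 ≤ ∑ a, w a ^ 2 := sum_nonneg fun _ _ => sq_nonneg _
  have hN : (0 : ℝ) ≤ N := Nat.cast_nonneg N
  have h1 : ∑ r, e r ^ 2 ≤ (∑ a, w a ^ 2) * (η ^ 2 * N) := by
    refine le_trans ?_ (mul_le_mul_of_nonneg_left hΔ hW)
    rw [sum_comm, mul_sum]
    refine sum_le_sum fun r _ => ?_
    rw [he', Pi.sub_apply, ← he]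
    exact sum_mul_sq_le_sq_mul_sq _ _ _
  rw [hy]
  generalize ξ ᵥ* U.1 = p at hξ ⊢
  generalize ∑ a, w a ^ 2 = W at h1 hW ⊢
  have h2 : ∑ r, (s - p) r ^ 2 ≤ N := by
    have e1 : ∑ r, (s - p) r ^ 2 = (s - p) ⬝ᵥ (s - p) := by simp only [dotProduct, sq]
    have e2 : 0 ≤ p ⬝ᵥ p := by
      simp only [dotProduct]
      exact sum_nonneg fun _ _ => mul_self_nonneg _
    rw [e1, sub_dotProduct, dotProduct_sub, dotProduct_sub, dotProduct_comm s p]
    linarith
  have h3 : e ⬝ᵥ (s - p) ≤ N * η * (1 + W) / 2 := by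
    refine abs_le_of_sq_le_sq' ?_ (by positivity) |>.2
    refine (sum_mul_sq_le_sq_mul_sq _ _ _).trans ((mul_le_mul h1 h2
      (sum_nonneg fun _ _ => sq_nonneg _) (by positivity)).trans ?_)
    nlinarith [mul_nonneg (sq_nonneg (N * η)) (sq_nonneg (1 - W))]
  have h4 : e ⬝ᵥ e ≤ N * η * W := by
    have e1 : e ⬝ᵥ e = ∑ r, e r ^ 2 := by simp only [dotProduct, sq]
    nlinarith [mul_nonneg (mul_nonneg (mul_nonneg hN hη) hW) (sub_nonneg.2 hη1)]
  rw [dotProduct_sub] at h3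
  rw [sub_dotProduct, sub_dotProduct, dotProduct_sub, dotProduct_sub, dotProduct_comm p e]
  linarith

theorem quad_lower {N n : ℕ} {eig : Fin N → ℝ} {Λ η : ℝ} (hanti : Antitone eig)
    (hmin : ∀ a b : Fin N, n ≤ a → eig a ≤ eig b) (hΛ0 : 0 ≤ Λ) (hΛ : ∀ a, |eig a| ≤ Λ)
    (hη : 0 ≤ η) (hη1 : η ≤ 1) {S S' T : Fin N → Fin N → ℝ} (hS' : ∀ a b, a < b → S' a b = 0)
    (hT : ∀ b a, b < a → T b a = 0)
    (hTS : ∀ b : Fin N, (b : ℕ) < n → ∀ c, ∑ a, T b a * S a c = if b = c then 1 else 0)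
    (U U' : Orth (Fin N))
    (hΔ : ∑ a, ∑ r, (∑ b, S a b * U.1 b r - ∑ b, S' a b * U'.1 b r) ^ 2 ≤ η ^ 2 * N)
    (σ : Fin N → Bool) :
    ∑ a, eig a * (U.1 *ᵥ spn σ) a ^ 2 - 2 * N * η * (Λ + Wt eig T (U.1 *ᵥ spn σ)) ≤
      ∑ a, eig a * (U'.1 *ᵥ spn σ) a ^ 2 := by
  rcases Nat.eq_zero_or_pos N with rfl | hN
  · simp
  have hN' : N - 1 < N := by omega
  have hs : spn σ ⬝ᵥ spn σ = N := by simp [dotProduct, spn]
  rw [c3_abel hN', c3_abel hN', Orth.sum_sq_mulVec, Orth.sum_sq_mulVec]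
  generalize spn σ = s at hs ⊢
  have key : ∀ i : Fin N, gap eig i * (∑ a, if a ≤ i then (U.1 *ᵥ s) a ^ 2 else 0) ≤
      gap eig i * (∑ a, if a ≤ i then (U'.1 *ᵥ s) a ^ 2 else 0) + (N * η * gap eig i + 2 * N * η *
        (gap eig i * ∑ a, (∑ b ∈ univ.filter (· ≤ i), (U.1 *ᵥ s) b * T b a) ^ 2)) := by
    intro i
    have hg := gap_nonneg hanti i
    by_cases hi : (i : ℕ) < n
    swap
    · have : gap eig i = 0 := by
        refine le_antisymm ?_ hg
        unfold gap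
        split_ifs
        · exact sub_nonpos.2 (hmin _ _ (not_lt.1 hi))
        · exact le_rfl
      simp [this]
    set ξ : Fin N → ℝ := fun b => if b ≤ i then (U.1 *ᵥ s) b else 0 with hξ
    set w : Fin N → ℝ := fun a => ∑ b ∈ univ.filter (· ≤ i), (U.1 *ᵥ s) b * T b a with hw
    set u : Fin N → ℝ := fun c => ∑ a, w a * S' a c with hu
    have hw0 : ∀ a, i < a → w a = 0 := fun a ha => sum_eq_zero fun b hb => by
      rw [hT b a ((mem_filter.1 hb).2.trans_lt ha), mul_zero]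
    have hu0 : ∀ c, i < c → u c = 0 := fun c hc => sum_eq_zero fun a _ => by
      rcases lt_or_ge i a with h | h
      · rw [hw0 a h, zero_mul]
      · rw [hS' a c (h.trans_lt hc), mul_zero]
    have hwS : ∀ c, ∑ a, w a * S a c = ξ c := fun c => by
      simp only [hw, hξ, sum_mul, mul_assoc]
      rw [sum_comm]
      rw [sum_congr rfl fun b hb => by
        rw [← mul_sum, hTS b (lt_of_le_of_lt (mem_filter.1 hb).2 hi) c]]
      simp
    have h1 := c3_key hη hη1 U U' (ξ := ξ) (u := u) (w := w) hs hΔ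
      (sum_congr rfl fun b _ => by simp only [hξ]; split_ifs <;> simp) fun r => by
        simp only [mul_sub, sum_sub_distrib, Matrix.vecMul, dotProduct, ← hwS, hu, sum_mul,
          mul_sum, mul_assoc]
        rw [sum_comm, sum_comm (f := fun a b => w a * (S' a b * U'.1 b r))]
    have h2 : ξ ⬝ᵥ ξ = ∑ a, if a ≤ i then (U.1 *ᵥ s) a ^ 2 else 0 :=
      sum_congr rfl fun b _ => by simp only [hξ]; split_ifs <;> simp [sq]
    have h3 : 2 * (u ⬝ᵥ (U'.1 *ᵥ s)) - u ⬝ᵥ u ≤ ∑ a, if a ≤ i then (U'.1 *ᵥ s) a ^ 2 else 0 := by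
      simp only [dotProduct]
      rw [mul_sum, ← sum_sub_distrib]
      refine sum_le_sum fun c _ => ?_
      split_ifs with h
      · nlinarith [sq_nonneg (u c - (U'.1 *ᵥ s) c)]
      · simp [hu0 c (not_le.1 h)]
    have h4 := mul_le_mul_of_nonneg_left (h1.trans h3) hg
    rw [h2] at h4
    linarith
  have h1 := sum_le_sum fun i (_ : i ∈ univ) => key i
  simp only [sum_add_distrib, ← mul_sum] at h1
  have h2 := mul_le_mul_of_nonneg_left (sum_gap_le hΛ0 hΛ) (mul_nonneg (Nat.cast_nonneg N) hη)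
  simp only [Wt]
  linarith

variable {ι : Type} [Fintype ι] [DecidableEq ι]

/-- Gibbs average at fixed `U`. -/
noncomputable def gb (lamv : ι → ℝ) (V : (ι → Bool) → ℝ) (U : Orth ι) (f : (ι → Bool) → ℝ) : ℝ :=
  (∑ σ, f σ * Real.exp ((∑ a, lamv a * (U.1 *ᵥ spn σ) a ^ 2) / 2 + V σ)) /
    ∑ σ : ι → Bool, Real.exp ((∑ a, lamv a * (U.1 *ᵥ spn σ) a ^ 2) / 2 + V σ)

/-- Jensen. -/
lemma logZ_jensen (lamv : ι → ℝ) (V : (ι → Bool) → ℝ) (U U' : Orth ι) (f : (ι → Bool) → ℝ)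
    (h : ∀ σ, ∑ a, lamv a * (U.1 *ᵥ spn σ) a ^ 2 - 2 * f σ ≤ ∑ a, lamv a * (U'.1 *ᵥ spn σ) a ^ 2) :
    logZ lamv V U - gb lamv V U f ≤ logZ lamv V U' := by
  have hZ : 0 < ∑ σ : ι → Bool, Real.exp ((∑ a, lamv a * (U.1 *ᵥ spn σ) a ^ 2) / 2 + V σ) :=
    Finset.sum_pos (fun _ _ => Real.exp_pos _) univ_nonempty
  have h1 : ∑ σ, f σ * Real.exp ((∑ a, lamv a * (U.1 *ᵥ spn σ) a ^ 2) / 2 + V σ) =
      gb lamv V U f * ∑ σ : ι → Bool, Real.exp ((∑ a, lamv a * (U.1 *ᵥ spn σ) a ^ 2) / 2 + V σ) := by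
    rw [gb, div_mul_cancel₀ _ hZ.ne']
  generalize gb lamv V U f = m at *
  have h2 : ∀ σ, Real.exp (-m) *
      (Real.exp ((∑ a, lamv a * (U.1 *ᵥ spn σ) a ^ 2) / 2 + V σ) * (1 + m) -
        f σ * Real.exp ((∑ a, lamv a * (U.1 *ᵥ spn σ) a ^ 2) / 2 + V σ)) ≤
      Real.exp ((∑ a, lamv a * (U'.1 *ᵥ spn σ) a ^ 2) / 2 + V σ) := fun σ => by
    have h3 := Real.add_one_le_exp (m - f σ)
    calc _ = Real.exp (-m) * Real.exp ((∑ a, lamv a * (U.1 *ᵥ spn σ) a ^ 2) / 2 + V σ) *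
          (m - f σ + 1) := by ring
      _ ≤ Real.exp (-m) * Real.exp ((∑ a, lamv a * (U.1 *ᵥ spn σ) a ^ 2) / 2 + V σ) *
          Real.exp (m - f σ) := by gcongr
      _ ≤ _ := by
        rw [← Real.exp_add, ← Real.exp_add]
        exact Real.exp_le_exp.2 (by linarith [h σ])
  have h3 := Finset.sum_le_sum fun σ (_ : σ ∈ univ) => h2 σ
  rw [← Finset.mul_sum, Finset.sum_sub_distrib, ← Finset.sum_mul, h1] at h3
  have hc : (0 : ℝ) < (1 / 2) ^ Fintype.card ι := by positivity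
  unfold logZ
  rw [sub_eq_add_neg, ← Real.log_exp (-m), ← Real.log_mul (mul_pos hc hZ).ne' (Real.exp_pos _).ne']
  refine Real.log_le_log (mul_pos (mul_pos hc hZ) (Real.exp_pos _)) ?_
  rw [mul_assoc]
  exact mul_le_mul_of_nonneg_left (by linarith) hc.le
lemma continuous_gb (lamv : ι → ℝ) (V : (ι → Bool) → ℝ) {f : Orth ι → (ι → Bool) → ℝ}
    (hf : ∀ σ, Continuous fun U => f U σ) : Continuous fun U => gb lamv V U (f U) := by
  have h1 : ∀ σ : ι → Bool, Continuous fun U : Orth ι =>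
      Real.exp ((∑ a, lamv a * (U.1 *ᵥ spn σ) a ^ 2) / 2 + V σ) := fun σ => by
    have := mom_cont (spn σ)
    fun_prop
  exact (continuous_finsetSum _ fun σ _ => (hf σ).fun_mul (h1 σ)).div
    (continuous_finsetSum _ fun σ _ => h1 σ)
    fun U => (Finset.sum_pos (fun _ _ => Real.exp_pos _) univ_nonempty).ne'
lemma c1_perm (π : ι ≃ ι) (ε : ι → ℝ) (hε : ∀ a, ε a ^ 2 = 1) :
    ∃ B : Orth ι, ∀ x : ι → ℝ, B.1 *ᵥ x = fun a => ε a * x (π a) := by
  have h : ∀ x : ι → ℝ, (Matrix.of fun a c => if c = π a then ε a else 0) *ᵥ x =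
      fun a => ε a * x (π a) := fun x => by
    funext a
    simp [Matrix.mulVec, dotProduct]
  refine ⟨Orth.mk' _ (orth_of_sum_sq _ fun v => ?_), h⟩
  simp only [h, mul_pow, hε, one_mul]
  exact π.sum_comp fun a => v a ^ 2
lemma c1_inv (lamv : ι → ℝ) (V : (ι → Bool) → ℝ) (A : ℝ) (π : ι ≃ ι) (ε : ι → ℝ)
    (hε : ∀ a, ε a ^ 2 = 1) (hπ : ∀ a, lamv (π a) = lamv a) (F : (ι → ℝ) → ℝ) :
    ∫ U in {U | A ≤ logZ lamv V U}, gb lamv V U (fun σ => F (U.1 *ᵥ spn σ)) ∂haar ι =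
      ∫ U in {U | A ≤ logZ lamv V U},
        gb lamv V U (fun σ => F fun a => ε a * (U.1 *ᵥ spn σ) (π a)) ∂haar ι := by
  obtain ⟨B, hB⟩ := c1_perm π ε hε
  have hS : MeasurableSet {U | A ≤ logZ lamv V U} :=
    measurableSet_le measurable_const (measurable_logZ lamv V)
  have e : ∀ (U : Orth ι) (v : ι → ℝ), (B * U).1 *ᵥ v = fun a => ε a * (U.1 *ᵥ v) (π a) :=
    fun U v => by rw [← hB, Matrix.mulVec_mulVec]; rfl
  have e2 : ∀ x : ι → ℝ, ∑ a, lamv a * (ε a * x (π a)) ^ 2 = ∑ a, lamv a * x a ^ 2 := fun x => by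
    rw [← π.sum_comp fun a => lamv a * x a ^ 2]
    simp only [mul_pow, hε, one_mul, hπ]
  rw [← integral_indicator hS, ← integral_indicator hS, ← integral_mul_left_eq_self _ B]
  refine integral_congr_ae (ae_of_all _ fun U => ?_)
  have e3 : logZ lamv V (B * U) = logZ lamv V U := by simp only [logZ, e, e2]
  simp only [Set.indicator, Set.mem_ofPred_eq, e3, gb, e, e2]
theorem gb_offdiag (lamv : ι → ℝ) (V : (ι → Bool) → ℝ) (A : ℝ) {b b' : ι} (h : b ≠ b') :
    ∫ U in {U | A ≤ logZ lamv V U},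
      gb lamv V U (fun σ => (U.1 *ᵥ spn σ) b * (U.1 *ᵥ spn σ) b') ∂haar ι = 0 := by
  have h1 := c1_inv lamv V A (Equiv.refl ι) (fun a => if a = b then -1 else 1)
    (fun a => by split_ifs <;> norm_num) (fun _ => rfl) fun x => x b * x b'
  simp only [if_true, if_neg h.symm, Equiv.refl_apply, neg_mul, one_mul, gb, Finset.sum_neg_distrib,
    neg_div, integral_neg] at h1
  simp only [gb]
  linarith
theorem gb_diag (lamv : ι → ℝ) (V : (ι → Bool) → ℝ) (A : ℝ) (b : ι) :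
    (ct lamv (lamv b) : ℝ) * ∫ U in {U | A ≤ logZ lamv V U},
      gb lamv V U (fun σ => (U.1 *ᵥ spn σ) b ^ 2) ∂haar ι ≤
      Fintype.card ι * (haar ι).real {U | A ≤ logZ lamv V U} := by
  have hc : ∀ c, Continuous fun U : Orth ι => gb lamv V U fun σ => (U.1 *ᵥ spn σ) c ^ 2 := fun c =>
    continuous_gb lamv V fun σ => (mom_cont (spn σ) c).fun_pow 2
  have h0 : ∀ c, 0 ≤ ∫ U in {U | A ≤ logZ lamv V U},
      gb lamv V U (fun σ => (U.1 *ᵥ spn σ) c ^ 2) ∂haar ι := fun c =>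
    integral_nonneg fun U => div_nonneg
      (Finset.sum_nonneg fun _ _ => mul_nonneg (sq_nonneg _) (Real.exp_pos _).le)
      (Finset.sum_nonneg fun _ _ => (Real.exp_pos _).le)
  have h1 : ∀ c ∈ univ.filter fun c => lamv c = lamv b,
      ∫ U in {U | A ≤ logZ lamv V U}, gb lamv V U (fun σ => (U.1 *ᵥ spn σ) b ^ 2) ∂haar ι =
      ∫ U in {U | A ≤ logZ lamv V U}, gb lamv V U (fun σ => (U.1 *ᵥ spn σ) c ^ 2) ∂haar ι := by
    intro c hcb
    have h2 := c1_inv lamv V A (Equiv.swap b c) (fun _ => 1) (fun _ => one_pow 2)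
      (fun a => Equiv.apply_swap_eq_self (Finset.mem_filter.1 hcb).2.symm a) fun x => x b ^ 2
    simpa only [one_mul, Equiv.swap_apply_left] using h2
  have h2 : ∀ U : Orth ι, ∑ c, gb lamv V U (fun σ => (U.1 *ᵥ spn σ) c ^ 2) = Fintype.card ι :=
    fun U => by
      have hZ : 0 < ∑ σ : ι → Bool, Real.exp ((∑ a, lamv a * (U.1 *ᵥ spn σ) a ^ 2) / 2 + V σ) :=
        Finset.sum_pos (fun _ _ => Real.exp_pos _) univ_nonempty
      simp only [gb]
      rw [← Finset.sum_div, Finset.sum_comm, div_eq_iff hZ.ne', Finset.mul_sum]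
      refine Finset.sum_congr rfl fun σ _ => ?_
      rw [← Finset.sum_mul, U.sum_sq_mulVec, sum_sq_spn]
  rw [ct, ← nsmul_eq_mul, ← Finset.sum_const, Finset.sum_congr rfl h1]
  refine (Finset.sum_le_sum_of_subset_of_nonneg (Finset.subset_univ _) fun c _ _ => h0 c).trans ?_
  rw [← integral_finsetSum _ fun c _ => (mom_int (hc c)).integrableOn]
  simp only [h2, integral_const, smul_eq_mul, measureReal_restrict_apply_univ]
  exact (mul_comm _ _).le

end Crest.Agent.R164
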