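import Crest.Agent.R164.Tails

/-!
# R164 / Conv: from tails to convergence, and the finite-alphabet statements

`law_eq`: modify `Us N` on a null set to get a measurable map to `Orth (Fin N)`; its law is right
invariant, so it is `haar` (`eq_haar_of_right`).  `conv_of_tails`: Borel–Cantelli
(`ae_eventually_notMem` / `measure_limsup_atTop_eq_zero`) for `η = 1/(k+1)`, then dominated convergence
along `atTop` (`tendsto_integral_filter_of_dominated_convergence`).
-/

set_option autoImplicit false

open MeasureTheory ProbabilityTheory Finset Filter Crest.ProbabilityR.InvariantGlass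

namespace Crest.Agent.R164

/-- The Haar hypotheses of the statements. -/
structure HaH {Ω : Type} [MeasurableSpace Ω] (P : Measure Ω)
    (Us : (N : ℕ) → Ω → (Fin N → Fin N → ℝ)) : Prop where
  meas : ∀ N, Measurable (Us N)
  orth : ∀ N, ∀ᵐ ω ∂P, Matrix.of (Us N ω) ∈ Matrix.orthogonalGroup (Fin N) ℝ
  inv : ∀ (N : ℕ) (O : Matrix (Fin N) (Fin N) ℝ), O ∈ Matrix.orthogonalGroup (Fin N) ℝ →
    P.map (fun ω => fun i j => (Matrix.of (Us N ω) * O) i j) = P.map (Us N)

variable {Ω : Type} [MeasurableSpace Ω] {P : Measure Ω} [IsProbabilityMeasure P]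
  {Us : (N : ℕ) → Ω → (Fin N → Fin N → ℝ)}

lemma law_eq (h : HaH P Us) (N : ℕ) : ∃ W : Ω → Orth (Fin N), MeasurePreserving W P (haar (Fin N)) ∧
    ∀ᵐ ω ∂P, (W ω).1 = Matrix.of (Us N ω) := by
  classical
  let W : Ω → Orth (Fin N) := fun ω =>
    if h : Matrix.of (Us N ω) ∈ Matrix.orthogonalGroup (Fin N) ℝ then ⟨_, h⟩ else 1
  have hS : MeasurableSet {ω | Matrix.of (Us N ω) ∈ Matrix.orthogonalGroup (Fin N) ℝ} := by
    have hc : IsClosed {x : Fin N → Fin N → ℝ | Matrix.of x ∈ Matrix.orthogonalGroup (Fin N) ℝ} :=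
      isClosed_unitary (R := Matrix (Fin N) (Fin N) ℝ)
    exact h.meas N hc.measurableSet
  have hW : Measurable W := Orth.measurable_of_entry fun a r => by
    have e : (fun ω => (W ω).1 a r) = fun ω =>
        if Matrix.of (Us N ω) ∈ Matrix.orthogonalGroup (Fin N) ℝ then Us N ω a r
        else (1 : Matrix (Fin N) (Fin N) ℝ) a r := by
      funext ω
      simp only [W]
      split_ifs <;> rfl
    rw [e]
    exact Measurable.ite hS ((measurable_pi_apply r).comp ((measurable_pi_apply a).comp (h.meas N)))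
      measurable_const
  have hae : ∀ᵐ ω ∂P, (W ω).1 = Matrix.of (Us N ω) := (h.orth N).mono fun ω hω => by
    simp only [W, dif_pos hω]
  let val : Orth (Fin N) → Fin N → Fin N → ℝ := fun U a r => U.1 a r
  have hv : MeasurableEmbedding val :=
    ((continuous_pi fun a => continuous_pi fun r => Orth.continuous_entry a r).isClosedEmbedding
      fun U V e => Subtype.ext (Matrix.ext fun a r => congrFun (congrFun e a) r)).measurableEmbedding
  have := Measure.isProbabilityMeasure_map (μ := P) hW.aemeasurable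
  refine ⟨W, ⟨hW, eq_haar_of_right _ fun O => hv.map_injective ?_⟩, hae⟩
  beta_reduce
  rw [Measure.map_map (measurable_mul_const O) hW, Measure.map_map hv.measurable hW,
    Measure.map_map hv.measurable ((measurable_mul_const O).comp hW)]
  have e1 : val ∘ W =ᵐ[P] Us N := hae.mono fun ω hω => by
    funext a r
    exact congrFun (congrFun hω a) r
  have e2 : val ∘ (fun x => x * O) ∘ W =ᵐ[P] fun ω i j => (Matrix.of (Us N ω) * O.1) i j :=
    hae.mono fun ω hω => by
      funext a r
      change ((W ω).1 * O.1) a r = (Matrix.of (Us N ω) * O.1) a r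
      rw [hω]
  rw [Measure.map_congr e1, Measure.map_congr e2, h.inv N O.1 O.2]

lemma conv_cont {N : ℕ} (eig c : Fin N → ℝ) :
    Continuous fun U : Matrix (Fin N) (Fin N) ℝ => pressureFieldN eig U c := by
  unfold pressureFieldN
  refine continuous_const.mul (Continuous.log ?_ fun U => ?_)
  · refine continuous_const.mul (continuous_finsetSum _ fun σ _ => Real.continuous_exp.comp ?_)
    refine (continuous_const.mul (continuous_finsetSum _ fun i _ => continuous_const.mul
      (Continuous.pow ?_ 2))).add continuous_const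
    exact (continuous_apply i).comp (continuous_id.matrix_mulVec continuous_const)
  · positivity

theorem conv_of_tails (h : HaH P Us) {eig c : (N : ℕ) → Fin N → ℝ} {F B : ℝ}
    (hB : ∀ᶠ N : ℕ in atTop, ∀ U : Orth (Fin N), |pressureFieldN (eig N) U.1 (c N)| ≤ B)
    (ht : ∀ η : ℝ, 0 < η → Tail eig c F η) :
    Tendsto (fun N : ℕ => ∫ ω, pressureFieldN (eig N) (Matrix.of (Us N ω)) (c N) ∂P) atTop (nhds F) ∧
      ∀ᵐ ω ∂P, Tendsto (fun N : ℕ => pressureFieldN (eig N) (Matrix.of (Us N ω)) (c N)) atTop
        (nhds F) := by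
  choose W hW hae using law_eq h
  have hall : ∀ᵐ ω ∂P, ∀ N, (W N ω).1 = Matrix.of (Us N ω) := ae_all_iff.2 hae
  have hm : ∀ N, Measurable fun U : Orth (Fin N) => pressureFieldN (eig N) U.1 (c N) := fun N =>
    ((conv_cont (eig N) (c N)).comp continuous_subtype_val).measurable
  have key : ∀ k : ℕ, ∀ᵐ ω ∂P, ∀ᶠ N : ℕ in atTop,
      |pressureFieldN (eig N) (W N ω).1 (c N) - F| < 1 / ((k : ℝ) + 1) := fun k => by
    obtain ⟨c₀, hc₀, h1⟩ := ht _ (Nat.one_div_pos_of_nat (α := ℝ) (n := k))
    set s : ℕ → Set Ω := fun N =>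
      {ω | 1 / ((k : ℝ) + 1) ≤ |pressureFieldN (eig N) (W N ω).1 (c N) - F|} with hs
    have h2 : Summable fun N => P.real (s N) := by
      refine Summable.of_norm_bounded_eventually_nat (g := fun N : ℕ => Real.exp (-c₀) ^ N)
        (summable_geometric_of_lt_one (Real.exp_pos _).le
          (Real.exp_lt_one_iff.2 (by linarith))) (h1.mono fun N hN => ?_)
      rw [Real.norm_of_nonneg measureReal_nonneg, ← Real.exp_nat_mul]
      have e := (hW N).measureReal_preimage (s := {U : Orth (Fin N) |
        1 / ((k : ℝ) + 1) ≤ |pressureFieldN (eig N) U.1 (c N) - F|})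
        (measurableSet_le measurable_const
          (continuous_abs.measurable.comp ((hm N).sub_const F))).nullMeasurableSet
      refine (le_of_eq e).trans (hN.trans (le_of_eq ?_))
      congr 1
      ring
    have h3 : ∑' N, P (s N) ≠ ⊤ := by
      have := h2.tsum_ofReal_ne_top
      simpa only [ofReal_measureReal (measure_ne_top P _)] using this
    exact (ae_eventually_notMem h3).mono fun ω hω => hω.mono fun N hN => not_le.1 hN
  have hlim : ∀ᵐ ω ∂P, Tendsto (fun N : ℕ => pressureFieldN (eig N) (Matrix.of (Us N ω)) (c N))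
      atTop (nhds F) := by
    filter_upwards [hall, ae_all_iff.2 key] with ω h1 h2
    refine Metric.tendsto_nhds.2 fun e he => ?_
    obtain ⟨k, hk⟩ := exists_nat_one_div_lt he
    exact (h2 k).mono fun N hN => by rw [Real.dist_eq, ← h1 N]; exact hN.trans hk
  refine ⟨?_, hlim⟩
  have := tendsto_integral_filter_of_dominated_convergence (μ := P) (fun _ => B)
    (Eventually.of_forall fun N => ?_) (hB.mono fun N hN => hall.mono fun ω hω => ?_)
    (integrable_const B) hlim
  · simpa using this
  · refine ((hm N).comp (hW N).measurable).aestronglyMeasurable.congr ((hae N).mono fun ω hω => ?_)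
    simp only [Function.comp, hω]
  · rw [← hω N]
    exact hN _

variable {μ : Measure ℝ} [IsProbabilityMeasure μ] {lamMinus lamPlus : ℝ} {eig : (N : ℕ) → Fin N → ℝ}

/-- S0248 (injectivity is not needed). -/
theorem main_fin (hs : SpH μ lamMinus lamPlus eig) (h : HaH P Us) {J : ℕ} (cval : Fin J → ℝ)
    {γ : Fin J → ℚ} (hγ : ∀ j, 0 < γ j) (hγs : ∑ j, γ j = 1) {lab : (N : ℕ) → Fin N → Fin J}
    (hp : ∀ j : Fin J, Tendsto
      (fun N : ℕ => ((univ.filter fun r : Fin N => lab N r = j).card : ℝ) / (N : ℝ))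
      atTop (nhds ((γ j : ℚ) : ℝ))) :
    ∃ F : ℝ, magneticValue μ lamPlus cval γ = (F : EReal) ∧
      Tendsto (fun N : ℕ => ∫ ω, pressureFieldN (eig N) (Matrix.of (Us N ω))
          (fun r => cval (lab N r)) ∂P) atTop (nhds F) ∧
      ∀ᵐ ω ∂P, Tendsto (fun N : ℕ => pressureFieldN (eig N) (Matrix.of (Us N ω))
          (fun r => cval (lab N r))) atTop (nhds F) := by
  obtain ⟨F, hF, ht⟩ := tails_fin hs hγ hγs hp cval
  obtain ⟨B, hB⟩ := pressure_bdd hs (c := fun N r => cval (lab N r)) (B := ∑ j, |cval j|)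
    (Eventually.of_forall fun N => by
      refine div_le_of_le_mul₀ (Nat.cast_nonneg N) (by positivity) ?_
      calc ∑ r, |cval (lab N r)| ≤ ∑ _r : Fin N, ∑ j, |cval j| :=
            Finset.sum_le_sum fun r _ => Finset.single_le_sum (f := fun j => |cval j|)
              (fun _ _ => abs_nonneg _) (mem_univ _)
        _ = _ := by simp [mul_comm])
  exact ⟨F, hF, conv_of_tails h hB ht⟩

/-- S0247 (`main_fin` with `J = 1`, `magneticValue_zero`, `pressure_zero`). -/
theorem main_zero (hs : SpH μ lamMinus lamPlus eig) (h : HaH P Us) :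
    ∃ F : ℝ, variationalValue μ lamPlus = (F : EReal) ∧
      Tendsto (fun N : ℕ => ∫ ω, pressureN (eig N) (Matrix.of (Us N ω)) ∂P) atTop (nhds F) ∧
      ∀ᵐ ω ∂P, Tendsto (fun N : ℕ => pressureN (eig N) (Matrix.of (Us N ω))) atTop (nhds F) := by
  obtain ⟨F, hF, h1⟩ := main_fin hs h (J := 1) (fun _ => 0) (γ := fun _ => 1) (fun _ => one_pos)
    (by simp) (lab := fun _ _ => 0) fun j => by
      refine tendsto_const_nhds.congr' ((eventually_gt_atTop 0).mono fun N hN => ?_)
      have : (N : ℝ) ≠ 0 := by positivity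
      simp [Subsingleton.elim j 0, this]
  simp only [pressure_zero] at h1
  exact ⟨F, (magneticValue_zero μ lamPlus).symm.trans hF, h1⟩

end Crest.Agent.R164
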