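import Crest.Agent.R164.Prp
import Crest.Agent.R164.Big
import Crest.Agent.R164.Ideal
import Crest.Agent.R164.ST
import Crest.Agent.R164.Super

/-!
# R164 / Dat: the three systems of the cavity step (definitions; do not edit)
-/

set_option autoImplicit false

open MeasureTheory ProbabilityTheory Finset Matrix

namespace Crest.Agent.R164

/-- Fixed data of the cavity step: `C` is the set of cavity spins. -/
structure Dat (κ J C : Type) [Fintype κ] [DecidableEq κ] [Fintype J] [DecidableEq J] [Fintype C] where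
  S : Spec κ
  γ : J → ℝ
  c : J → ℝ
  m : J → ℝ
  lC : C → κ
  fC : C → J
  γ_pos : ∀ j, 0 < γ j
  γ_sum : ∑ j, γ j = 1
  m_lt : ∀ j, |m j| < 1
  lC_ct : ∀ k, (ct lC k : ℝ) = S.ρ k * Fintype.card C
  fC_ct : ∀ j, (ct fC j : ℝ) = γ j * Fintype.card C
  pos : 0 < Fintype.card C

namespace Dat

variable {κ J C ϱ : Type} [Fintype κ] [DecidableEq κ] [Fintype J] [DecidableEq J] [Fintype C]
  [DecidableEq C] [Fintype ϱ] [DecidableEq ϱ] (D : Dat κ J C) {R : ℕ} [NeZero R] (A : ℝ)
  (labr : ϱ → κ) (fld : ϱ ⊕ C × κ → J) (px : κ → Fin R → ℝ) (y : J → ℝ)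

/-- The common system. -/
noncomputable def com : St R (YS (ϱ ⊕ C × κ)) → ℝ :=
  HL D.S.lam (lab0 labr D.S.k1) (Vm fld D.c D.m A y) 0 px
/-- The small system. -/
noncomputable def small : St R (YS (ϱ ⊕ C × κ)) → ℝ :=
  HL D.S.lam (labS labr D.S.k1 D.lC) (Vm fld D.c D.m A y) 0 px
/-- The big system. -/
noncomputable def big0 : St R (YS ((ϱ ⊕ C × κ) ⊕ C)) → ℝ :=
  HL D.S.lam (lab1 labr D.S.k1) (Vm (Sum.elim fld D.fC) D.c D.m A y) 0 px
/-- The big system with test fields on the cavity spins. -/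
noncomputable def big (uu : C → ℕ → ℝ) (β : C → ℝ) : St R (YS ((ϱ ⊕ C × κ) ⊕ C)) → ℝ :=
  bigH D.S labr (fun σ => Vm (Sum.elim fld D.fC) D.c D.m A y σ + ∑ r, β r * spn σ (Sum.inr r)) uu px
/-- Overlaps of the common system. -/
noncomputable def q0 : ℕ → ℝ := qt (ua R) (D.com A labr fld px y)
/-- Deviation of the magnetisation of group `j`. -/
noncomputable def dev (j : J) (σ : ϱ ⊕ C × κ → Bool) : ℝ :=
  (Sg fld j σ - D.m j * ct fld j) / Fintype.card (ϱ ⊕ C × κ)
/-- Mean deviation in the common system. -/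
noncomputable def dl (j : J) : ℝ := EE (ua R) (D.com A labr fld px y) fun s => D.dev fld j (cfg s)
/-- Effective field on cavity spins of group `j`. -/
noncomputable def bj (j : J) : ℝ := D.c j + y j - 2 * A * D.dl A labr fld px y j
/-- The constant produced by the magnetisation penalty. -/
noncomputable def c0 : ℝ := ∑ j, (A * Fintype.card C * D.dl A labr fld px y j ^ 2 +
  2 * A * D.dl A labr fld px y j * D.m j * ct D.fC j)
/-- The effective variances. -/
noncomputable def vv : ℕ → ℝ := D.S.dv (ua R) (D.q0 A labr fld px y)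
/-- The part common to both ideal values. -/
noncomputable def tB : ℝ := (∑ k, (1 - D.S.ρ k) * lgs D.S R (D.q0 A labr fld px y) k) / 2
/-- The spectral part of the big ideal value. -/
noncomputable def tA : ℝ := D.S.Rh 0 / 2 - (∑ l ∈ range R,
  (D.S.Lg (Dq (ua R) (D.q0 A labr fld px y) (l + 1)) - D.S.Lg (Dq (ua R) (D.q0 A labr fld px y) l)) /
    ua R l) / 2
/-- The common system has the structure needed for the cavity computation. -/
structure Good (ε : ℝ) : Prop where
  cav : cavErr (ua R) (D.com A labr fld px y) (Xb (lab0 labr D.S.k1) D.S.k1)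
    (D.S.ck (ua R) (D.q0 A labr fld px y) R D.S.k1) ≤ ε
  mag : ∀ j, EE (ua R) (D.com A labr fld px y)
    (fun s => |D.dev fld j (cfg s) - D.dl A labr fld px y j|) ≤ ε
/-- Crude comparison of the three systems on the box. -/
def Crude (R : ℕ) [NeZero R] (s K : ℝ) : Prop :=
  ∀ (px : κ → Fin R → ℝ) (y : J → ℝ), (∀ k l, |px k l| ≤ 3 * s) → (∀ j, |y j| ≤ 1) →
    |val (ua R) (D.small A labr fld px y) - val (ua R) (D.com A labr fld px y)| ≤ K ∧
      |val (ua R) (D.big0 A labr fld px y) - val (ua R) (D.com A labr fld px y)| ≤ K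
/-- Near maximiser of the penalised small system. -/
structure Near (s ε : ℝ) : Prop where
  box : Boxx s px
  yb : ∀ j, |y j| ≤ s
  le : av R s D.S.lam D.c D.m A (labS labr D.S.k1 D.lC) fld - ε ≤
    val (ua R) (D.small A labr fld px y) - Fintype.card (ϱ ⊕ C × κ) * (penx s px + peny s y)
/-- Both ideal formulas hold within `ε`. -/
structure Prec (ε : ℝ) : Prop where
  small : |val (ua R) (D.small A labr fld px y) - val (ua R) (D.com A labr fld px y) +
    Fintype.card C * D.tB A labr fld px y| ≤ ε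
  big : ∀ (uu : C → ℕ → ℝ) (β : C → ℝ), (∀ r l, 0 ≤ uu r l) → (∀ r, ∑ l ∈ range R, uu r l ≤ 1) →
    (∀ r, |β r| ≤ 1) →
    |val (ua R) (D.big A labr fld px y uu β) - val (ua R) (D.com A labr fld px y) -
      (D.c0 A labr fld px y +
        ∑ r, Ch (ua R) (fun l => D.vv A labr fld px y l + uu r l) R
          (D.bj A labr fld px y (D.fC r) + β r) +
        Fintype.card C * (D.tA A labr fld px y - D.tB A labr fld px y))| ≤ ε

lemma big_zero : D.big A labr fld px y 0 0 = D.big0 A labr fld px y := by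
  unfold big big0 bigH HL
  congr 1
  · funext σ; simp
  · funext l r; cases r <;> simp

lemma ml_com : ML (D.com A labr fld px y) := ml_HL _ _ _ _ _
lemma ml_small : ML (D.small A labr fld px y) := ml_HL _ _ _ _ _
lemma ml_big0 : ML (D.big0 A labr fld px y) := ml_HL _ _ _ _ _
lemma ml_big (uu : C → ℕ → ℝ) (β : C → ℝ) : ML (D.big A labr fld px y uu β) := by
  unfold big bigH; exact ml_Ham _ _ _ _

end Dat

end Crest.Agent.R164
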