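import Crest.Agent.R164.Stat

/-!
# R164 / Fix: the self-consistency relations and the value of one cavity step

`fix_q`: `Prec.big` at `uu = u·1_l` and at `0` (`big_zero`), `taylor_u`, `Ch_taylor_v`, `exch_ct`;
`Σ_r f (fC r) = M Σ_j γ_j f j` (`fC_ct`).
`fix_m`: `Prec.big` at `β = b·1_{fC = j}` and at `0`, `taylor_β`, `Ch_taylor_b`, `exch_mean`; `ct fC j ≥ 1`;
`EE com (Sg j) = N dl j + m j ct fld j`; with `n₀ = ct fld j ≥ γ₀ N`, `n₁ = n₀ + ct fC j`,
`|S₁/n₁ - S₀/n₀| ≤ (|S₁ - S₀| + M)/n₀` as `|S₁| ≤ n₁`.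
`cav_final`: `p = pth R (Σ_j γ_j osQ bs_j)` is a trial path (`isOv_osQ`), `pth_sum`, `supergradient` for
each `j`, `LBh`, `sum_dv_le`, `dv_nonneg`, `tl_pth`, `deficit_le`, `G_le`.
`cav_value`: `le_av` for the big system, `Near.le`, `Prec`, `cavity_identity`, `osc_le` at `bj j`.
-/

set_option autoImplicit false

open MeasureTheory ProbabilityTheory Finset Matrix

namespace Crest.Agent.R164

variable {κ J C ϱ : Type} [Fintype κ] [DecidableEq κ] [Fintype J] [DecidableEq J] [Fintype C]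
  [DecidableEq C] [Fintype ϱ] [DecidableEq ϱ] (D : Dat κ J C) {R : ℕ} [NeZero R] {A : ℝ}
  {labr : ϱ → κ} {fld : ϱ ⊕ C × κ → J} {px : κ → Fin R → ℝ} {y : J → ℝ}

lemma fx_sum {ι α : Type} [Fintype ι] [Fintype α] [DecidableEq α] (g : ι → α) (f : α → ℝ) :
    ∑ r, f (g r) = ∑ j, (ct g j : ℝ) * f j := by
  rw [← Finset.sum_fiberwise univ g]
  refine Finset.sum_congr rfl fun j _ => ?_
  rw [Finset.sum_congr rfl fun r hr => by rw [(Finset.mem_filter.1 hr).2], Finset.sum_const,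
    nsmul_eq_mul, ct]

lemma fx_abs_sum {ι : Type} [Fintype ι] {f : ι → ℝ} {e : ℝ} (h : ∀ r, |f r| ≤ e) :
    |∑ r, f r| ≤ Fintype.card ι * e := by
  rw [← nsmul_eq_mul, ← Finset.card_univ]
  exact (Finset.abs_sum_le_sum_abs _ _).trans (Finset.sum_le_card_nsmul _ _ _ fun r _ => h r)

lemma fx_div {x p t : ℝ} (hp : 0 < p) (h1 : p * x ≤ p * t) (h2 : p * -x ≤ p * t) : |x| ≤ t :=
  abs_le.2 ⟨by linarith [le_of_mul_le_mul_left h2 hp], le_of_mul_le_mul_left h1 hp⟩

lemma fx_q {M u ε V1 V0 Vc c0 t S1 S0 Ct Tb T0 X Y J η η' : ℝ} (hM : 1 ≤ M) (hu : 0 < u)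
    (h1 : |V1 - Vc - (c0 + S1 + t)| ≤ ε) (h0 : |V0 - Vc - (c0 + S0 + t)| ≤ ε)
    (h2 : |V1 - V0 - u / 2 * Ct| ≤ 40 * M ^ 2 * (u * Real.sqrt u))
    (h3 : |Ct - M * (1 - Tb)| ≤ M * J * η)
    (h4 : |S1 - S0 - u / 2 * (M - Y)| ≤ M * (40 * (u * Real.sqrt u))) (h5 : Y = X * M)
    (hT : |Tb - T0| ≤ η') : |X - T0| ≤ 4 * ε / u + 160 * M * Real.sqrt u + J * η + η' := by
  have hε : 0 ≤ ε := (abs_nonneg _).trans h1
  have hw := mul_nonneg hu.le (Real.sqrt_nonneg u)
  generalize Real.sqrt u = w at *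
  have a1 : u / 2 * M * (4 * ε / u) = 2 * ε * M := by field_simp; ring
  have a2 := mul_le_mul_of_nonneg_left hM hε
  have a3 := mul_le_mul_of_nonneg_left (mul_le_mul_of_nonneg_left hM (zero_le_one.trans hM)) hw
  have a4 := mul_le_mul_of_nonneg_left (abs_le.1 h3).1 (half_pos hu).le
  have a5 := mul_le_mul_of_nonneg_left (abs_le.1 h3).2 (half_pos hu).le
  subst h5
  obtain ⟨b1, b2⟩ := abs_le.1 h1
  obtain ⟨b3, b4⟩ := abs_le.1 h0
  obtain ⟨b5, b6⟩ := abs_le.1 h2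
  obtain ⟨b7, b8⟩ := abs_le.1 h4
  have k : |X - Tb| ≤ 4 * ε / u + 160 * M * w + J * η :=
    fx_div (p := u / 2 * M) (by positivity) (by linarith) (by linarith)
  exact (abs_sub_le _ Tb _).trans (add_le_add k hT)

lemma fx_m {M n n₀ N b ε V1 V0 Vc c0 t S1 S0 x s₁ s₀ η γ₀ : ℝ} (hM : 1 ≤ M) (hn : 1 ≤ n)
    (hnM : n ≤ M) (hb : 0 < b) (hN : 0 < N) (hγ₀ : 0 < γ₀) (hγ : γ₀ * N ≤ n₀)
    (h1 : |V1 - Vc - (c0 + S1 + t)| ≤ ε) (h0 : |V0 - Vc - (c0 + S0 + t)| ≤ ε)
    (h2 : |V1 - V0 - n * (b * (s₁ / (n₀ + n)))| ≤ 4 * (M * b) ^ 2)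
    (h4 : |S1 - S0 - n * (b * x)| ≤ n * (4 * b ^ 2)) (hs : |s₁| ≤ n₀ + n) (hS : |s₁ - s₀| ≤ η * N) :
    |x - s₀ / n₀| ≤ 2 * ε / b + 8 * M ^ 2 * b + (η + M / N) / γ₀ := by
  have hε : 0 ≤ ε := (abs_nonneg _).trans h1
  have hn₀ : 0 < n₀ := (mul_pos hγ₀ hN).trans_le hγ
  have hη : 0 ≤ η * N := (abs_nonneg _).trans hS
  have k1 : |x - s₁ / (n₀ + n)| ≤ 2 * ε / b + 8 * M ^ 2 * b := by
    generalize s₁ / (n₀ + n) = z at *
    have a1 : n * b * (2 * ε / b) = 2 * ε * n := by field_simp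
    have a2 := mul_le_mul_of_nonneg_left hn hε
    have a3 := mul_le_mul_of_nonneg_left hn (sq_nonneg (M * b))
    have a4 := mul_le_mul_of_nonneg_left (one_le_pow₀ hM (n := 2))
      (mul_nonneg (zero_le_one.trans hn) (sq_nonneg b))
    obtain ⟨b1, b2⟩ := abs_le.1 h1
    obtain ⟨b3, b4⟩ := abs_le.1 h0
    obtain ⟨b5, b6⟩ := abs_le.1 h2
    obtain ⟨b7, b8⟩ := abs_le.1 h4
    exact fx_div (p := n * b) (by positivity) (by linarith) (by linarith)
  have k2 : |s₁ / (n₀ + n) - s₀ / n₀| ≤ (η + M / N) / γ₀ := by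
    have e : s₁ / (n₀ + n) - s₀ / n₀ = (s₁ - s₀ - s₁ / (n₀ + n) * n) / n₀ := by
      field_simp
      ring
    have a1 : |s₁ / (n₀ + n) * n| ≤ M := by
      rw [abs_mul, abs_div, abs_of_pos (by positivity : 0 < n₀ + n), abs_of_pos (by positivity : 0 < n)]
      exact (mul_le_of_le_one_left (by positivity) ((div_le_one (by positivity)).2 hs)).trans hnM
    have a2 : (η + M / N) / γ₀ = (η * N + M) / (γ₀ * N) := by field_simp
    rw [e, a2, abs_div, abs_of_pos hn₀]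
    exact div_le_div₀ (by positivity) ((abs_sub _ _).trans (add_le_add hS a1)) (by positivity) hγ
  exact (abs_sub_le _ _ _).trans (add_le_add k1 k2)

theorem Dat.fix_q {ε η η' u : ℝ} (h : D.Prec A labr fld px y ε) (hu : 0 < u) (hu1 : u ≤ 1)
    (hp : Prp (Sum.elim fld D.fC) D.γ η) {l : ℕ} (hl : l < R)
    (hT : |Tq (ua R) (qt (ua R) (D.big0 A labr fld px y)) l - Tq (ua R) (D.q0 A labr fld px y) l| ≤ η') :
    |∑ j, D.γ j * Tq (ua R) (osQ R (ua R) (D.bj A labr fld px y j) (D.vv A labr fld px y)) l -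
      Tq (ua R) (D.q0 A labr fld px y) l| ≤
      4 * ε / u + 160 * Fintype.card C * Real.sqrt u + Fintype.card J * η + η' := by
  have hR : 0 < R := Nat.pos_of_ne_zero (NeZero.ne R)
  have hM : (1 : ℝ) ≤ Fintype.card C := by exact_mod_cast D.pos
  obtain ⟨r₀⟩ := Fintype.card_pos_iff.1 D.pos
  haveI : Nonempty (ϱ ⊕ C × κ) := ⟨Sum.inr (r₀, D.S.k1)⟩
  have hq : IsOv R (D.q0 A labr fld px y) := isOv_qt (exps_ua hR) (D.ml_com A labr fld px y)
  have h1 := h.big (fun _ i => if i = l then u else 0) 0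
    (fun _ i => by split_ifs; exacts [hu.le, le_rfl]) (fun _ => by simp [hl, hu1]) fun _ => by simp
  have h0 := h.big 0 0 (fun _ _ => le_rfl) (fun _ => by simp) fun _ => by simp
  rw [D.big_zero] at h0
  have e1 : (fun i => D.vv A labr fld px y i + if i = l then u else 0) =
      Function.update (D.vv A labr fld px y) l (D.vv A labr fld px y l + u) := by
    funext i
    by_cases hi : i = l
    · simp [hi]
    · simp [hi]
  simp only [Pi.zero_apply, add_zero, e1] at h1 h0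
  have h2 := D.taylor_u A labr fld px y ⟨l, hl⟩ hu.le hu1
  have h3 := exch_ct D.S.lam (lab1 labr D.S.k1) (Sum.elim fld D.fC) D.c D.m A y px (exps_ua hR)
    Sum.inr D.fC_ct hp hl
  have h4 := fx_abs_sum fun r : C => Ch_taylor_v (b := D.bj A labr fld px y (D.fC r)) (exps_ua hR)
    (fun i hi => D.S.dv_nonneg hR hq hi) ⟨l, hl⟩ hu.le hu1
  have h5 := fx_sum D.fC fun j =>
    Tq (ua R) (osQ R (ua R) (D.bj A labr fld px y j) (D.vv A labr fld px y)) l
  simp only [D.fC_ct, mul_right_comm _ (Fintype.card C : ℝ), ← Finset.sum_mul] at h5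
  simp only [Finset.sum_sub_distrib, ← Finset.mul_sum, Finset.sum_const, Finset.card_univ,
    nsmul_eq_mul, mul_one] at h4
  exact fx_q hM hu h1 h0 h2 h3 h4 h5 hT

theorem Dat.fix_m {ε η b γ₀ : ℝ} (h : D.Prec A labr fld px y ε) (hb : 0 < b)
    (hb1 : Fintype.card C * b ≤ 1 / 2) (j : J) (hγ₀ : 0 < γ₀)
    (hγ : γ₀ * Fintype.card (ϱ ⊕ C × κ) ≤ ct fld j)
    (hS : |EE (ua R) (D.big0 A labr fld px y) (fun t => Sg (Sum.elim fld D.fC) j (cfg t)) -
      EE (ua R) (D.com A labr fld px y) (fun t => Sg fld j (cfg t))| ≤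
        η * Fintype.card (ϱ ⊕ C × κ)) :
    |osM R (ua R) (D.bj A labr fld px y j) (D.vv A labr fld px y) -
      (D.m j + D.dl A labr fld px y j / (ct fld j / Fintype.card (ϱ ⊕ C × κ)))| ≤
      2 * ε / b + 8 * (Fintype.card C : ℝ) ^ 2 * b +
        (η + Fintype.card C / Fintype.card (ϱ ⊕ C × κ)) / γ₀ := by
  have hR : 0 < R := Nat.pos_of_ne_zero (NeZero.ne R)
  have hM : (1 : ℝ) ≤ Fintype.card C := by exact_mod_cast D.pos
  obtain ⟨r₀⟩ := Fintype.card_pos_iff.1 D.pos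
  haveI : Nonempty (ϱ ⊕ C × κ) := ⟨Sum.inr (r₀, D.S.k1)⟩
  have hN : (0 : ℝ) < Fintype.card (ϱ ⊕ C × κ) := by exact_mod_cast Fintype.card_pos
  have hn₀ : (0 : ℝ) < ct fld j := (mul_pos hγ₀ hN).trans_le hγ
  have hn : (1 : ℝ) ≤ ct D.fC j := by
    have : (0 : ℝ) < ct D.fC j := by rw [D.fC_ct]; exact mul_pos (D.γ_pos j) (by linarith)
    exact_mod_cast this
  have hb2 : b ≤ 1 / 2 := by nlinarith
  have hct : (ct (Sum.elim fld D.fC) j : ℝ) = ct fld j + ct D.fC j := by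
    rw [← Nat.cast_add]
    congr 1
    simp only [ct, Finset.card_filter, Fintype.sum_sum_type]
    rfl
  have hβ : ∀ r, |if D.fC r = j then b else 0| ≤ b := fun r => by
    split_ifs
    · exact (abs_of_pos hb).le
    · simpa using hb.le
  have h1 := h.big 0 (fun r => if D.fC r = j then b else 0) (fun _ _ => le_rfl) (fun _ => by simp)
    fun r => (hβ r).trans (by linarith)
  have h0 := h.big 0 0 (fun _ _ => le_rfl) (fun _ => by simp) fun _ => by simp
  rw [D.big_zero] at h0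
  simp only [Pi.zero_apply, add_zero] at h1 h0
  have h2 := D.taylor_β (R := R) A labr fld px y _ hb1 hβ
  have key : ∀ (f : C → ℝ) (z : ℝ), (∀ r, D.fC r = j → f r = z) → (∀ r, D.fC r ≠ j → f r = 0) →
      ∑ r, f r = ct D.fC j * z := fun f z hz h0 => by
    rw [← Finset.sum_filter_of_ne (p := fun r => D.fC r = j) fun r _ hr => by
      by_contra hc; exact hr (h0 r hc),
      Finset.sum_congr rfl fun r hr => hz r (Finset.mem_filter.1 hr).2, Finset.sum_const,
      nsmul_eq_mul, ct]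
  rw [key _ (b * (EE (ua R) (D.big0 A labr fld px y) (fun t => Sg (Sum.elim fld D.fC) j (cfg t)) /
    (ct fld j + ct D.fC j))) (fun r hr => ?_) fun r hr => by rw [if_neg hr, zero_mul]] at h2
  swap
  · have h3 := exch_mean D.S.lam (lab1 labr D.S.k1) (Sum.elim fld D.fC) D.c D.m A y px (exps_ua hR)
      (Sum.inr r)
    rw [Sum.elim_inr, hr, hct] at h3
    rw [if_pos hr, mul_right_inj' hb.ne', eq_div_iff (by positivity), mul_comm]
    exact h3
  have h4 : |∑ r, Ch (ua R) (D.vv A labr fld px y) R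
      (D.bj A labr fld px y (D.fC r) + if D.fC r = j then b else 0) -
      ∑ r, Ch (ua R) (D.vv A labr fld px y) R (D.bj A labr fld px y (D.fC r)) -
      ct D.fC j * (b * osM R (ua R) (D.bj A labr fld px y j) (D.vv A labr fld px y))| ≤
      ct D.fC j * (4 * b ^ 2) := by
    rw [← key (fun r => (if D.fC r = j then b else 0) *
      osM R (ua R) (D.bj A labr fld px y (D.fC r)) (D.vv A labr fld px y)) _
      (fun r hr => by rw [if_pos hr, hr]) (fun r hr => by rw [if_neg hr, zero_mul]),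
      ← key (fun r => 4 * (if D.fC r = j then b else 0) ^ 2) _ (fun r hr => by rw [if_pos hr])
      (fun r hr => by rw [if_neg hr]; norm_num), ← Finset.sum_sub_distrib, ← Finset.sum_sub_distrib]
    exact (Finset.abs_sum_le_sum_abs _ _).trans (Finset.sum_le_sum fun r _ =>
      Ch_taylor_b (exps_ua hR) _ _ ((hβ r).trans hb2))
  have h5 : D.m j + D.dl A labr fld px y j / (ct fld j / Fintype.card (ϱ ⊕ C × κ)) =
      EE (ua R) (D.com A labr fld px y) (fun t => Sg fld j (cfg t)) / ct fld j := by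
    have h6 := EE_const_mul (ua R) (D.com A labr fld px y)
      (fun t => Sg fld j (cfg t) - D.m j * ct fld j) (Fintype.card (ϱ ⊕ C × κ) : ℝ)⁻¹
    rw [EE_sub (exps_ua hR) (D.ml_com A labr fld px y) (ml_cfg _).me (ME.const _),
      EE_const (exps_ua hR) (D.ml_com A labr fld px y)] at h6
    simp only [Dat.dl, Dat.dev, div_eq_inv_mul _ (Fintype.card (ϱ ⊕ C × κ) : ℝ)]
    rw [h6]
    field_simp
    ring
  rw [h5]
  refine fx_m hM hn (by exact_mod_cast ct_le D.fC j) hb hN hγ₀ hγ h1 h0 h2 h4 ?_ hS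
  rw [← hct]
  exact abs_E_le_const (exps_ua hR) (D.ml_big0 A labr fld px y) le_rfl (measurable_cfg_comp _)
    (fun t => abs_Sg_le _ j _) _

theorem Dat.cav_final {F Λ ε : ℝ} (hF : LBh D.S.G D.c D.γ D.m F) (hΛ : ∀ k, |D.S.lam k| ≤ Λ)
    {q : ℕ → ℝ} (hq : IsOv R q) {bs : J → ℝ}
    (hb : ∀ j, osc (ua R) (D.S.dv (ua R) q) R (D.m j) =
      osv (ua R) (D.S.dv (ua R) q) R (bs j) - bs j * D.m j) (hε : 0 ≤ ε)
    (hT : ∀ l < R, |∑ j, D.γ j * Tq (ua R) (osQ R (ua R) (bs j) (D.S.dv (ua R) q)) l -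
      Tq (ua R) q l| ≤ ε) :
    F ≤ ∑ j, D.γ j * D.c j * D.m j + ∑ j, D.γ j * osc (ua R) (D.S.dv (ua R) q) R (D.m j) +
      (∑ l ∈ range R, D.S.dv (ua R) q l * Tq (ua R) q l) / 2 + D.S.G (pth R q) +
      4 * Λ ^ 2 / D.S.ρ D.S.k1 ^ 2 * (ε + 1 / R) := by
  have hR : 0 < R := NeZero.pos R
  have ha := exps_ua hR
  set v := D.S.dv (ua R) q with hv
  set Q : J → ℕ → ℝ := fun j => osQ R (ua R) (bs j) v with hQ
  have hv0 : ∀ i < R, 0 ≤ v i := fun i hi => D.S.dv_nonneg hR hq hi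
  have hQo : ∀ j, IsOv R (Q j) := fun j => isOv_osQ ha _ _
  have hq' : IsOv R fun i => ∑ j, D.γ j * Q j i :=
    ⟨by simp only [(hQo _).zero, mul_one, D.γ_sum],
      fun i hi => sum_le_sum fun j _ => mul_le_mul_of_nonneg_left ((hQo j).anti i hi) (D.γ_pos j).le,
      sum_nonneg fun j _ => mul_nonneg (D.γ_pos j).le (hQo j).last⟩
  have hp := hq'.trial hR
  have hTq : ∀ l, Tq (ua R) (fun i => ∑ j, D.γ j * Q j i) l = ∑ j, D.γ j * Tq (ua R) (Q j) l := by
    intro l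
    simp only [Tq, mul_sum]
    rw [sum_comm]
    exact sum_congr rfl fun _ _ => sum_congr rfl fun _ _ => by ring
  have h1 := hF _ hp (∑ j, D.γ j * (osc (ua R) v R (D.m j) +
      (∑ l ∈ range R, v l * Tq (ua R) (Q j) l) / 2)) fun k w hv' hw => by
    have e : ∫ s in Set.Ioo (0 : ℝ) 1, pth R (fun i => ∑ j, D.γ j * Q j i) s *
        Crest.ProbabilityR.InvariantGlass.stepFn w hv' s =
        ∑ j, D.γ j * ∫ s in Set.Ioo (0 : ℝ) 1, pth R (Q j) s *
          Crest.ProbabilityR.InvariantGlass.stepFn w hv' s := by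
      simp only [integral_stepFn hw hp, integral_stepFn hw ((hQo _).trial hR), mul_sum]
      rw [sum_comm]
      refine sum_congr rfl fun i _ => ?_
      simp only [tl, pth_sum]
      rw [integral_finsetSum _ fun j _ => ((pa_pth_int R (Q j)).const_mul _).integrableOn, mul_sum]
      exact sum_congr rfl fun j _ => by rw [integral_const_mul]; ring
    rw [e, sum_div, ← sum_add_distrib]
    refine sum_le_sum fun j _ => ?_
    rw [mul_div_assoc, ← mul_add]
    exact mul_le_mul_of_nonneg_left (supergradient hv0 (D.m_lt j).le (hb j) hw) (D.γ_pos j).le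
  have hR' : (0 : ℝ) ≤ 1 / R := by positivity
  have h2 := D.S.G_le hΛ (hq.trial hR) hp (e := ε + 1 / R) (by positivity) fun r h0 h1 => by
    have := deficit_le hR (hq.trial hR) hp hε (fun l _ hl => by
      rw [tl_pth hR _ hl.le, tl_pth hR _ hl.le, hTq]
      linarith [(abs_le.1 (hT l hl)).1]) h0 h1
    linarith
  have h3 : ∑ j, D.γ j * (osc (ua R) v R (D.m j) + (∑ l ∈ range R, v l * Tq (ua R) (Q j) l) / 2) =
      ∑ j, D.γ j * osc (ua R) v R (D.m j) +
        (∑ l ∈ range R, v l * ∑ j, D.γ j * Tq (ua R) (Q j) l) / 2 := by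
    simp only [mul_add, sum_add_distrib, mul_sum, sum_div]
    rw [sum_comm (s := range R)]
    congr 1
    exact sum_congr rfl fun _ _ => sum_congr rfl fun _ _ => by ring
  have h4 : ∑ l ∈ range R, v l * ∑ j, D.γ j * Tq (ua R) (Q j) l ≤
      ∑ l ∈ range R, v l * Tq (ua R) q l + (∑ l ∈ range R, v l) * ε := by
    rw [sum_mul, ← sum_add_distrib]
    refine sum_le_sum fun l hl => ?_
    have hl := mem_range.1 hl
    rw [← mul_add]
    exact mul_le_mul_of_nonneg_left (by linarith [(abs_le.1 (hT l hl)).2]) (hv0 l hl)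
  have h5 := mul_le_mul_of_nonneg_right (D.S.sum_dv_le hΛ hR hq) hε
  have h6 : 0 ≤ Λ ^ 2 / D.S.ρ D.S.k1 ^ 2 * (1 / R) := by positivity
  have e1 : 4 * Λ ^ 2 / D.S.ρ D.S.k1 ^ 2 = 4 * (Λ ^ 2 / D.S.ρ D.S.k1 ^ 2) := by ring
  have e2 : 2 * Λ ^ 2 / D.S.ρ D.S.k1 ^ 2 = 2 * (Λ ^ 2 / D.S.ρ D.S.k1 ^ 2) := by ring
  rw [e1] at h5 ⊢
  rw [e2] at h2
  rw [h3] at h1
  nlinarith

theorem Dat.cav_value {s ε ε' : ℝ} (hA : 0 ≤ A) (hs : 0 < s) (h : D.Prec A labr fld px y ε)
    (hn : D.Near A labr fld px y s ε') :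
    av R s D.S.lam D.c D.m A (labS labr D.S.k1 D.lC) fld + Fintype.card C *
      (∑ j, D.γ j * D.c j * D.m j + ∑ j, D.γ j * osc (ua R) (D.vv A labr fld px y) R (D.m j) +
        (∑ l ∈ range R, D.vv A labr fld px y l * Tq (ua R) (D.q0 A labr fld px y) l) / 2 +
        D.S.G (pth R (D.q0 A labr fld px y)) -
        (s + 10 * Fintype.card κ * (R * s ^ 2) + 2 * Fintype.card J * s)) - 2 * ε - ε' ≤
      av R s D.S.lam D.c D.m A (lab1 labr D.S.k1) (Sum.elim fld D.fC) := by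
  have hR : 0 < R := NeZero.pos R
  have ha := exps_ua hR
  obtain ⟨r₀⟩ := Fintype.card_pos_iff.1 D.pos
  haveI : Nonempty (ϱ ⊕ C × κ) := ⟨Sum.inr (r₀, D.S.k1)⟩
  have hq : IsOv R (D.q0 A labr fld px y) := isOv_qt ha (D.ml_com A labr fld px y)
  have hM : (0 : ℝ) ≤ Fintype.card C := Nat.cast_nonneg _
  have h1 : val (ua R) (D.big0 A labr fld px y) - Fintype.card ((ϱ ⊕ C × κ) ⊕ C) *
      (penx s px + peny s y) ≤ _ := le_av (lab := lab1 labr D.S.k1) (fld := Sum.elim fld D.fC)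
        (lam := D.S.lam) (c := D.c) (m := D.m) hA hs hn.box hn.yb
  rw [Fintype.card_sum (α := ϱ ⊕ C × κ), Nat.cast_add] at h1
  have h2 := hn.le
  have h3 := (abs_le.1 h.small).2
  have h4 := (abs_le.1 (h.big 0 0 (fun _ _ => le_rfl) (fun _ => by simp) fun _ => by simp)).1
  rw [D.big_zero] at h4
  simp only [Pi.zero_apply, add_zero] at h4
  rw [fx_sum D.fC fun j => Ch (ua R) (fun l => D.vv A labr fld px y l) R
    (D.bj A labr fld px y j)] at h4
  have h5 := D.S.cavity_identity hR hq (qt_top _ _)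
  have h6 : penx s px ≤ 10 * Fintype.card κ * (R * s ^ 2) := by
    have : ∑ k, ∑ l, (px k l - 3 * s / 2) ^ 2 ≤ ∑ _k : κ, ∑ _l : Fin R, s ^ 2 :=
      sum_le_sum fun k _ => sum_le_sum fun l _ =>
        sq_le_sq' (by linarith [(hn.box k l).1]) (by linarith [(hn.box k l).2])
    simp only [sum_const, card_univ, Fintype.card_fin, nsmul_eq_mul] at this
    rw [penx]
    linarith
  have h7 : peny s y ≤ 2 * Fintype.card J * s := by
    have : ∑ j, y j ^ 2 ≤ ∑ _j : J, s ^ 2 :=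
      sum_le_sum fun j _ => sq_le_sq' (abs_le.1 (hn.yb j)).1 (abs_le.1 (hn.yb j)).2
    simp only [sum_const, card_univ, nsmul_eq_mul] at this
    refine (mul_le_mul_of_nonneg_left this (by positivity)).trans_eq ?_
    field_simp
  have h8 : ∑ j, (Fintype.card C : ℝ) * (D.γ j * D.c j * D.m j +
      D.γ j * osc (ua R) (D.vv A labr fld px y) R (D.m j) +
      D.γ j * ((∑ l ∈ range R, D.vv A labr fld px y l) / 2) - D.γ j * s) ≤
      D.c0 A labr fld px y + ∑ j, (ct D.fC j : ℝ) *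
        Ch (ua R) (fun l => D.vv A labr fld px y l) R (D.bj A labr fld px y j) := by
    rw [Dat.c0, ← sum_add_distrib]
    refine sum_le_sum fun j _ => ?_
    have a1 := osc_le (fun i hi => (ha.pos i hi).le) (D.vv A labr fld px y) (D.m_lt j).le
      (D.bj A labr fld px y j) (n := R)
    have a2 : -s ≤ y j * D.m j := by
      have : |y j * D.m j| ≤ s := by
        rw [abs_mul]
        exact (mul_le_of_le_one_right (abs_nonneg _) (D.m_lt j).le).trans (hn.yb j)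
      exact (abs_le.1 this).1
    have a3 : 0 ≤ A * Fintype.card C * D.dl A labr fld px y j ^ 2 := by positivity
    have a4 : 0 ≤ D.γ j * Fintype.card C := mul_nonneg (D.γ_pos j).le hM
    rw [osv] at a1
    have a5 := mul_le_mul_of_nonneg_left (add_le_add a1 a2) a4
    rw [D.fC_ct]
    have e : D.bj A labr fld px y j * D.m j =
        (D.c j + y j - 2 * A * D.dl A labr fld px y j) * D.m j := rfl
    rw [e] at a5
    linarith
  rw [← mul_sum, sum_sub_distrib, sum_add_distrib, sum_add_distrib, ← sum_mul, ← sum_mul,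
    D.γ_sum] at h8
  have h9 := mul_le_mul_of_nonneg_left (add_le_add h6 h7) hM
  have h10 := congrArg (fun z => (Fintype.card C : ℝ) * z) h5
  simp only [Dat.tA] at h4
  simp only [Dat.vv] at h4 h8 ⊢
  linarith

end Crest.Agent.R164
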