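import Crest.Agent.R164.Cav
import Crest.Agent.R164.Mom

/-!
# R164 / Geo: geometry of the cavity step

`ι₀ = ϱ ⊕ C × κ`, `ι₁ = ι₀ ⊕ C`.  For `O ∈ O(ι₁)` let `y_r = O e_{inr r}`.  For each label `k` let
`S_k` be the square root (`exists_sqrt`) of the Gram matrix of the block-`k` parts of the `y_r`, and
`Y (r', k) r = S_k r' r`.  `exists_orth_fix` gives rotations `B_k` of block `k` sending the block-`k`
part of `y_r` to the vector supported on `{inl (inr (r', k))}` with entries `Y (r',k) r`; assemble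
`B a b = if lab1 a = lab1 b then B_{lab1 a} a b else 0` (orthogonal as each `B_k` is block
diagonal).  `Σ_k Gram_k = 1` gives `YᵀY = 1`.  `Qv Y` is a linear isometry of `ℝ^{ι₁}` (an
involution; `sum_sq_Qv`, `orth_of_sum_sq`) with matrix `Q`, `Q e_{inr r} = B y_r`.  So `Qᵀ B O` fixes
every `e_{inr r}` and is of the form `U₀ ⊕ 1` with `U₀` orthogonal.
-/

set_option autoImplicit false

open MeasureTheory ProbabilityTheory Finset Matrix

namespace Crest.Agent.R164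

variable {ϱ C κ : Type} [Fintype ϱ] [DecidableEq ϱ] [Fintype C] [DecidableEq C] [Fintype κ]
  [DecidableEq κ]

/-- Eigen-coordinates of the big system in terms of those of the common system. -/
noncomputable def Qv (Y : C × κ → C → ℝ) (x : ϱ ⊕ C × κ → ℝ) (ε : C → ℝ) : (ϱ ⊕ C × κ) ⊕ C → ℝ :=
  Sum.elim (Sum.elim (fun a => x (Sum.inl a)) fun α =>
      ∑ r, Y α r * ε r + ∑ β, PY Y α β * x (Sum.inr β))
    fun r => ∑ α, Y α r * x (Sum.inr α)

/-- Orthonormal frames. -/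
def Frame {A : Type} [Fintype A] (Y : A → C → ℝ) : Prop :=
  ∀ r r', ∑ α, Y α r * Y α r' = if r = r' then 1 else 0

lemma Frame.abs_le {A : Type} [Fintype A] {Y : A → C → ℝ} (h : Frame Y) (α : A) (r : C) :
    |Y α r| ≤ 1 := by
  have h1 := h r r
  rw [if_pos rfl] at h1
  exact abs_le_one_iff_mul_self_le_one.2 (h1 ▸ single_le_sum (f := fun α => Y α r * Y α r)
    (fun _ _ => mul_self_nonneg _) (mem_univ α))
lemma Frame.abs_PY_le {A : Type} [Fintype A] [DecidableEq A] {Y : A → C → ℝ} (h : Frame Y)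
    (α β : A) : |PY Y α β| ≤ 1 + Fintype.card C := by
  refine (abs_sub _ _).trans (add_le_add ?_ ((abs_sum_le_sum_abs _ _).trans ?_))
  · split_ifs <;> simp
  · calc ∑ r, |Y α r * Y β r| ≤ ∑ _r : C, (1 : ℝ) := sum_le_sum fun r _ => by
          rw [abs_mul]
          exact mul_le_one₀ (h.abs_le α r) (abs_nonneg _) (h.abs_le β r)
      _ = Fintype.card C := by simp
lemma frame_Ys (S : Spec κ) : Frame (Ys (C := C) S.ρ) := by
  intro r r'
  rw [Fintype.sum_prod_type, sum_eq_single r (fun c _ hc => by simp [Ys, hc]) (by simp)]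
  by_cases h : r = r'
  · simp only [Ys, h, if_true]
    rw [← S.ρ_sum]
    exact sum_congr rfl fun k _ => Real.mul_self_sqrt (S.ρ_pos k).le
  · simp [Ys, h]
lemma sum_sq_Qv {Y : C × κ → C → ℝ} (h : Frame Y) (x : ϱ ⊕ C × κ → ℝ) (ε : C → ℝ) :
    ∑ α, Qv Y x ε (Sum.inl (Sum.inr α)) ^ 2 + ∑ r, Qv Y x ε (Sum.inr r) ^ 2 =
      ∑ r, ε r ^ 2 + ∑ α, x (Sum.inr α) ^ 2 := by
  obtain ⟨s, hs⟩ : ∃ s : C → ℝ, ∀ r, s r = ∑ α, Y α r * x (Sum.inr α) := ⟨_, fun _ => rfl⟩
  have e1 : ∀ α, Qv Y x ε (Sum.inl (Sum.inr α)) = x (Sum.inr α) + ∑ r, Y α r * (ε r - s r) := by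
    intro α
    have e : ∑ β, (∑ r, Y α r * Y β r) * x (Sum.inr β) = ∑ r, Y α r * s r := by
      simp only [hs, sum_mul, mul_sum, mul_assoc]
      exact sum_comm
    simp only [Qv, PY, Sum.elim_inl, Sum.elim_inr, sub_mul, mul_sub, sum_sub_distrib, e, ite_mul,
      one_mul, zero_mul, sum_ite_eq, mem_univ, if_true]
    ring
  have e2 : ∀ r, Qv Y x ε (Sum.inr r) = s r := fun r => (hs r).symm
  have e3 : ∑ α, x (Sum.inr α) * ∑ r, Y α r * (ε r - s r) = ∑ r, s r * (ε r - s r) := by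
    simp only [mul_sum]
    rw [sum_comm]
    refine sum_congr rfl fun r _ => ?_
    generalize ε r - s r = d
    rw [hs, sum_mul]
    exact sum_congr rfl fun α _ => by ring
  have e4 : ∑ α, (∑ r, Y α r * (ε r - s r)) ^ 2 = ∑ r, (ε r - s r) ^ 2 := by
    simp only [sq, sum_mul_sum]
    rw [sum_comm]
    refine sum_congr rfl fun r _ => ?_
    rw [sum_comm]
    have e : ∀ r', ∑ α, Y α r * (ε r - s r) * (Y α r' * (ε r' - s r')) =
        if r = r' then (ε r - s r) * (ε r' - s r') else 0 := fun r' => by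
      rw [← boole_mul, ← h r r', sum_mul]
      exact sum_congr rfl fun α _ => by ring
    simp [e]
  simp only [e1, e2, add_sq, sum_add_distrib, mul_assoc, ← mul_sum, e3, e4]
  have e5 : ∑ r, ε r ^ 2 = ∑ r, (2 * (s r * (ε r - s r)) + (ε r - s r) ^ 2 + s r ^ 2) :=
    sum_congr rfl fun r _ => by ring
  rw [e5, sum_add_distrib, sum_add_distrib, ← mul_sum]
  ring

lemma geo_block {ι T : Type} [Fintype ι] [DecidableEq ι] [Fintype T] (lab : ι → κ) (u w : T → ι → ℝ)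
    (h : ∀ k x y, (∑ a, if lab a = k then u x a * u y a else 0) =
      ∑ a, if lab a = k then w x a * w y a else 0) :
    ∃ B : Orth ι, (∀ a b, B.1 a b ≠ 0 → lab a = lab b) ∧ ∀ x, B.1 *ᵥ u x = w x := by
  choose B hB1 hB2 using fun k => exists_orth_fix (lab · = k)
    (fun x a => if lab a = k then u x a else 0) (fun x a => if lab a = k then w x a else 0)
    (fun _ _ ha => if_neg ha) (fun _ _ ha => if_neg ha) fun x y => by
      simp only [ite_zero_mul_ite_zero, and_self, h]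
  have h0 : ∀ a b, (B (lab a)).1 a b ≠ 0 → lab a = lab b := fun a b hab => by
    by_contra hne
    rw [hB2 _ a b (Or.inr (Ne.symm hne)), if_neg fun e => hne (congrArg lab e)] at hab
    exact hab rfl
  refine ⟨⟨Matrix.of fun a b => (B (lab a)).1 a b, (Matrix.mem_orthogonalGroup_iff ι ℝ).2 ?_⟩, h0,
    fun x => ?_⟩
  · ext a b
    change ∑ c, (B (lab a)).1 a c * (B (lab b)).1 b c = _
    by_cases hab : lab a = lab b
    · rw [hab]
      exact congrFun (congrFun (B (lab b)).mul_transpose a) b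
    · rw [Matrix.one_apply_ne fun e => hab (congrArg lab e)]
      refine sum_eq_zero fun c _ => ?_
      by_contra hc
      exact hab ((h0 a c (left_ne_zero_of_mul hc)).trans (h0 b c (right_ne_zero_of_mul hc)).symm)
  · funext a
    have h1 := congrFun (hB1 (lab a) x) a
    rw [if_pos rfl] at h1
    rw [← h1]
    refine sum_congr rfl fun c _ => ?_
    change (B (lab a)).1 a c * u x c = (B (lab a)).1 a c * if lab c = lab a then u x c else 0
    by_cases hc : (B (lab a)).1 a c = 0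
    · rw [hc, zero_mul, zero_mul]
    · rw [if_pos (h0 a c hc).symm]

lemma geo_fix {A : Type} [Fintype A] [DecidableEq A] (M : Orth (A ⊕ C))
    (h : ∀ r, M.1 *ᵥ Pi.single (Sum.inr r) 1 = Pi.single (Sum.inr r) 1) :
    ∃ U : Orth A, ∀ x ε, M.1 *ᵥ Sum.elim x ε = Sum.elim (U.1 *ᵥ x) ε := by
  have h1 : ∀ a r, M.1 a (Sum.inr r) = if a = Sum.inr r then 1 else 0 := fun a r => by
    simpa [Pi.single_apply] using congrFun (h r) a
  have h2 : ∀ r b, M.1 (Sum.inr r) b = if b = Sum.inr r then 1 else 0 := fun r b => by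
    simpa only [Matrix.mul_apply, Matrix.transpose_apply, h1, mul_ite, mul_one, mul_zero,
      sum_ite_eq', mem_univ, if_true, Matrix.one_apply] using
      congrFun (congrFun M.transpose_mul b) (Sum.inr r)
  have h3 : ∀ x ε, M.1 *ᵥ Sum.elim x ε = Sum.elim (M.1.toBlocks₁₁ *ᵥ x) ε := fun x ε => by
    funext a
    rcases a with a | r <;> simp [Matrix.mulVec, dotProduct, h1, h2, Matrix.toBlocks₁₁]
  refine ⟨Orth.mk' M.1.toBlocks₁₁ (orth_of_sum_sq _ fun v => ?_), h3⟩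
  simpa [h3] using M.sum_sq_mulVec (Sum.elim v 0)

lemma geo_Q {Y : C × κ → C → ℝ} (h : Frame Y) :
    ∃ Q : Orth ((ϱ ⊕ C × κ) ⊕ C), ∀ x ε, Q.1 *ᵥ Sum.elim x ε = Qv Y x ε := by
  let f : ((ϱ ⊕ C × κ) ⊕ C → ℝ) →ₗ[ℝ] (ϱ ⊕ C × κ) ⊕ C → ℝ :=
    { toFun := fun v => Qv Y (v ∘ Sum.inl) (v ∘ Sum.inr)
      map_add' := fun v w => by
        funext a
        rcases a with (a | a) | a <;> simp [Qv, mul_add, sum_add_distrib]
        ring
      map_smul' := fun c v => by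
        funext a
        rcases a with (a | a) | a <;> simp [Qv, mul_add, mul_sum, mul_left_comm] }
  refine ⟨Orth.mk' (LinearMap.toMatrix' f) (orth_of_sum_sq _ fun v => ?_),
    fun x ε => LinearMap.toMatrix'_mulVec f _⟩
  have h1 := sum_sq_Qv h (v ∘ Sum.inl) (v ∘ Sum.inr)
  rw [LinearMap.toMatrix'_mulVec]
  simp only [Fintype.sum_sum_type]
  change ∑ a, v (Sum.inl (Sum.inl a)) ^ 2 +
    ∑ a, Qv Y (v ∘ Sum.inl) (v ∘ Sum.inr) (Sum.inl (Sum.inr a)) ^ 2 +
    ∑ a, Qv Y (v ∘ Sum.inl) (v ∘ Sum.inr) (Sum.inr a) ^ 2 = _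
  simp only [Function.comp_apply] at h1
  linarith

theorem cav_geometry (labr : ϱ → κ) (k1 : κ) (O : Orth ((ϱ ⊕ C × κ) ⊕ C)) :
    ∃ (B : Orth ((ϱ ⊕ C × κ) ⊕ C)) (U₀ : Orth (ϱ ⊕ C × κ)) (Y : C × κ → C → ℝ),
      (∀ a b, B.1 a b ≠ 0 → lab1 labr k1 a = lab1 labr k1 b) ∧ Frame Y ∧
      (∀ x ε, B.1 *ᵥ (O.1 *ᵥ Sum.elim x ε) = Qv Y (U₀.1 *ᵥ x) ε) ∧
      ∀ (ρ : κ → ℝ) (e : ℝ), (∀ k, 0 < ρ k) →
        (∀ k r r', |∑ a ∈ univ.filter (lab1 labr k1 · = k), O.1 a (Sum.inr r) * O.1 a (Sum.inr r') -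
          if r = r' then ρ k else 0| ≤ e) →
        ∀ α r, |Y α r - Ys ρ α r| ≤ Fintype.card C * e / Real.sqrt (ρ α.2) := by
  choose S hS1 hS2 hS3 using fun k => exists_sqrt
    fun (r : C) a => if lab1 labr k1 a = k then O.1 a (Sum.inr r) else 0
  have hG : ∀ k r r', ∑ γ, S k γ r * S k γ r' = ∑ a, if lab1 labr k1 a = k then
      O.1 a (Sum.inr r) * O.1 a (Sum.inr r') else 0 := fun k r r' => by
    simp only [hS1 k _ r, hS1 k _ r', hS2]
    exact sum_congr rfl fun a _ => by split_ifs <;> simp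
  obtain ⟨W, hW⟩ : ∃ W : C → (ϱ ⊕ C × κ) ⊕ C → ℝ,
      W = fun r => Sum.elim (Sum.elim (fun _ => 0) fun α => S α.2 α.1 r) fun _ => 0 := ⟨_, rfl⟩
  obtain ⟨B, hB1, hB2⟩ := geo_block (lab1 labr k1) (fun r a => O.1 a (Sum.inr r)) W
    fun k r r' => by
      rw [← hG, Fintype.sum_sum_type, Fintype.sum_sum_type, Fintype.sum_prod_type]
      simp [hW, lab1]
  have hY : Frame fun (α : C × κ) r => S α.2 α.1 r := fun r r' => by
    rw [Fintype.sum_prod_type_right]
    simp only [hG]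
    rw [sum_comm]
    simpa [Matrix.mul_apply, Matrix.one_apply] using
      congrFun (congrFun O.transpose_mul (Sum.inr r)) (Sum.inr r')
  obtain ⟨Q, hQ⟩ := geo_Q (ϱ := ϱ) hY
  obtain ⟨U₀, hU⟩ := geo_fix (Q⁻¹ * (B * O)) fun r => by
    have h1 : Q.1 *ᵥ Pi.single (Sum.inr r) 1 = W r := by
      rw [← Sum.elim_comp_inl_inr (Pi.single (Sum.inr r) 1), hQ, hW]
      funext a
      rcases a with (a | a) | a <;> simp [Qv, Pi.single_apply]
    change (Q.1ᵀ * (B.1 * O.1)) *ᵥ _ = _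
    rw [← mulVec_mulVec, ← mulVec_mulVec, mulVec_single_one,
      show O.1.col (Sum.inr r) = fun a => O.1 a (Sum.inr r) from rfl, hB2, ← h1, mulVec_mulVec,
      Q.transpose_mul, one_mulVec]
  refine ⟨B, U₀, _, hB1, hY, fun x ε => ?_, fun ρ e hρ he α r => ?_⟩
  · rw [← hQ, ← hU, mulVec_mulVec, mulVec_mulVec]
    change _ = (Q * (Q⁻¹ * (B * O))).1 *ᵥ _
    rw [mul_inv_cancel_left]
    rfl
  · refine hS3 α.2 _ e (Real.sqrt_pos.2 (hρ _)) (fun r r' => ?_) α.1 r
    rw [Real.sq_sqrt (hρ _).le, ← hS2]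
    simp only [hS1 _ r, hS1 _ r']
    rw [hG, ← sum_filter]
    exact he _ r r'

end Crest.Agent.R164
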