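import Crest.Agent.R164.CavStep

/-!
# R164 / LowerMain: the lower bound for finite spectra

Take `M > 0` with all `ρ k M`, `γ j M` natural numbers (product of denominators), `C = Fin M`, `lC`, `fC` from
`exists_lab`; this is a `Dat`.  Let `R, s, A, e, N₀` come from `cav_step` (shrink `e` below all `ρ k`, `γ j`),
`B = cb + 4A + Λ/2 + 1` (`av_lower`).  By induction on `t`: for every system of size `N` with
`|ct lab k - ρ k N| ≤ E`, `|ct fld j - γ j N| ≤ E`, `N₁ + t M ≤ N`, where `E ≤ e N₁`, `N₀ ≤ N₁`, one has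
`t M (F - ε) - (N - t M) B ≤ av` (remove `ρ M`, `γ M` labels: a system on `Fin (N - M)` from `exists_lab`).
Take `N₁ = ⌈θ N⌉`, `E = e θ N`, `t = (N - N₁)/M`; finish with `av_le`, `PM_mono_exp`.
-/

set_option autoImplicit false

open MeasureTheory ProbabilityTheory Finset Matrix

namespace Crest.Agent.R164

lemma lm_den {α : Type} [Fintype α] (f : α → ℚ) (h : ∀ a, 0 ≤ f a) :
    ∃ M : ℕ, 0 < M ∧ ∀ a, ∃ n : ℕ, (n : ℝ) = f a * M := by
  refine ⟨∏ a, (f a).den, Finset.prod_pos fun a _ => (f a).den_pos, fun a => ?_⟩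
  obtain ⟨c, hc⟩ := Finset.dvd_prod_of_mem (fun a => (f a).den) (Finset.mem_univ a)
  obtain ⟨n, hn⟩ := Int.eq_ofNat_of_zero_le (Rat.num_nonneg.2 (h a))
  refine ⟨n * c, ?_⟩
  have h1 : (f a : ℝ) * (f a).den = n := by
    have := (f a).mul_den_eq_num
    rw [hn] at this
    exact_mod_cast this
  rw [hc, Nat.cast_mul, Nat.cast_mul, ← mul_assoc, h1]

lemma lm_lab {α : Type} [Fintype α] [DecidableEq α] {n : α → ℕ} {ρ : α → ℝ} {M : ℕ}
    (h : ∀ a, (n a : ℝ) = ρ a * M) (hs : ∑ a, ρ a = 1) :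
    ∃ l : Fin M → α, ∀ a, (ct l a : ℝ) = ρ a * M := by
  obtain ⟨l, hl⟩ := exists_lab (ι := Fin M) n (by
    have : ((∑ a, n a : ℕ) : ℝ) = M := by
      rw [Nat.cast_sum, Finset.sum_congr rfl fun a _ => h a, ← Finset.sum_mul, hs, one_mul]
    rw [Fintype.card_fin]
    exact_mod_cast this)
  exact ⟨l, fun a => by rw [hl, h]⟩

lemma lm_rem {ι α : Type} [Fintype ι] [Fintype α] [DecidableEq α] {M N N₁ : ℕ} {ρ : α → ℝ} {e : ℝ}
    (lab : ι → α) (l : Fin M → α) (hl : ∀ a, (ct l a : ℝ) = ρ a * M) (hN : Fintype.card ι = N + M)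
    (h0 : 0 < N₁) (h1 : N₁ ≤ N) (he : ∀ a, e ≤ ρ a) (he0 : 0 ≤ e)
    (h : ∀ a, |(ct lab a : ℝ) - ρ a * Fintype.card ι| ≤ e * N₁) :
    ∃ lab' : Fin N → α, (∀ a, ct lab a = ct lab' a + ct l a) ∧
      (∀ a, |(ct lab' a : ℝ) - ρ a * Fintype.card (Fin N)| ≤ e * N₁) ∧ Prp lab' ρ e := by
  classical
  have h1' : (N₁ : ℝ) ≤ N := by exact_mod_cast h1
  have hN0 : (0 : ℝ) < N := by exact_mod_cast h0.trans_le h1
  simp only [hN, Nat.cast_add] at h
  have h2 : ∀ a, ct l a ≤ ct lab a := fun a => by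
    have a1 := mul_le_mul (he a) h1' (Nat.cast_nonneg _) (he0.trans (he a))
    have : (ct l a : ℝ) ≤ ct lab a := by rw [hl]; linarith [(abs_le.1 (h a)).1]
    exact_mod_cast this
  obtain ⟨lab', h3⟩ := exists_lab (ι := Fin N) (fun a => ct lab a - ct l a) (by
    have : ∑ a, (ct lab a - ct l a) + ∑ a, ct l a = ∑ a, ct lab a := by
      rw [← Finset.sum_add_distrib]
      exact Finset.sum_congr rfl fun a _ => Nat.sub_add_cancel (h2 a)
    rw [sum_ct, sum_ct, hN, Fintype.card_fin] at this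
    rw [Fintype.card_fin]
    omega)
  have h4 : ∀ a, |(ct lab' a : ℝ) - ρ a * N| ≤ e * N₁ := fun a => by
    rw [h3, Nat.cast_sub (h2 a), hl]
    refine le_trans (le_of_eq ?_) (h a)
    congr 1
    ring
  refine ⟨lab', fun a => by rw [h3, Nat.sub_add_cancel (h2 a)], by rwa [Fintype.card_fin],
    fun a => ?_⟩
  rw [Fintype.card_fin, div_sub' hN0.ne', abs_div, abs_of_pos hN0, div_le_iff₀ hN0, mul_comm _ (ρ a)]
  exact (h4 a).trans (mul_le_mul_of_nonneg_left h1' he0)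

lemma lm_int {ι : Type} [Fintype ι] [DecidableEq ι] (lamv : ι → ℝ) (V : (ι → Bool) → ℝ) (m : ℝ) :
    Integrable (fun U => Real.exp (m * logZ lamv V U)) (haar ι) := by
  refine mom_int (Real.continuous_exp.comp (continuous_const.mul ?_))
  have := fun σ : ι → Bool => mom_cont (spn σ)
  unfold logZ
  exact Continuous.log (by fun_prop) fun U => (mul_pos (by positivity)
    (Finset.sum_pos (fun _ _ => Real.exp_pos _) univ_nonempty)).ne'

theorem lower_main {κ J : Type} [Fintype κ] [DecidableEq κ] [Fintype J] [DecidableEq J] (S : Spec κ)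
    (ρ : κ → ℚ) (hρ : ∀ k, S.ρ k = ρ k) (γ : J → ℚ) (hγ : ∀ j, 0 < γ j) (hγs : ∑ j, γ j = 1)
    (c m : J → ℝ) (hm : ∀ j, |m j| < 1) {F : ℝ} (h : LBh S.G c (fun j => γ j) m F) {ε m₀ : ℝ}
    (hε : 0 < ε) (hm₀ : 0 < m₀) : ∃ e : ℝ, 0 < e ∧ ∃ N₀ : ℕ,
    ∀ (ι : Type) [Fintype ι] [DecidableEq ι] (lab : ι → κ) (fld : ι → J), N₀ ≤ Fintype.card ι →
      Prp lab S.ρ e → Prp fld (fun j => γ j) e →
      Fintype.card ι * (F - ε) ≤ PM m₀ (haar ι) (logZ (fun b => S.lam (lab b)) (Vc fld c)) := by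
  have hγ' : ∀ j, (0 : ℝ) < γ j := fun j => by exact_mod_cast hγ j
  have hγs' : ∑ j, (γ j : ℝ) = 1 := by exact_mod_cast hγs
  obtain ⟨M, hM, hn⟩ := lm_den (Sum.elim ρ γ) fun a => by
    rcases a with k | j
    · have := S.ρ_pos k
      rw [hρ] at this
      exact_mod_cast this.le
    · exact (hγ j).le
  choose n hn using hn
  have hn1 : ∀ k, (n (Sum.inl k) : ℝ) = S.ρ k * M := fun k => by rw [hn, hρ]; rfl
  have hn2 : ∀ j, (n (Sum.inr j) : ℝ) = γ j * M := fun j => hn _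
  obtain ⟨lC, hlC⟩ := lm_lab hn1 S.ρ_sum
  obtain ⟨fC, hfC⟩ := lm_lab hn2 hγs'
  let D : Dat κ J (Fin M) := ⟨S, fun j => γ j, c, m, lC, fC, hγ', hγs', hm,
    fun k => by rw [hlC, Fintype.card_fin], fun j => by rw [hfC, Fintype.card_fin],
    by rwa [Fintype.card_fin]⟩
  have hε4 : 0 < ε / 4 := by positivity
  obtain ⟨R, hR, s, A, e, N₀, h1, hs, h2, hA, he, hstep⟩ := D.cav_step h hε4 hm₀
  obtain ⟨Λ, hΛ⟩ : ∃ Λ, ∀ k, |S.lam k| ≤ Λ := ⟨∑ k, |S.lam k|, fun k =>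
    Finset.single_le_sum (f := fun k => |S.lam k|) (fun _ _ => abs_nonneg _) (Finset.mem_univ _)⟩
  obtain ⟨cb, hcb⟩ : ∃ cb, ∀ j, |c j| ≤ cb := ⟨∑ j, |c j|, fun j =>
    Finset.single_le_sum (f := fun j => |c j|) (fun _ _ => abs_nonneg _) (Finset.mem_univ _)⟩
  obtain ⟨B, hB⟩ : ∃ B, B = cb + 4 * A + Λ / 2 + 1 := ⟨_, rfl⟩
  obtain ⟨e', he', h3, h4, h5⟩ := (cs_pos.and ((cs_ev 1 he).and
    ((Filter.eventually_all.2 fun k => cs_ev 1 (S.ρ_pos k)).and
      (Filter.eventually_all.2 fun j => cs_ev 1 (hγ' j))))).exists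
  obtain ⟨θ, hθ, hθ1, hθ2⟩ := (cs_pos.and ((cs_ev 1 one_pos).and
    (cs_ev |F - ε / 4 + B| hε4))).exists
  simp only [one_mul] at h3 h4 h5 hθ1
  have ind : ∀ N₁ : ℕ, N₀ ≤ N₁ → 0 < N₁ → ∀ (t : ℕ) (ι : Type) [Fintype ι] [DecidableEq ι]
      (lab : ι → κ) (fld : ι → J), N₁ + t * M ≤ Fintype.card ι →
      (∀ k, |(ct lab k : ℝ) - S.ρ k * Fintype.card ι| ≤ e' * N₁) →
      (∀ j, |(ct fld j : ℝ) - γ j * Fintype.card ι| ≤ e' * N₁) →
      t * M * (F - ε / 4) - (Fintype.card ι - t * M) * B ≤ av R s S.lam c m A lab fld := by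
    intro N₁ hN₁ hN₁' t
    induction t with
    | zero =>
      intro ι _ _ lab fld _ _ _
      have := av_lower (R := R) (lab := lab) (fld := fld) hA hs hΛ hcb fun j => (hm j).le
      rw [← hB] at this
      simpa using this
    | succ t ih =>
      intro ι _ _ lab fld hN hl hf
      obtain ⟨N, hNe⟩ : ∃ N, Fintype.card ι = N + M := ⟨Fintype.card ι - M, by
        rw [Nat.succ_mul] at hN; omega⟩
      have hN' : N₁ + t * M ≤ N := by rw [Nat.succ_mul] at hN; omega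
      have hN'' : N₁ ≤ N := by omega
      obtain ⟨lab', a1, a2, a3⟩ := lm_rem lab lC hlC hNe hN₁' hN'' h4 he'.le hl
      obtain ⟨fld', b1, b2, b3⟩ := lm_rem fld fC hfC hNe hN₁' hN'' h5 he'.le hf
      have c1 := ih (Fin N) lab' fld' (by rwa [Fintype.card_fin]) a2 b2
      have c2 := hstep (Fin N) ι lab' fld' lab fld (by rw [Fintype.card_fin]; omega) (a3.mono h3)
        (b3.mono h3) a1 b1
      rw [Fintype.card_fin] at c1 c2
      rw [hNe]
      push_cast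
      exact le_trans (by linarith) c2
  obtain ⟨N₂, hN₂⟩ := Filter.eventually_atTop.1 ((Filter.eventually_gt_atTop 0).and
    ((tendsto_natCast_atTop_atTop.eventually_ge_atTop ((N₀ : ℝ) / θ)).and
      (tendsto_natCast_atTop_atTop.eventually_ge_atTop ((1 + M) * |F - ε / 4 + B| / (ε / 4)))))
  refine ⟨e' * θ, mul_pos he' hθ, N₂, fun ι _ _ lab fld hN hp hp' => ?_⟩
  obtain ⟨k0, k1, k2⟩ := hN₂ _ hN
  have hN' : (0 : ℝ) < Fintype.card ι := by exact_mod_cast k0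
  rw [div_le_iff₀' hθ] at k1
  rw [div_le_iff₀ hε4] at k2
  have l1 := Nat.le_ceil (θ * Fintype.card ι)
  have l2 := Nat.ceil_lt_add_one (mul_pos hθ hN').le
  have l3 : ⌈θ * Fintype.card ι⌉₊ ≤ Fintype.card ι :=
    Nat.ceil_le.2 (mul_le_of_le_one_left hN'.le hθ1)
  have l4 : 0 < ⌈θ * Fintype.card ι⌉₊ := Nat.ceil_pos.2 (mul_pos hθ hN')
  have l5 : N₀ ≤ ⌈θ * Fintype.card ι⌉₊ := by exact_mod_cast k1.trans l1
  generalize ⌈θ * Fintype.card ι⌉₊ = N₁ at *
  have hE : ∀ x r : ℝ, |x / Fintype.card ι - r| ≤ e' * θ → |x - r * Fintype.card ι| ≤ e' * N₁ :=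
    fun x r hx => by
      rw [div_sub' hN'.ne', abs_div, abs_of_pos hN', div_le_iff₀ hN', mul_comm _ r] at hx
      linarith [mul_le_mul_of_nonneg_left l1 he'.le]
  have m1 := Nat.div_mul_le_self (Fintype.card ι - N₁) M
  have m2 := Nat.lt_div_mul_add (a := Fintype.card ι - N₁) hM
  generalize (Fintype.card ι - N₁) / M = t at *
  have m3 := ind N₁ l5 l4 t ι lab fld (by omega) (fun k => hE _ _ (hp k)) fun j => hE _ _ (hp' j)
  have m4 : (t : ℝ) * M ≤ Fintype.card ι := by exact_mod_cast (by omega : t * M ≤ Fintype.card ι)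
  have m5 : (Fintype.card ι : ℝ) ≤ N₁ + t * M + M := by
    exact_mod_cast (by omega : Fintype.card ι ≤ N₁ + t * M + M)
  have m6 := av_le (R := R) (lam := S.lam) (lab := lab) (fld := fld) (c := c) (m := m) hA hs
  have hR' : (0 : ℝ) < R := by exact_mod_cast Nat.pos_of_ne_zero (NeZero.ne R)
  have m7 := PM_mono_exp (ν := haar ι) (one_div_pos.2 hR') h1
    (measurable_logZ (fun b => S.lam (lab b)) (Vc fld c)) (lm_int _ _ m₀)
  have m8 := mul_le_mul_of_nonneg_left h2 hN'.le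
  have m9 := mul_le_mul_of_nonneg_left (le_abs_self (F - ε / 4 + B)) (sub_nonneg.2 m4)
  have m10 := mul_le_mul_of_nonneg_right
    (show (Fintype.card ι : ℝ) - t * M ≤ θ * Fintype.card ι + (1 + M) by linarith)
    (abs_nonneg (F - ε / 4 + B))
  have m11 := mul_le_mul_of_nonneg_left hθ2 hN'.le
  linarith

end Crest.Agent.R164
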