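import Crest.Agent.R164.Dat

/-!
# R164 / Stat: consequences of near maximality, exchangeability, test fields

`stat`: `le_av` and `Near.le` give the hypotheses of `px_near_max`, `y_near_max` for the small system.
With step `δ = N^{-1/2}` the second differences of the common system are bounded by a constant
`K' = 22 + 4/s + 4K` (`Crude`; `HL_shx`, `Vm_shy`, `HL_add_V`).  `conc_of_second_diff` (`m = 1/R`) with
`φ = δ • pf`, `φ = δ • Sg`; `slope_compare` between `com` and `big0`; `EE_pf`, division by `px ≥ s`,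
summation over `k` (`ov_total`, `(isOv_qt …).zero`): `N₁ (1 - T₁) - N (1 - T₀) = O(√N)`.
`exch_*`: `spin_exch` with swaps (`Vm_perm`), `qt_eq`; spins with the same field label have the same
conditional moments.  `taylor_u`: `gf_taylor` with `J = C`, flows `dz (inr r)` (see `m2_gf_hy`).
`taylor_β`: `val_taylor_bdd`.
-/

set_option autoImplicit false

open MeasureTheory ProbabilityTheory Finset Matrix

namespace Crest.Agent.R164

variable {κ J C : Type} [Fintype κ] [DecidableEq κ] [Fintype J] [DecidableEq J] [Fintype C]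
  [DecidableEq C]

lemma st1_dir {Y Y' : Type} [MeasurableSpace Y] [Lev Y] [MeasurableSpace Y'] [Lev Y'] {R : ℕ}
    (hR : 0 < R) {H φ : St R Y → ℝ} {H₁ φ₁ : St R Y' → ℝ} (hH : ML H) (hφ : ML φ) (hH₁ : ML H₁)
    (hφ₁ : ML φ₁) {n K K' : ℝ} (hn : 0 < n)
    (hK : val (ua R) (fun s => H s + n⁻¹ * φ s) + val (ua R) (fun s => H s + (-n⁻¹) * φ s) -
      2 * val (ua R) H ≤ K')
    (h0 : |val (ua R) H₁ - val (ua R) H| ≤ K)
    (hp : |val (ua R) (fun s => H₁ s + n⁻¹ * φ₁ s) - val (ua R) (fun s => H s + n⁻¹ * φ s)| ≤ K)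
    (hm : |val (ua R) (fun s => H₁ s + (-n⁻¹) * φ₁ s) -
      val (ua R) (fun s => H s + (-n⁻¹) * φ s)| ≤ K) :
    EE (ua R) H (fun s => |φ s - EE (ua R) H φ|) ≤ (K' + R + 2 * |K|) * n ∧
      |EE (ua R) H₁ φ₁ - EE (ua R) H φ| ≤ (K' + R + 2 * |K|) * n := by
  have ha := exps_ua hR
  have hR' : (0 : ℝ) < R := by exact_mod_cast hR
  constructor
  · have h := conc_of_second_diff ha hH (hφ.const_mul n⁻¹) (m := 1 / R) (K := K') (by positivity)
      (fun i hi => by
        have h1 : (i : ℝ) + 1 ≤ R := by exact_mod_cast hi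
        rw [ua, le_sub_iff_add_le, ← add_div, div_le_one hR']
        linarith) (by simpa only [neg_mul, ← sub_eq_add_neg] using hK)
    simp only [EE_const_mul, ← mul_sub, abs_mul, abs_of_pos (inv_pos.2 hn)] at h
    rw [one_div, inv_inv, inv_mul_le_iff₀' hn] at h
    refine h.trans (mul_le_mul_of_nonneg_right ?_ hn.le)
    nlinarith [Real.log_two_lt_d9, abs_nonneg K]
  · have h := slope_compare ha hH hφ hH₁ hφ₁ (inv_pos.2 hn) hK h0 hp hm
    rw [div_inv_eq_mul] at h
    refine h.trans (mul_le_mul_of_nonneg_right ?_ hn.le)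
    linarith [le_abs_self K]

lemma st1_sum {ι : Type} [Fintype ι] [DecidableEq ι] [Nonempty ι] {R : ℕ} [NeZero R] {a : ℕ → ℝ}
    (ha : Exps R a) {H : St R (YS ι) → ℝ} (hH : ML H) (lab : ι → κ) {l : ℕ} (hl : l < R) :
    ∑ k, (ov a H (Xb lab k) 0 - Tq a (ov a H (Xb lab k)) l) = 1 - Tq a (qt a H) l := by
  rw [sum_sub_distrib, ← ov_total ha hH lab (NeZero.pos R), (isOv_qt ha hH).zero]
  congr 1
  simp only [Tq]
  rw [sum_comm]
  refine sum_congr rfl fun i hi => ?_
  rw [← mul_sum, ov_total ha hH lab (by have := mem_range.1 hi; omega)]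

lemma st1_HL_shy {ι : Type} [Fintype ι] [DecidableEq ι] {R : ℕ} [NeZero R] (lam : κ → ℝ)
    (lab : ι → κ) (fld : ι → J) (c m : J → ℝ) (A : ℝ) (y : J → ℝ) (px : κ → Fin R → ℝ) (j : J)
    (t : ℝ) : HL lam lab (Vm fld c m A (shy y j t)) 0 px =
      fun x => HL lam lab (Vm fld c m A y) 0 px x + t * Sg fld j (cfg x) := by
  rw [← HL_add_V (W := fun σ => t * Sg fld j σ)]
  congr 1
  funext σ
  exact Vm_shy j t σ

lemma st1_num {N M W T₀ T₁ n ε : ℝ} (hn : 1 ≤ n) (hN : n ^ 2 = N) (hM : 0 ≤ M) (hT : |T₁| ≤ 1)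
    (h : |(N + M) * (1 - T₁) - N * (1 - T₀)| ≤ W * n) (hε : W + 2 * M ≤ ε * n) : |T₁ - T₀| ≤ ε := by
  have h0 : 0 < N := by nlinarith
  have h1 : |M * (1 - T₁)| ≤ 2 * M * n := by
    rw [abs_mul, abs_of_nonneg hM]
    have : |1 - T₁| ≤ 2 := by
      rw [abs_le] at hT ⊢
      constructor <;> linarith
    nlinarith [mul_le_mul_of_nonneg_left this hM]
  have h2 : N * |T₁ - T₀| ≤ N * ε := by
    rw [← abs_of_pos h0, ← abs_mul, abs_of_pos h0]
    have := mul_le_mul_of_nonneg_right hε (show 0 ≤ n by linarith)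
    rw [abs_le] at h h1 ⊢
    constructor <;> nlinarith
  exact le_of_mul_le_mul_left h2 h0

theorem Dat.stat (D : Dat κ J C) {A : ℝ} (hA : 0 ≤ A) (R : ℕ) [NeZero R] {s K ε : ℝ} (hs : 0 < s)
    (hs1 : s ≤ 1) (hε : 0 < ε) : ∃ N₀ : ℕ,
    ∀ (ϱ : Type) [Fintype ϱ] [DecidableEq ϱ] (labr : ϱ → κ) (fld : ϱ ⊕ C × κ → J)
      (px : κ → Fin R → ℝ) (y : J → ℝ), N₀ ≤ Fintype.card (ϱ ⊕ C × κ) →
      D.Crude A labr fld R s K → D.Near A labr fld px y s 1 →
      (∀ k l, |px k l - 3 * s / 2| ≤ s / 3) ∧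
      (∀ k l, EE (ua R) (D.com A labr fld px y) (fun t => |pf (lab0 labr D.S.k1) k l t -
        EE (ua R) (D.com A labr fld px y) (pf (lab0 labr D.S.k1) k l)|) ≤
          ε * Fintype.card (ϱ ⊕ C × κ)) ∧
      (∀ j, EE (ua R) (D.com A labr fld px y)
        (fun t => |D.dev fld j (cfg t) - D.dl A labr fld px y j|) ≤ ε) ∧
      (∀ l < R, |Tq (ua R) (qt (ua R) (D.big0 A labr fld px y)) l -
        Tq (ua R) (D.q0 A labr fld px y) l| ≤ ε) ∧
      ∀ j, |EE (ua R) (D.big0 A labr fld px y) (fun t => Sg (Sum.elim fld D.fC) j (cfg t)) -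
        EE (ua R) (D.com A labr fld px y) (fun t => Sg fld j (cfg t))| ≤
          ε * Fintype.card (ϱ ⊕ C × κ) := by
  have hR : 0 < R := NeZero.pos R
  have ha := exps_ua hR
  obtain ⟨W, hW⟩ : ∃ W, W = 22 + 4 / s + 4 * |K| + R + 2 * |K| := ⟨_, rfl⟩
  have hW0 : 0 ≤ W := by rw [hW]; positivity
  obtain ⟨W', hW'⟩ : ∃ W', W' = Fintype.card κ * (2 * W / s) := ⟨_, rfl⟩
  have hW1 : 0 ≤ W' := by rw [hW']; positivity
  obtain ⟨N₀, hN₀⟩ := exists_nat_ge ((3 / s + (W + W' + 2 * Fintype.card C) / ε) ^ 2)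
  refine ⟨N₀, fun ϱ _ _ labr fld px y hN hC hNear => ?_⟩
  obtain ⟨n, hn0, hn⟩ : ∃ n : ℝ, 0 ≤ n ∧ n ^ 2 = Fintype.card (ϱ ⊕ C × κ) :=
    ⟨_, Real.sqrt_nonneg _, Real.sq_sqrt (Nat.cast_nonneg _)⟩
  have h1 : 3 / s + (W + W' + 2 * Fintype.card C) / ε ≤ n :=
    le_of_pow_le_pow_left₀ two_ne_zero hn0 (hN₀.trans (by rw [hn]; exact_mod_cast hN))
  have h2 : 3 ≤ n * s := by
    rw [← div_le_iff₀ hs]
    exact le_trans (le_add_of_nonneg_right (by positivity)) h1
  have h3 : W + W' + 2 * Fintype.card C ≤ ε * n := by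
    rw [← div_le_iff₀' hε]
    exact le_trans (le_add_of_nonneg_left (by positivity)) h1
  have hn1 : 1 ≤ n := by nlinarith
  have hn' : 0 < n := by linarith
  have hM : (0 : ℝ) ≤ Fintype.card C := Nat.cast_nonneg _
  have hWn : W * n ≤ ε * Fintype.card (ϱ ⊕ C × κ) := by
    rw [← hn, sq, ← mul_assoc]
    exact mul_le_mul_of_nonneg_right (by linarith) hn0
  have hN0 : (0 : ℝ) < Fintype.card (ϱ ⊕ C × κ) := by rw [← hn]; positivity
  have : Nonempty (ϱ ⊕ C × κ) := Fintype.card_pos_iff.1 (by exact_mod_cast hN0)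
  have hδ : |n⁻¹| ≤ s / 3 := by
    rw [abs_of_pos (inv_pos.2 hn'), inv_le_iff_one_le_mul₀ hn']
    linarith
  have hδ' : |-n⁻¹| ≤ s / 3 := by rwa [abs_neg]
  have hNδ : (Fintype.card (ϱ ⊕ C × κ) : ℝ) * n⁻¹ ^ 2 = 1 := by rw [← hn]; field_simp
  have hle := hNear.le
  obtain ⟨hx1, hx2⟩ := px_near_max (lam := D.S.lam) (lab := labS labr D.S.k1 D.lC)
    (V := Vm fld D.c D.m A y) (hy := 0) ha hs (by rw [← hn, ← mul_pow]; nlinarith) hNear.box
    fun k l t hb => by
      have := le_av (lam := D.S.lam) (lab := labS labr D.S.k1 D.lC) (fld := fld) (c := D.c)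
        (m := D.m) hA hs hb hNear.yb
      simp only [Dat.small] at hle
      linarith
  obtain ⟨hy1, hy2⟩ := y_near_max (lam := D.S.lam) (lab := labS labr D.S.k1 D.lC) (fld := fld)
    (c := D.c) (m := D.m) (A := A) (hy := 0) (px := px) ha hs (by rw [← hn]; nlinarith) hNear.yb
    fun j t hb => by
      have := le_av (lam := D.S.lam) (lab := labS labr D.S.k1 D.lC) (fld := fld) (c := D.c)
        (m := D.m) (y := shy y j t) hA hs hNear.box fun j' => by
          simp only [shy]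
          split_ifs with h
          · rwa [h]
          · rw [add_zero]; exact hNear.yb j'
      simp only [Dat.small] at hle
      linarith
  have hpx : ∀ k l t, |t| ≤ s / 3 → ∀ k' l', |shx px k l t k' l'| ≤ 3 * s := fun k l t ht k' l' => by
    obtain ⟨b1, b2⟩ := hNear.box k' l'
    obtain ⟨b3, b4⟩ := abs_le.1 ht
    simp only [shx]
    split_ifs <;> exact abs_le.2 ⟨by linarith, by linarith⟩
  have hpx0 : ∀ k l, |px k l| ≤ 3 * s := fun k l => by
    obtain ⟨b1, b2⟩ := hNear.box k l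
    exact abs_le.2 ⟨by linarith, by linarith⟩
  have hy : ∀ j t, |t| ≤ s / 3 → ∀ j', |shy y j t j'| ≤ 1 := fun j t ht j' => by
    obtain ⟨b1, b2⟩ := abs_le.1 (hy1 j')
    obtain ⟨b3, b4⟩ := abs_le.1 ht
    simp only [shy]
    split_ifs <;> exact abs_le.2 ⟨by linarith, by linarith⟩
  have hy0 : ∀ j, |y j| ≤ 1 := fun j => (hNear.yb j).trans hs1
  have hs4 : 0 < 4 / s := by positivity
  obtain ⟨c0, c0'⟩ := hC px y hpx0 hy0
  have hX := fun k l => st1_dir hR (D.ml_com A labr fld px y) (ml_pf (lab0 labr D.S.k1) k l)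
    (D.ml_big0 A labr fld px y) (ml_pf (lab1 labr D.S.k1) k l) (K' := 22 + 4 / s + 4 * |K|) hn'
    (by
      have a1 := (hC _ y (hpx k l _ hδ) hy0).1
      have a2 := (hC _ y (hpx k l _ hδ') hy0).1
      have a3 := hx2 k l _ (hδ.trans (by linarith))
      rw [mul_assoc, hNδ] at a3
      simp only [Dat.small, Dat.com, ← HL_shx] at a1 a2 c0 ⊢
      linarith [(abs_le.1 a1).1, (abs_le.1 a2).1, (abs_le.1 c0).2, le_abs_self K]) c0'
    (by simpa only [Dat.big0, Dat.com, HL_shx] using (hC _ y (hpx k l _ hδ) hy0).2)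
    (by simpa only [Dat.big0, Dat.com, HL_shx] using (hC _ y (hpx k l _ hδ') hy0).2)
  have hY := fun j => st1_dir hR (D.ml_com A labr fld px y) (ml_cfg (Sg fld j))
    (D.ml_big0 A labr fld px y) (ml_cfg (Sg (Sum.elim fld D.fC) j)) (K' := 22 + 4 / s + 4 * |K|) hn'
    (by
      have a1 := (hC px _ hpx0 (hy j _ hδ)).1
      have a2 := (hC px _ hpx0 (hy j _ hδ')).1
      have a3 := hy2 j _ hδ
      rw [mul_assoc, hNδ] at a3
      simp only [Dat.small, Dat.com, ← st1_HL_shy] at a1 a2 c0 ⊢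
      linarith [(abs_le.1 a1).1, (abs_le.1 a2).1, (abs_le.1 c0).2, le_abs_self K]) c0'
    (by simpa only [Dat.big0, Dat.com, st1_HL_shy] using (hC px _ hpx0 (hy j _ hδ)).2)
    (by simpa only [Dat.big0, Dat.com, st1_HL_shy] using (hC px _ hpx0 (hy j _ hδ')).2)
  rw [← hW] at hX hY
  refine ⟨hx1, fun k l => (hX k l).1.trans hWn, fun j => ?_, fun l hl => ?_,
    fun j => (hY j).2.trans hWn⟩
  · have hH := D.ml_com A labr fld px y
    have e : D.dl A labr fld px y j = (Fintype.card (ϱ ⊕ C × κ) : ℝ)⁻¹ *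
        (EE (ua R) (D.com A labr fld px y) (fun t => Sg fld j (cfg t)) - D.m j * ct fld j) := by
      simp only [Dat.dl, Dat.dev, div_eq_inv_mul]
      rw [EE_const_mul, EE_sub ha hH (ml_cfg (Sg fld j)).me (ME.const _), EE_const ha hH]
    simp only [e, Dat.dev, div_eq_inv_mul, ← mul_sub, sub_sub_sub_cancel_right, abs_mul,
      abs_of_pos (inv_pos.2 hN0)]
    rw [EE_const_mul, inv_mul_le_iff₀' hN0]
    exact (hY j).1.trans hWn
  · have hH := D.ml_com A labr fld px y
    have hH₁ := D.ml_big0 A labr fld px y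
    refine st1_num (W := W') hn1 hn hM ?_ ?_ (by linarith)
    · simpa [Tq] using sup1_Tq ha (q := qt (ua R) (D.big0 A labr fld px y)) (q' := fun _ => 0)
        (η := 1) (fun i hi => by
          have := (isOv_qt ha hH₁).mem hi
          rw [sub_zero, abs_of_nonneg this.1]
          exact this.2) hl.le
    · rw [Dat.q0, ← st1_sum ha hH (lab0 labr D.S.k1) hl, ← st1_sum ha hH₁ (lab1 labr D.S.k1) hl,
        mul_sum, mul_sum, ← sum_sub_distrib]
      refine (abs_sum_le_sum_abs _ _).trans ((sum_le_card_nsmul _ _ (2 * W / s * n)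
        fun k _ => ?_).trans_eq (by rw [hW', card_univ, nsmul_eq_mul]; ring))
      have a1 := (hX k ⟨l, hl⟩).2
      have a2 := (hNear.box k ⟨l, hl⟩).1
      rw [Dat.big0, Dat.com, HL, HL, EE_pf ha _ k _ (c := px k ⟨l, hl⟩) fun b hb => by rw [hb],
        EE_pf ha _ k _ (c := px k ⟨l, hl⟩) fun b hb => by rw [hb], mul_assoc, mul_assoc, ← mul_sub,
        abs_mul, abs_of_nonneg (by linarith), Fintype.card_sum (α := ϱ ⊕ C × κ), Nat.cast_add] at a1
      rw [div_mul_eq_mul_div, le_div_iff₀' hs]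
      have a3 := (mul_le_mul_of_nonneg_right a2 (abs_nonneg _)).trans a1
      simp only [Dat.big0, Dat.com, HL]
      linarith

section exch
variable {ι : Type} [Fintype ι] [DecidableEq ι] {R : ℕ} [NeZero R] {a : ℕ → ℝ} (lam : κ → ℝ)
  (lab : ι → κ) (fld : ι → J) (c m : J → ℝ) (A : ℝ) (y : J → ℝ) (px : κ → Fin R → ℝ)

omit [Fintype κ] [DecidableEq κ] in
lemma sx_exch {r r' : ι} (h : fld r = fld r') (i : ℕ) {g : ℝ → ℝ} (hg : Measurable g) :
    EE a (HL lam lab (Vm fld c m A y) 0 px)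
        (fun s => g (E a (HL lam lab (Vm fld c m A y) 0 px) i (fun t => spn (cfg t) r) s)) =
      EE a (HL lam lab (Vm fld c m A y) 0 px)
        fun s => g (E a (HL lam lab (Vm fld c m A y) 0 px) i (fun t => spn (cfg t) r') s) := by
  have := spin_exch (a := a) (lamv := fun b => lam (lab b)) (hy := 0)
    (px := fun l b => px (lab b) l) (Equiv.swap r r')
    (Vm_perm (c := c) (m := m) (A := A) (y := y) _ fun b => Equiv.apply_swap_eq_self h b)
    (fun _ _ => rfl) r' i g hg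
  rwa [Equiv.swap_apply_right] at this

omit [DecidableEq ι] in
lemma sx_sum_ct (f : J → ℝ) : ∑ r, f (fld r) = ∑ j, ct fld j * f j := by
  rw [← sum_fiberwise univ fld]
  refine sum_congr rfl fun j _ => ?_
  rw [sum_congr rfl fun r hr => by rw [(mem_filter.1 hr).2], sum_const, nsmul_eq_mul, ct]

lemma exch_mean (ha : Exps R a) (r : ι) :
    ct fld (fld r) * EE a (HL lam lab (Vm fld c m A y) 0 px) (fun t => spn (cfg t) r) =
      EE a (HL lam lab (Vm fld c m A y) 0 px) fun t => Sg fld (fld r) (cfg t) := by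
  simp only [Sg]
  rw [EE_sum _ ha (ml_HL _ _ _ _ _) fun r' _ => (ml_cfg fun σ => spn σ r').me, ct, ← nsmul_eq_mul,
    ← sum_const]
  refine sum_congr rfl fun r' hr' => ?_
  simpa only [E_zero] using sx_exch (a := a) lam lab fld c m A y px (mem_filter.1 hr').2.symm 0
    measurable_id'

lemma exch_ct (ha : Exps R a) [Nonempty ι] (e : C → ι) {γ : J → ℝ} {η : ℝ}
    (h : ∀ j, (ct (fun r => fld (e r)) j : ℝ) = γ j * Fintype.card C) (hp : Prp fld γ η) {l : ℕ}
    (hl : l < R) :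
    |∑ r, Ct a (HL lam lab (Vm fld c m A y) 0 px) l (fun t => spn (cfg t) (e r))
        (fun t => spn (cfg t) (e r)) -
      Fintype.card C * (1 - Tq a (qt a (HL lam lab (Vm fld c m A y) 0 px)) l)| ≤
      Fintype.card C * Fintype.card J * η := by
  have hH := ml_HL lam lab (Vm fld c m A y) 0 px
  have hex := fun r r' (h : fld r = fld r') i =>
    sx_exch (a := a) lam lab fld c m A y px h i (measurable_id'.pow_const 2)
  set H := HL lam lab (Vm fld c m A y) 0 px with hHd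
  obtain ⟨T, hT⟩ : ∃ T : ι → ℝ, T = fun r =>
    Ct a H l (fun t => spn (cfg t) r) fun t => spn (cfg t) r := ⟨_, rfl⟩
  have h1 : ∀ r, T r = 1 - ∑ i ∈ range l, (a i - a (i + 1)) *
      EE a H fun s => E a H (i + 1) (fun t => spn (cfg t) r) s ^ 2 := fun r => by
    simp only [hT, Ct, ← sq, spn, sp_sq, EE_const ha hH]
  have h2 : ∀ r, |T r| ≤ 1 := fun r => by
    have := Ct_self_mem ha hH hl.le (ml_cfg (R := R) fun σ => spn σ r).me
    simp only [spn, sp_sq, EE_const ha hH] at this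
    rw [hT]
    exact abs_le.2 ⟨le_trans (by norm_num) this.1, this.2⟩
  obtain ⟨f, hf, hf1⟩ : ∃ f : J → ℝ, (∀ r, T r = f (fld r)) ∧ ∀ j, |f j| ≤ 1 := by
    classical
    refine ⟨fun j => if h : ∃ r, fld r = j then T h.choose else 0, fun r => ?_, fun j => ?_⟩
    · have h3 : ∃ r', fld r' = fld r := ⟨r, rfl⟩
      simp only [dif_pos h3, h1, hex _ _ h3.choose_spec]
    · dsimp only
      split_ifs
      exacts [h2 _, by simp]
  have hN : (0 : ℝ) < Fintype.card ι := by exact_mod_cast Fintype.card_pos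
  have h3 : 1 - Tq a (qt a H) l = ∑ j, ct fld j / Fintype.card ι * f j := by
    simp only [div_mul_eq_mul_div, ← sum_div]
    rw [← sx_sum_ct, eq_div_iff hN.ne', ← sum_congr rfl fun r _ => hf r]
    simp only [h1, sum_sub_distrib]
    rw [sum_comm, sub_mul, Tq, sum_mul]
    congr 1
    · simp
    · refine sum_congr rfl fun i hi => ?_
      rw [← mul_sum, ← qt_eq ha hH (by have := mem_range.1 hi; omega)]
      ring
  have h4 : ∑ r, T (e r) = Fintype.card C * ∑ j, γ j * f j := by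
    rw [sum_congr rfl fun r _ => hf (e r), sx_sum_ct (fun r => fld (e r)) f, mul_sum]
    exact sum_congr rfl fun j _ => by rw [h]; ring
  rw [hT] at h4
  rw [h4, h3, ← mul_sub, abs_mul, Nat.abs_cast, mul_assoc, ← sum_sub_distrib]
  refine mul_le_mul_of_nonneg_left ((abs_sum_le_sum_abs _ _).trans
    ((sum_le_sum (g := fun _ => η) fun j _ => ?_).trans (by simp))) (Nat.cast_nonneg _)
  rw [← sub_mul, abs_mul, abs_sub_comm]
  exact (mul_le_of_le_one_right (abs_nonneg _) (hf1 j)).trans (hp j)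

end exch

variable {ϱ : Type} [Fintype ϱ] [DecidableEq ϱ] (D : Dat κ J C) {R : ℕ} [NeZero R] (A : ℝ)
  (labr : ϱ → κ) (fld : ϱ ⊕ C × κ → J) (px : κ → Fin R → ℝ) (y : J → ℝ)

lemma Dat.taylor_u (l : Fin R) {u : ℝ} (hu : 0 ≤ u) (hu1 : u ≤ 1) :
    |val (ua R) (D.big A labr fld px y (fun _ i => if i = l then u else 0) 0) -
      val (ua R) (D.big0 A labr fld px y) - u / 2 * ∑ r, Ct (ua R) (D.big0 A labr fld px y) l
        (fun t => spn (cfg t) (Sum.inr r)) (fun t => spn (cfg t) (Sum.inr r))| ≤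
      40 * (Fintype.card C : ℝ) ^ 2 * (u * Real.sqrt u) := by
  have hG : GF (D.big0 A labr fld px y) (fun r : C => dz (Sum.inr r)) (fun _ => l)
      fun r s => spn (cfg s) (Sum.inr r) :=
    { ml := D.ml_big0 A labr fld px y
      meas := fun r => measurable_cfg_comp fun σ => spn σ (Sum.inr r)
      bdd := ⟨1, fun j s => by simp [spn]⟩
      H_inv := fun j θ s => by rw [Dat.big0, HL, Ham_dz]; simp
      z_inv := fun j k θ s => by rw [cfg_dz]
      γ_act := fun j k θ s => by rw [γ_dz, γ_dz, z_dz]; simp }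
  have h := gf_taylor (exps_ua (Nat.pos_of_ne_zero (NeZero.ne R))) hG (fun j s => by simp [spn])
    (Real.sqrt_nonneg u) (Real.sqrt_le_one.2 hu1)
  have e : D.big A labr fld px y (fun _ i => if i = l then u else 0) 0 = fun s =>
      D.big0 A labr fld px y s + ∑ r : C, Real.sqrt u *
        ((dz (Sum.inr r)).γ (s l) * spn (cfg s) (Sum.inr r)) := by
    funext s
    have e1 : ∀ l' : Fin R, Real.sqrt (if (l' : ℕ) = l then u else 0) =
        if l' = l then Real.sqrt u else 0 := fun l' => by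
      simp only [Fin.val_inj]
      split_ifs <;> simp
    simp only [Dat.big, Dat.big0, bigH, HL, Ham, γ_dz, Fintype.sum_sum_type (α₂ := C),
      Sum.elim_inl, Sum.elim_inr, Pi.zero_apply, zero_mul, sum_const_zero, add_zero, zero_add, e1,
      ← mul_sum, ite_mul, sum_ite_irrel, sum_ite_eq', mem_univ, if_true]
    ring
  rwa [pow_succ _ 2, Real.sq_sqrt hu, ← e] at h

lemma Dat.taylor_β (β : C → ℝ) {b : ℝ} (hb : Fintype.card C * b ≤ 1 / 2) (h : ∀ r, |β r| ≤ b) :
    |val (ua R) (D.big A labr fld px y 0 β) - val (ua R) (D.big0 A labr fld px y) -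
      ∑ r, β r * EE (ua R) (D.big0 A labr fld px y) fun t => spn (cfg t) (Sum.inr r)| ≤
      4 * (Fintype.card C * b) ^ 2 := by
  have ha := exps_ua (Nat.pos_of_ne_zero (NeZero.ne R))
  have e : D.big A labr fld px y 0 β = fun s =>
      D.big0 A labr fld px y s + ∑ r, β r * spn (cfg s) (Sum.inr r) := by
    rw [Dat.big0, ← HL_add_V (W := fun σ => ∑ r, β r * spn σ (Sum.inr r))]
    unfold Dat.big bigH HL
    congr 1
    funext l r
    cases r <;> simp
  have h1 := val_taylor_bdd ha (D.ml_big0 A labr fld px y)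
    (measurable_cfg_comp fun σ => ∑ r, β r * spn σ (Sum.inr r)) hb fun s =>
      (abs_sum_le_sum_abs _ _).trans ((sum_le_sum (g := fun _ => b) fun r _ => by
        simpa [abs_mul, spn] using h r).trans (by simp))
  rw [EE_sum _ ha (D.ml_big0 A labr fld px y) fun r _ =>
    ((ml_cfg fun σ => spn σ (Sum.inr r)).const_mul (β r)).me] at h1
  simpa only [e, EE_const_mul] using h1

end Crest.Agent.R164
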