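import Crest.Agent.R164.Labels
import Crest.Agent.R164.Conc
import Crest.Agent.R164.LowerMain
import Crest.Agent.R164.UpperMain

/-!
# R164 / Tails: exponential tails of the pressure under Haar measure

`tail_upper`: `ubh_of_lt`, `exists_spec_upper`, `UBh.mono`, `upper_main`, `logZ_mono`, Markov
(`exp_PM`).  `tail_lower`: `lbh_of_lt`, `exists_spec_lower`, `LBh.mono`; take `δ` from `conc_main`
(`ρ₀ = min ρ / 2`; `ct lab (lab b) ≤ ct (lam ∘ lab) (lam (lab b))`), `B` with `logZ ≤ N B` (`logZ_le`),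
`m₀` with `m₀ (B - F + ε) ≤ δ/2`; from `lower_main`,
`e^{m₀ N (F - ε)} ≤ e^{m₀ N (F - 2ε)} + P(logZ ≥ N (F - 2ε)) e^{m₀ N B}`.
`tails_fin`: the pressure is bounded by a constant `B` for large `N` (`logZ_le`, `le_logZ`), so the
value is neither `⊤` nor `⊥` (a probability `1` event cannot have probability `≤ e^{-cN}`).
-/

set_option autoImplicit false

open MeasureTheory ProbabilityTheory Finset Filter Crest.ProbabilityR.InvariantGlass

namespace Crest.Agent.R164

lemma pressure_eq {N : ℕ} (eig c : Fin N → ℝ) (U : Orth (Fin N)) :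
    pressureFieldN eig U.1 c = logZ eig (fun σ => ∑ r, c r * spn σ r) U / N := by
  have e : ∀ σ : Fin N → Bool, spinVec σ = spn σ := fun _ => rfl
  simp only [pressureFieldN, logZ, e, Fintype.card_fin, div_eq_inv_mul, mul_one]
lemma pressure_zero {N : ℕ} (eig : Fin N → ℝ) (U : Matrix (Fin N) (Fin N) ℝ) :
    pressureFieldN eig U (fun _ => 0) = pressureN eig U := by
  simp only [pressureFieldN, pressureN, zero_mul, Finset.sum_const_zero, add_zero]
lemma tl_log {α : Type} [Fintype α] [Nonempty α] {f g : α → ℝ} {k D : ℝ} (hk : 0 < k)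
    (h : ∀ a, f a ≤ g a + D) :
    Real.log (k * ∑ a, Real.exp (f a)) - Real.log (k * ∑ a, Real.exp (g a)) ≤ D := by
  have hf : 0 < k * ∑ a, Real.exp (f a) :=
    mul_pos hk (Finset.sum_pos (fun _ _ => Real.exp_pos _) univ_nonempty)
  have hg : 0 < k * ∑ a, Real.exp (g a) :=
    mul_pos hk (Finset.sum_pos (fun _ _ => Real.exp_pos _) univ_nonempty)
  rw [sub_le_iff_le_add', ← Real.log_exp D, ← Real.log_mul hg.ne' (Real.exp_pos _).ne']
  refine Real.log_le_log hf ?_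
  rw [mul_assoc, Finset.sum_mul]
  refine mul_le_mul_of_nonneg_left (Finset.sum_le_sum fun a _ => ?_) hk.le
  rw [← Real.exp_add]
  exact Real.exp_le_exp.2 (h a)
lemma pressure_lip {N : ℕ} (eig c c' : Fin N → ℝ) (U : Matrix (Fin N) (Fin N) ℝ) :
    |pressureFieldN eig U c - pressureFieldN eig U c'| ≤ (∑ r, |c r - c' r|) / N := by
  have key : ∀ c c' : Fin N → ℝ, pressureFieldN eig U c - pressureFieldN eig U c' ≤
      (∑ r, |c r - c' r|) / N := fun c c' => by
    unfold pressureFieldN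
    rw [← mul_sub, div_eq_inv_mul (∑ r, |c r - c' r|), one_div]
    refine mul_le_mul_of_nonneg_left (tl_log (by positivity) fun σ => ?_) (by positivity)
    have : ∑ r, c r * spinVec σ r - ∑ r, c' r * spinVec σ r ≤ ∑ r, |c r - c' r| := by
      rw [← Finset.sum_sub_distrib]
      refine Finset.sum_le_sum fun r _ => ?_
      rw [← sub_mul]
      refine (le_abs_self _).trans (le_of_eq ?_)
      rw [abs_mul, show |spinVec σ r| = 1 from abs_sp _, mul_one]
    linarith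
  have h1 := key c c'
  have h2 := key c' c
  simp only [abs_sub_comm (c' _)] at h2
  exact abs_le.2 ⟨by linarith, h1⟩

/-- Exponential concentration of the pressure around `F` within `η`. -/
def Tail (eig c : (N : ℕ) → Fin N → ℝ) (F η : ℝ) : Prop :=
  ∃ c₀ : ℝ, 0 < c₀ ∧ ∀ᶠ N : ℕ in atTop, (haar (Fin N)).real
    {U | η ≤ |pressureFieldN (eig N) U.1 (c N) - F|} ≤ Real.exp (-(c₀ * N))

variable {μ : Measure ℝ} [IsProbabilityMeasure μ] {lamMinus lamPlus : ℝ} {eig : (N : ℕ) → Fin N → ℝ}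
  {J : ℕ} {cval : Fin J → ℝ} {γ : Fin J → ℚ} {lab : (N : ℕ) → Fin N → Fin J}

lemma tl_abs {ι : Type} [Fintype ι] (c : ι → ℝ) (σ : ι → Bool) :
    |∑ r, c r * spn σ r| ≤ ∑ r, |c r| := by
  refine (Finset.abs_sum_le_sum_abs _ _).trans (le_of_eq (Finset.sum_congr rfl fun r _ => ?_))
  rw [abs_mul, show |spn σ r| = 1 from abs_sp _, mul_one]

lemma tl_sum_le {ι J : Type} [Fintype ι] [Fintype J] (c : J → ℝ) (fld : ι → J) :
    ∑ r, |c (fld r)| ≤ Fintype.card ι * ∑ j, |c j| := by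
  rw [← nsmul_eq_mul, ← Finset.card_univ]
  exact Finset.sum_le_card_nsmul _ _ _ fun r _ =>
    Finset.single_le_sum (f := fun j => |c j|) (fun _ _ => abs_nonneg _) (Finset.mem_univ _)

lemma tl_int {ι : Type} [Fintype ι] [DecidableEq ι] (lamv : ι → ℝ) (V : (ι → Bool) → ℝ) (m : ℝ) :
    Integrable (fun U => Real.exp (m * logZ lamv V U)) (haar ι) := by
  refine mom_int (Real.continuous_exp.comp (continuous_const.mul ?_))
  have := fun σ : ι → Bool => mom_cont (spn σ)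
  unfold logZ
  exact Continuous.log (by fun_prop) fun U => (mul_pos (by positivity)
    (Finset.sum_pos (fun _ _ => Real.exp_pos _) univ_nonempty)).ne'

lemma tl_markov {P : Type} [MeasurableSpace P] {ν : Measure P} [IsProbabilityMeasure ν] {m : ℝ}
    (hm : 0 < m) {F : P → ℝ} (hF : Integrable (fun p => Real.exp (m * F p)) ν) {A D : ℝ}
    (h : PM m ν F ≤ A - D) : ν.real {p | A ≤ F p} ≤ Real.exp (-(m * D)) := by
  have h1 := mul_meas_ge_le_integral_of_nonneg (ae_of_all _ fun p => (Real.exp_pos _).le) hF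
    (Real.exp (m * A))
  rw [← exp_PM hm hF] at h1
  have h2 : ν.real {p | A ≤ F p} ≤ ν.real {p | Real.exp (m * A) ≤ Real.exp (m * F p)} :=
    measureReal_mono fun p hp => Real.exp_le_exp.2 (mul_le_mul_of_nonneg_left hp hm.le)
  have h3 : Real.exp (m * PM m ν F) ≤ Real.exp (m * A) * Real.exp (-(m * D)) := by
    rw [← Real.exp_add]
    exact Real.exp_le_exp.2 (by linarith [mul_le_mul_of_nonneg_left h hm.le])
  exact le_of_mul_le_mul_left
    ((mul_le_mul_of_nonneg_left h2 (Real.exp_pos _).le).trans (h1.trans h3)) (Real.exp_pos _)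

lemma tl_rev {P : Type} [MeasurableSpace P] {ν : Measure P} [IsProbabilityMeasure ν] {m : ℝ}
    (hm : 0 < m) {F : P → ℝ} (hF' : Measurable F) (hF : Integrable (fun p => Real.exp (m * F p)) ν)
    {A D B : ℝ} (hB : ∀ p, F p ≤ B) (hD : 1 ≤ m * D) (h : A + D ≤ PM m ν F) :
    Real.exp (-(m * (B - A))) ≤ ν.real {p | A ≤ F p} := by
  have hS : MeasurableSet {p | A ≤ F p} := measurableSet_le measurable_const hF'
  have h1 : ∫ p, Real.exp (m * F p) ∂ν ≤
      ∫ p, (Real.exp (m * A) + {p | A ≤ F p}.indicator (fun _ => Real.exp (m * B)) p) ∂ν := by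
    refine integral_mono hF ((integrable_const _).add ((integrable_const _).indicator hS))
      fun p => ?_
    by_cases hp : p ∈ {p | A ≤ F p}
    · simp only [Set.indicator_of_mem hp]
      linarith [Real.exp_pos (m * A), Real.exp_le_exp.2 (mul_le_mul_of_nonneg_left (hB p) hm.le)]
    · simp only [Set.indicator_of_notMem hp, add_zero]
      exact Real.exp_le_exp.2 (mul_le_mul_of_nonneg_left (not_le.1 hp).le hm.le)
  rw [integral_add (integrable_const _) ((integrable_const _).indicator hS),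
    integral_indicator_const _ hS, ← exp_PM hm hF] at h1
  simp only [integral_const, probReal_univ, smul_eq_mul, one_mul] at h1
  have h2 : Real.exp (m * A) * Real.exp (m * D) ≤ Real.exp (m * PM m ν F) := by
    rw [← Real.exp_add]
    exact Real.exp_le_exp.2 (by linarith [mul_le_mul_of_nonneg_left h hm.le])
  have h3 : 2 ≤ Real.exp (m * D) := by linarith [Real.add_one_le_exp (m * D)]
  have h4 := mul_le_mul_of_nonneg_left h3 (Real.exp_pos (m * A)).le
  have h5 : Real.exp (-(m * (B - A))) * Real.exp (m * B) = Real.exp (m * A) := by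
    rw [← Real.exp_add]; congr 1; ring
  exact le_of_mul_le_mul_right (by linarith) (Real.exp_pos (m * B))

lemma pressure_bdd (h : SpH μ lamMinus lamPlus eig) {c : (N : ℕ) → Fin N → ℝ} {B : ℝ}
    (hc : ∀ᶠ N : ℕ in atTop, (∑ r, |c N r|) / N ≤ B) : ∃ B' : ℝ, ∀ᶠ N : ℕ in atTop,
    ∀ U : Orth (Fin N), |pressureFieldN (eig N) U.1 (c N)| ≤ B' := by
  refine ⟨B + (|lamMinus| + |lamPlus| + 1) / 2 + 1, ?_⟩
  filter_upwards [hc, h.ext 1 one_pos, eventually_gt_atTop 0] with N h1 h2 hN U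
  have hN' : (0 : ℝ) < N := by exact_mod_cast hN
  have hΛ : ∀ i, |eig N i| ≤ |lamMinus| + |lamPlus| + 1 := fun i =>
    abs_le.2 ⟨by linarith [(h2 i).1, neg_abs_le lamMinus, abs_nonneg lamPlus],
      by linarith [(h2 i).2, le_abs_self lamPlus, abs_nonneg lamMinus]⟩
  rw [div_le_iff₀ hN'] at h1
  have h3 := logZ_le hΛ (fun σ => (abs_le.1 (tl_abs (c N) σ)).2) U
  have h4 := le_logZ (V := fun σ => ∑ r, c N r * spn σ r) hΛ (fun _ => true) U
  have h5 := (abs_le.1 (tl_abs (c N) fun _ => true)).1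
  rw [Fintype.card_fin] at h3 h4
  rw [pressure_eq, abs_div, abs_of_pos hN', div_le_iff₀ hN']
  exact abs_le.2 ⟨by linarith, by linarith⟩

theorem tail_upper (h : SpH μ lamMinus lamPlus eig) (hγ : ∀ j, 0 < γ j) (hγs : ∑ j, γ j = 1)
    (hp : ∀ e : ℝ, 0 < e → ∀ᶠ N : ℕ in atTop, Prp (lab N) (fun j => (γ j : ℝ)) e) {F : ℝ}
    (hF : magneticValue μ lamPlus cval γ < (F : EReal)) : ∃ c₀ : ℝ, 0 < c₀ ∧ ∀ᶠ N : ℕ in atTop,
    (haar (Fin N)).real {U | F ≤ pressureFieldN (eig N) U.1 fun r => cval (lab N r)} ≤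
      Real.exp (-(c₀ * N)) := by
  obtain ⟨F₀, h0, h1⟩ := EReal.lt_iff_exists_real_btwn.1 hF
  have hε : 0 < (F - F₀) / 3 := by
    have := EReal.coe_lt_coe_iff.1 h1
    linarith
  obtain ⟨K, S, hS, hlab⟩ := exists_spec_upper h hε
  obtain ⟨m₀, e, hm₀, he, N₀, hN₀⟩ := upper_main S (fun j => (γ j : ℝ))
    (fun j => by exact_mod_cast hγ j) (by exact_mod_cast hγs) cval
    ((ubh_of_lt μ lamPlus cval γ h0).mono hS) hε
  refine ⟨m₀ * ((F - F₀) / 3), mul_pos hm₀ hε, ?_⟩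
  filter_upwards [hlab e he, hp e he, eventually_ge_atTop N₀, eventually_gt_atTop 0] with N
    ⟨lb, h2, h3⟩ h4 h5 hN
  have hN' : (0 : ℝ) < N := by exact_mod_cast hN
  have h6 := hN₀ (Fin N) lb (lab N) (by rwa [Fintype.card_fin]) h2 h4
  rw [Fintype.card_fin] at h6
  have h7 := tl_markov hm₀ (tl_int (fun b => S.lam (lb b)) (Vc (lab N) cval) m₀) (A := F * N)
    (D := (F - F₀) / 3 * N) (by linarith)
  rw [mul_assoc]
  refine le_trans (measureReal_mono fun U hU => ?_) h7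
  have h8 : F ≤ pressureFieldN (eig N) U.1 fun r => cval (lab N r) := hU
  rw [pressure_eq, le_div_iff₀ hN'] at h8
  have h9 := logZ_mono (V := Vc (lab N) cval) (c := 0) h3 (fun σ => (add_zero _).ge) U
  exact h8.trans (by rwa [add_zero] at h9)

theorem tail_lower (h : SpH μ lamMinus lamPlus eig) (hγ : ∀ j, 0 < γ j) (hγs : ∑ j, γ j = 1)
    (hp : ∀ e : ℝ, 0 < e → ∀ᶠ N : ℕ in atTop, Prp (lab N) (fun j => (γ j : ℝ)) e) {F : ℝ}
    (hF : (F : EReal) < magneticValue μ lamPlus cval γ) : ∃ c₀ : ℝ, 0 < c₀ ∧ ∀ᶠ N : ℕ in atTop,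
    (haar (Fin N)).real {U | (pressureFieldN (eig N) U.1 fun r => cval (lab N r)) ≤ F} ≤
      Real.exp (-(c₀ * N)) := by
  obtain ⟨F₀, h0, h1⟩ := EReal.lt_iff_exists_real_btwn.1 hF
  obtain ⟨ε, hεd⟩ : ∃ ε, ε = (F₀ - F) / 4 := ⟨_, rfl⟩
  have hε : 0 < ε := by
    have := EReal.coe_lt_coe_iff.1 h0
    linarith
  obtain ⟨m, hm, hL⟩ := lbh_of_lt μ lamPlus cval γ h1
  obtain ⟨K, S, ρ, hρ, hS, hlab⟩ := exists_spec_lower h hε
  obtain ⟨k₀, -, hk₀⟩ := Finset.exists_min_image univ S.ρ ⟨S.k1, Finset.mem_univ _⟩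
  have hρ₀ : 0 < S.ρ k₀ / 2 := half_pos (S.ρ_pos k₀)
  obtain ⟨δ, hδ, N₁, hN₁⟩ := conc_main (∑ k, |S.lam k|) (S.ρ k₀ / 2) ε hρ₀ hε
  obtain ⟨B, hB⟩ : ∃ B, B = ∑ j, |cval j| + (∑ k, |S.lam k|) / 2 := ⟨_, rfl⟩
  have hQ : 0 < |B - (F₀ - 3 * ε)| + 1 := by positivity
  obtain ⟨m₀, hm₀d⟩ : ∃ m₀, m₀ = δ / (|B - (F₀ - 3 * ε)| + 1) := ⟨_, rfl⟩
  have hm₀ : 0 < m₀ := by rw [hm₀d]; positivity
  have hm₀δ : m₀ * (B - (F₀ - 3 * ε)) ≤ δ := by
    have h2 : m₀ * (|B - (F₀ - 3 * ε)| + 1) = δ := by rw [hm₀d, div_mul_cancel₀ _ hQ.ne']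
    have h3 := mul_le_mul_of_nonneg_left (le_abs_self (B - (F₀ - 3 * ε))) hm₀.le
    linarith
  obtain ⟨e, he, N₀, hN₀⟩ := lower_main S ρ hρ γ hγ hγs cval (fun j => (m j : ℝ))
    (fun j => abs_lt.2 ⟨by exact_mod_cast (hm j).1, by exact_mod_cast (hm j).2⟩) (hL.mono hS) hε hm₀
  refine ⟨δ, hδ, ?_⟩
  filter_upwards [hlab _ (lt_min he hρ₀), hp e he, eventually_ge_atTop N₀, eventually_ge_atTop N₁,
    eventually_gt_atTop 0, tendsto_natCast_atTop_atTop.eventually_ge_atTop (1 / (m₀ * ε))] with N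
    ⟨lb, h2, h3⟩ h4 h5 h5' hN hNm
  have hN' : (0 : ℝ) < N := by exact_mod_cast hN
  have h6 := hN₀ (Fin N) lb (lab N) (by rwa [Fintype.card_fin]) (h2.mono (min_le_left _ _)) h4
  have hΛ : ∀ b, |S.lam (lb b)| ≤ ∑ k, |S.lam k| := fun b =>
    Finset.single_le_sum (f := fun k => |S.lam k|) (fun _ _ => abs_nonneg _) (Finset.mem_univ _)
  have h7 := hN₁ (Fin N) (fun b => S.lam (lb b)) (Vc (lab N) cval) ((F₀ - 3 * ε) * N)
    (by rwa [Fintype.card_fin]) hΛ (fun b => ?_) ?_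
  · rw [Fintype.card_fin] at h7
    refine le_trans (measureReal_mono fun U hU => ?_) h7
    have h8 : (pressureFieldN (eig N) U.1 fun r => cval (lab N r)) ≤ F := hU
    rw [pressure_eq, div_le_iff₀ hN'] at h8
    have h9 := logZ_mono (V := Vc (lab N) cval) (c := 0) h3 (fun σ => (add_zero _).ge) U
    rw [add_zero] at h9
    refine (h9.trans h8).trans (le_of_eq ?_)
    rw [hεd]; ring
  · have h8 := (abs_le.1 ((h2 (lb b)).trans (min_le_right _ _))).1
    have h9 : ct lb (lb b) ≤ ct (fun b => S.lam (lb b)) (S.lam (lb b)) :=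
      Finset.card_le_card fun b' hb' => by
        simp only [Finset.mem_filter, Finset.mem_univ, true_and] at hb' ⊢
        rw [hb']
    have h10 : S.ρ k₀ / 2 ≤ (ct lb (lb b) : ℝ) / Fintype.card (Fin N) := by
      linarith [hk₀ (lb b) (Finset.mem_univ _)]
    rw [le_div_iff₀ (by rwa [Fintype.card_fin])] at h10
    exact h10.trans (by exact_mod_cast h9)
  · rw [Fintype.card_fin] at h6 ⊢
    rw [div_le_iff₀ (mul_pos hm₀ hε)] at hNm
    refine le_trans (Real.exp_le_exp.2 ?_) (tl_rev hm₀ (measurable_logZ _ _)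
      (tl_int (fun b => S.lam (lb b)) (Vc (lab N) cval) m₀) (D := ε * N) (B := B * N)
      (fun U => ?_) (by linarith) (by linarith))
    · linarith [mul_le_mul_of_nonneg_right hm₀δ hN'.le]
    · have h8 := logZ_le hΛ (V := Vc (lab N) cval) (fun σ => (abs_le.1
        ((tl_abs (fun r => cval (lab N r)) σ).trans (tl_sum_le cval (lab N)))).2) U
      rw [Fintype.card_fin] at h8
      rw [hB]
      linarith

theorem tails_fin (h : SpH μ lamMinus lamPlus eig) (hγ : ∀ j, 0 < γ j) (hγs : ∑ j, γ j = 1)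
    (hp : ∀ j : Fin J, Tendsto
      (fun N : ℕ => ((univ.filter fun r : Fin N => lab N r = j).card : ℝ) / (N : ℝ))
      atTop (nhds ((γ j : ℚ) : ℝ))) (cval : Fin J → ℝ) :
    ∃ F : ℝ, magneticValue μ lamPlus cval γ = (F : EReal) ∧
      ∀ η : ℝ, 0 < η → Tail eig (fun N r => cval (lab N r)) F η := by
  have hp' : ∀ e : ℝ, 0 < e → ∀ᶠ N : ℕ in atTop, Prp (lab N) (fun j => (γ j : ℝ)) e := fun e he =>
    eventually_all.2 fun j => by
      filter_upwards [Metric.tendsto_nhds.1 (hp j) e he] with N hN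
      rw [Fintype.card_fin]
      exact (Real.dist_eq _ _ ▸ hN).le
  obtain ⟨B, hB⟩ := pressure_bdd h (c := fun N r => cval (lab N r)) (B := ∑ j, |cval j|)
    (Eventually.of_forall fun N => div_le_of_le_mul₀ (Nat.cast_nonneg _)
      (Finset.sum_nonneg fun _ _ => abs_nonneg _) (by
        have := tl_sum_le cval (lab N)
        rwa [Fintype.card_fin, mul_comm] at this))
  have no : ∀ (c₀ : ℝ) (s : (N : ℕ) → Set (Orth (Fin N))), 0 < c₀ →
      (∀ᶠ N : ℕ in atTop, (haar (Fin N)).real (s N) ≤ Real.exp (-(c₀ * N))) →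
      (∀ᶠ N : ℕ in atTop, ∀ U, U ∈ s N) → False := fun c₀ s hc h1 h2 => by
    obtain ⟨N, h3, h4, hN⟩ := (h1.and (h2.and (eventually_gt_atTop 0))).exists
    have hN' : (0 : ℝ) < N := by exact_mod_cast hN
    rw [Set.eq_univ_of_forall h4, probReal_univ] at h3
    exact absurd h3 (not_le.2 (Real.exp_lt_one_iff.2 (neg_lt_zero.2 (mul_pos hc hN'))))
  have h1 : magneticValue μ lamPlus cval γ ≠ ⊤ := fun ht => by
    obtain ⟨c₀, hc, h2⟩ := tail_lower (cval := cval) h hγ hγs hp' (F := B)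
      (by rw [ht]; exact EReal.coe_lt_top _)
    exact no c₀ _ hc h2 (hB.mono fun N hN U => (abs_le.1 (hN U)).2)
  have h2 : magneticValue μ lamPlus cval γ ≠ ⊥ := fun ht => by
    obtain ⟨c₀, hc, h2⟩ := tail_upper (cval := cval) h hγ hγs hp' (F := -B)
      (by rw [ht]; exact EReal.bot_lt_coe _)
    exact no c₀ _ hc h2 (hB.mono fun N hN U => (abs_le.1 (hN U)).1)
  obtain ⟨F, hF⟩ : ∃ F : ℝ, magneticValue μ lamPlus cval γ = (F : EReal) :=
    ⟨_, (EReal.coe_toReal h1 h2).symm⟩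
  refine ⟨F, hF, fun η hη => ?_⟩
  obtain ⟨c₁, hc₁, h3⟩ := tail_upper (cval := cval) h hγ hγs hp' (F := F + η)
    (by rw [hF]; exact EReal.coe_lt_coe_iff.2 (by linarith))
  obtain ⟨c₂, hc₂, h4⟩ := tail_lower (cval := cval) h hγ hγs hp' (F := F - η)
    (by rw [hF]; exact EReal.coe_lt_coe_iff.2 (by linarith))
  have hc : 0 < min c₁ c₂ / 2 := half_pos (lt_min hc₁ hc₂)
  refine ⟨min c₁ c₂ / 2, hc, ?_⟩
  filter_upwards [h3, h4, tendsto_natCast_atTop_atTop.eventually_ge_atTop (1 / (min c₁ c₂ / 2))]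
    with N h5 h6 hN
  have hN0 : (0 : ℝ) ≤ N := Nat.cast_nonneg _
  rw [div_le_iff₀ hc] at hN
  refine le_trans (measureReal_mono ?_) ((measureReal_union_le _ _).trans
    ((add_le_add h5 h6).trans ?_))
  · intro U hU
    rcases le_abs.1 (show η ≤ |_| from hU) with h7 | h7
    · exact Or.inl (show F + η ≤ _ by linarith)
    · exact Or.inr (show _ ≤ F - η by linarith)
  · have a1 := mul_le_mul_of_nonneg_right (min_le_left c₁ c₂) hN0
    have a2 := mul_le_mul_of_nonneg_right (min_le_right c₁ c₂) hN0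
    generalize min c₁ c₂ = c at *
    have b1 : Real.exp (-(c₁ * N)) ≤ Real.exp (-(c * N)) := Real.exp_le_exp.2 (by linarith)
    have b2 : Real.exp (-(c₂ * N)) ≤ Real.exp (-(c * N)) := Real.exp_le_exp.2 (by linarith)
    have b3 : Real.exp (-(c / 2 * N)) = Real.exp (-(c * N)) * Real.exp (c / 2 * N) := by
      rw [← Real.exp_add]; congr 1; ring
    have b4 : 2 ≤ Real.exp (c / 2 * N) := by linarith [Real.add_one_le_exp (c / 2 * N)]
    have b5 := mul_le_mul_of_nonneg_left b4 (Real.exp_pos (-(c * N))).le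
    linarith

end Crest.Agent.R164
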