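import Crest.Agent.R164.Conv
import Crest.Agent.R164.W1

/-!
# R164 / Trans: S0249

For an alphabet `(J, cq, γ)` (positive rational weights, sum `1`, no injectivity) with cost `< η`:
`tails_fin` along `exists_labels` and `pressure_lip` give a real value `F'` with `Tail eig c F' (2η)`.
Two tails `Tail eig c F η`, `Tail eig c F' η'` force `|F - F'| ≤ η + η'`.  Alphabets of arbitrarily small
cost exist: `J = N`, `cq = c N`, `γ = 1/N` (its law is `empiricalLaw (c N)`).  Cauchy sequence, limit `F`,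
`Tail eig c F η` for all `η`; conclude by `conv_of_tails`, `pressure_bdd`, `mean_abs_bdd`.
-/

set_option autoImplicit false

open MeasureTheory ProbabilityTheory Finset Filter Crest.ProbabilityR.InvariantGlass

namespace Crest.Agent.R164

variable {Ω : Type} [MeasurableSpace Ω] {P : Measure Ω} [IsProbabilityMeasure P]
  {Us : (N : ℕ) → Ω → (Fin N → Fin N → ℝ)}
  {μ : Measure ℝ} [IsProbabilityMeasure μ] {lamMinus lamPlus : ℝ} {eig : (N : ℕ) → Fin N → ℝ}

lemma tr_mono {eig c : (N : ℕ) → Fin N → ℝ} {F F' η η' : ℝ} (h : Tail eig c F η)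
    (hd : η + |F - F'| ≤ η') : Tail eig c F' η' := by
  obtain ⟨c₀, hc, h⟩ := h
  refine ⟨c₀, hc, h.mono fun N hN => le_trans (measureReal_mono fun U hU => ?_) hN⟩
  have h1 : η' ≤ |pressureFieldN (eig N) U.1 (c N) - F'| := hU
  have h2 := abs_sub_le (pressureFieldN (eig N) U.1 (c N)) F F'
  change η ≤ |pressureFieldN (eig N) U.1 (c N) - F|
  linarith

lemma tr_small {c₀ : ℝ} (hc : 0 < c₀) : ∀ᶠ N : ℕ in atTop, Real.exp (-(c₀ * N)) < 1 / 2 := by
  have h : Tendsto (fun N : ℕ => Real.exp (-(c₀ * N))) atTop (nhds 0) :=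
    Real.tendsto_exp_neg_atTop_nhds_zero.comp (tendsto_natCast_atTop_atTop.const_mul_atTop hc)
  exact h.eventually (gt_mem_nhds (by norm_num))

lemma tr_close {eig c : (N : ℕ) → Fin N → ℝ} {F F' η η' : ℝ} (h : Tail eig c F η)
    (h' : Tail eig c F' η') : |F - F'| ≤ η + η' := by
  obtain ⟨c₀, hc, h⟩ := h
  obtain ⟨c₁, hc', h'⟩ := h'
  obtain ⟨N, h1, h2, h3, h4⟩ := (h.and (h'.and ((tr_small hc).and (tr_small hc')))).exists
  by_contra hne
  have h5 : (Set.univ : Set (Orth (Fin N))) ⊆ {U | η ≤ |pressureFieldN (eig N) U.1 (c N) - F|} ∪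
      {U | η' ≤ |pressureFieldN (eig N) U.1 (c N) - F'|} := by
    intro U _
    by_contra hU
    simp only [Set.mem_union, Set.mem_ofPred_eq, not_or, not_le] at hU
    have h6 := abs_sub_le F (pressureFieldN (eig N) U.1 (c N)) F'
    rw [abs_sub_comm F (pressureFieldN _ _ _)] at h6
    exact hne (by linarith [hU.1, hU.2])
  have h6 := (measureReal_mono (μ := haar (Fin N)) h5).trans (measureReal_union_le _ _)
  rw [probReal_univ] at h6
  linarith

lemma tr_alpha (hs : SpH μ lamMinus lamPlus eig) {ν : Measure ℝ} [IsProbabilityMeasure ν]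
    {c : (N : ℕ) → Fin N → ℝ}
    (hW : Tendsto (fun N : ℕ => transportCost (empiricalLaw (c N)) ν) atTop (nhds 0))
    {J : ℕ} (cq : Fin J → ℝ) {γ : Fin J → ℚ} (hγ : ∀ j, 0 < γ j) (hγs : ∑ j, γ j = 1) {η : ℝ}
    (hη0 : 0 < η)
    (hη : transportCost (∑ j : Fin J, ENNReal.ofReal ((γ j : ℚ) : ℝ) • Measure.dirac (cq j)) ν <
      ENNReal.ofReal η) :
    ∃ F : ℝ, magneticValue μ lamPlus cq γ = (F : EReal) ∧ Tail eig c F (2 * η) := by
  obtain ⟨lab, hp, hl⟩ := exists_labels hW cq hγ hγs hη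
  obtain ⟨F, hF, ht⟩ := tails_fin hs hγ hγs hp cq
  obtain ⟨c₀, hc, h⟩ := ht η hη0
  refine ⟨F, hF, c₀, hc, ?_⟩
  filter_upwards [h, hl] with N h1 h2
  refine le_trans (measureReal_mono fun U hU => ?_) h1
  have h3 : 2 * η ≤ |pressureFieldN (eig N) U.1 (c N) - F| := hU
  have h4 := pressure_lip (eig N) (c N) (fun r => cq (lab N r)) U.1
  have h5 := abs_sub_le (pressureFieldN (eig N) U.1 (c N))
    (pressureFieldN (eig N) U.1 fun r => cq (lab N r)) F
  change η ≤ |(pressureFieldN (eig N) U.1 fun r => cq (lab N r)) - F|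
  linarith

lemma tr_exists (hs : SpH μ lamMinus lamPlus eig) {ν : Measure ℝ} [IsProbabilityMeasure ν]
    {c : (N : ℕ) → Fin N → ℝ}
    (hW : Tendsto (fun N : ℕ => transportCost (empiricalLaw (c N)) ν) atTop (nhds 0)) {η : ℝ}
    (hη : 0 < η) : ∃ F : ℝ, Tail eig c F (2 * η) := by
  obtain ⟨N, h1, hN⟩ := ((hW.eventually (gt_mem_nhds (ENNReal.ofReal_pos.2 hη))).and
    (eventually_gt_atTop 0)).exists
  have hN' : (0 : ℚ) < N := by exact_mod_cast hN
  have hN'' : (0 : ℝ) < N := by exact_mod_cast hN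
  obtain ⟨F, -, hF⟩ := tr_alpha hs hW (c N) (γ := fun _ => (N : ℚ)⁻¹) (fun _ => inv_pos.2 hN')
    (by simp [hN'.ne']) hη (by
      rw [← Finset.smul_sum, Rat.cast_inv, Rat.cast_natCast, ENNReal.ofReal_inv_of_pos hN'',
        ENNReal.ofReal_natCast]
      exact h1)
  exact ⟨F, hF⟩

lemma tr_limit (hs : SpH μ lamMinus lamPlus eig) {ν : Measure ℝ} [IsProbabilityMeasure ν]
    {c : (N : ℕ) → Fin N → ℝ}
    (hW : Tendsto (fun N : ℕ => transportCost (empiricalLaw (c N)) ν) atTop (nhds 0)) :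
    ∃ F : ℝ, ∀ η : ℝ, 0 < η → Tail eig c F η := by
  choose G hG using fun η : Set.Ioi (0 : ℝ) => tr_exists hs hW η.2
  have : Nonempty (Set.Ioi (0 : ℝ)) := ⟨⟨1, Set.mem_Ioi.2 one_pos⟩⟩
  have h1 : ∀ η η' : Set.Ioi (0 : ℝ), G η - 2 * η ≤ G η' + 2 * η' := fun η η' => by
    linarith [(abs_le.1 (tr_close (hG η) (hG η'))).2]
  refine ⟨⨆ η : Set.Ioi (0 : ℝ), (G η - 2 * η), fun η hη => ?_⟩
  let e : Set.Ioi (0 : ℝ) := ⟨η / 4, Set.mem_Ioi.2 (by positivity)⟩
  have h2 : G e - 2 * e ≤ ⨆ η : Set.Ioi (0 : ℝ), (G η - 2 * η) :=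
    le_ciSup (f := fun η : Set.Ioi (0 : ℝ) => G η - 2 * η) ⟨G e + 2 * e, by
      rintro _ ⟨η', rfl⟩
      exact h1 η' e⟩ e
  have h3 : ⨆ η : Set.Ioi (0 : ℝ), (G η - 2 * η) ≤ G e + 2 * e := ciSup_le fun η' => h1 η' e
  have h4 : |G e - ⨆ η : Set.Ioi (0 : ℝ), (G η - 2 * η)| ≤ 2 * e :=
    abs_le.2 ⟨by linarith, by linarith⟩
  have h5 : (e : ℝ) = η / 4 := rfl
  exact tr_mono (hG e) (by linarith)

theorem main_trans (hs : SpH μ lamMinus lamPlus eig) (h : HaH P Us) (ν : Measure ℝ)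
    [IsProbabilityMeasure ν] (hν : Integrable (fun x : ℝ => x) ν) (c : (N : ℕ) → Fin N → ℝ)
    (hW : Tendsto (fun N : ℕ => transportCost (empiricalLaw (c N)) ν) atTop (nhds 0)) :
    ∃ F : ℝ,
      (∀ (Jq : ℕ → ℕ) (cq : (q : ℕ) → Fin (Jq q) → ℝ) (γq : (q : ℕ) → Fin (Jq q) → ℚ),
        (∀ q, Function.Injective (cq q) ∧ (∀ j, 0 < γq q j) ∧ ∑ j, γq q j = 1) →
        Tendsto (fun q : ℕ => transportCost
            (∑ j : Fin (Jq q), ENNReal.ofReal ((γq q j : ℚ) : ℝ) • Measure.dirac (cq q j)) ν)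
          atTop (nhds 0) →
        Tendsto (fun q : ℕ => magneticValue μ lamPlus (cq q) (γq q)) atTop (nhds (F : EReal))) ∧
      Tendsto (fun N : ℕ => ∫ ω, pressureFieldN (eig N) (Matrix.of (Us N ω)) (c N) ∂P)
        atTop (nhds F) ∧
      ∀ᵐ ω ∂P, Tendsto (fun N : ℕ => pressureFieldN (eig N) (Matrix.of (Us N ω)) (c N))
        atTop (nhds F) := by
  obtain ⟨F, hF⟩ := tr_limit hs hW
  obtain ⟨B, hB⟩ := mean_abs_bdd hν hW
  obtain ⟨B', hB'⟩ := pressure_bdd hs hB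
  refine ⟨F, fun Jq cq γq hq hc => ?_, conv_of_tails h hB' hF⟩
  have key : ∀ η : ℝ, 0 < η → ∀ᶠ q : ℕ in atTop, ∃ F' : ℝ,
      magneticValue μ lamPlus (cq q) (γq q) = (F' : EReal) ∧ |F' - F| ≤ 2 * η + η := by
    intro η hη
    filter_upwards [hc.eventually (gt_mem_nhds (ENNReal.ofReal_pos.2 hη))] with q h1
    obtain ⟨F', h2, h3⟩ := tr_alpha hs hW (cq q) (hq q).2.1 (hq q).2.2 hη h1
    exact ⟨F', h2, tr_close h3 (hF η hη)⟩
  have h1 : Tendsto (fun q => (magneticValue μ lamPlus (cq q) (γq q)).toReal) atTop (nhds F) := by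
    refine Metric.tendsto_nhds.2 fun ε hε => ?_
    filter_upwards [key (ε / 4) (by positivity)] with q ⟨F', h2, h3⟩
    rw [h2, EReal.toReal_coe, Real.dist_eq]
    linarith
  refine (EReal.tendsto_coe.2 h1).congr' ?_
  filter_upwards [key 1 one_pos] with q ⟨F', h2, _⟩
  rw [h2, EReal.toReal_coe]

end Crest.Agent.R164
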